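import Vale.Agent.P182.H163.Coord

/-!
# A generic point with enough derivations
-/

namespace Vale.Agent.P182

open LieAlgebra.Orthogonal

attribute [local instance 100] LieRing.ofAssociativeRing

section special

variable {n : ℕ}

/-- the span of the tangent vectors of a word at a complex point -/
def Spn (l : List (so n)) (p : ℕ → ℂ) : Submodule ℂ (Matrix (Fin n ⊕ Fin n) (Fin n ⊕ Fin n) ℂ) :=
  Submodule.span ℂ {X | ∃ k < l.length, X = tv l p k}

/-- the periodic parameters `1, 0, -1` -/
def p3 (k : ℕ) : ℂ := if k % 3 = 0 then 1 else if k % 3 = 1 then 0 else -1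

theorem p3_add (k : ℕ) : p3 (k + 3) = p3 k := by
  rw [p3, p3, Nat.add_mod_right]

/-- the blocks `x, y, x` -/
def flat : List (so n × so n) → List (so n)
  | [] => []
  | b :: bl => b.1 :: b.2 :: b.1 :: flat bl

theorem mem_flat {bl : List (so n × so n)} (h : ∀ b ∈ bl, b.1 ∈ rootSet n ∧ b.2 ∈ rootSet n) :
    ∀ x ∈ flat bl, x ∈ rootSet n := by
  induction bl with
  | nil => intro x hx; simp [flat] at hx
  | cons b bl ih =>
    intro x hx
    simp only [flat, List.mem_cons] at hx
    rcases hx with rfl | rfl | rfl | hx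
    · exact (h b List.mem_cons_self).1
    · exact (h b List.mem_cons_self).2
    · exact (h b List.mem_cons_self).1
    · exact ih (fun b hb => h b (List.mem_cons_of_mem _ hb)) x hx

theorem tv_flat_cons (b : so n × so n) (hb : b.1 ∈ rootSet n) (bl : List (so n × so n)) (k : ℕ) :
    tv (flat (b :: bl)) p3 (k + 3) = tv (flat bl) p3 k := by
  have h0 : p3 0 = 1 := by simp [p3]
  have h1 : p3 1 = 0 := by simp [p3]
  have h2 : p3 2 = -1 := by simp [p3]
  have hsh : (fun k => p3 (k + 1 + 1 + 1)) = p3 := by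
    funext k
    exact p3_add k
  have hs := mp_sq (A := ℂ) hb
  rw [flat, tv, tv, tv]
  simp only [zero_add, h0, h1, h2, hsh]
  have e1 : (1 + (1 : ℂ) • mp ℂ b.1) * (1 + (0 : ℂ) • mp ℂ b.2) * (1 + (-1 : ℂ) • mp ℂ b.1) = 1 := by
    rw [one_smul, zero_smul, add_zero, mul_one, neg_one_smul, ← sub_eq_add_neg]
    have := add_mul_sub (A := ℂ) hb 1
    rwa [one_smul] at this
  have e2 : (1 - (-1 : ℂ) • mp ℂ b.1) * (1 - (0 : ℂ) • mp ℂ b.2) * (1 - (1 : ℂ) • mp ℂ b.1) = 1 := by
    rw [one_smul, zero_smul, sub_zero, mul_one, neg_one_smul, sub_neg_eq_add]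
    have := add_mul_sub (A := ℂ) hb 1
    rwa [one_smul] at this
  have e3 : ∀ P Q R P' Q' R' T : Matrix (Fin n ⊕ Fin n) (Fin n ⊕ Fin n) ℂ,
      P * Q * R = 1 → R' * Q' * P' = 1 → P * (Q * (R * T * R') * Q') * P' = T := by
    intro P Q R P' Q' R' T h h'
    have : P * (Q * (R * T * R') * Q') * P' = (P * Q * R) * T * (R' * Q' * P') := by
      simp only [Matrix.mul_assoc]
    rw [this, h, h', Matrix.one_mul, Matrix.mul_one]
  exact e3 _ _ _ _ _ _ _ e1 e2

theorem spn_flat_cons {b : so n × so n} (hb : b.1 ∈ rootSet n) (bl : List (so n × so n)) :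
    Spn (flat bl) p3 ≤ Spn (flat (b :: bl)) p3 := by
  rw [Spn, Submodule.span_le]
  rintro X ⟨k, hk, rfl⟩
  refine Submodule.subset_span ⟨k + 3, ?_, (tv_flat_cons b hb bl k).symm⟩
  simp only [flat, List.length_cons]
  omega

theorem mem_spn_flat {bl : List (so n × so n)}
    (h : ∀ b ∈ bl, b.1 ∈ rootSet n ∧ b.2 ∈ rootSet n) {b : so n × so n} (hb : b ∈ bl) :
    b.1.1 ∈ Spn (flat bl) p3 ∧
      b.2.1 + (b.1.1 * b.2.1 - b.2.1 * b.1.1) - b.1.1 * b.2.1 * b.1.1 ∈ Spn (flat bl) p3 := by
  induction bl with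
  | nil => simp at hb
  | cons c bl ih =>
    have hc := (h c List.mem_cons_self).1
    rcases List.mem_cons.mp hb with rfl | hb
    · constructor
      · refine Submodule.subset_span ⟨0, ?_, ?_⟩
        · simp [flat]
        · rw [flat, tv, mp_complex]
      · refine Submodule.subset_span ⟨1, ?_, ?_⟩
        · simp [flat]
        · have h0 : p3 0 = 1 := by simp [p3]
          rw [flat, tv, tv, h0, mp_complex, mp_complex, one_smul, add_mul, one_mul, mul_sub,
            mul_one, add_mul]
          abel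
    · obtain ⟨h1, h2⟩ := ih (fun b hb => h b (List.mem_cons_of_mem _ hb)) hb
      exact ⟨spn_flat_cons hc bl h1, spn_flat_cons hc bl h2⟩

/-- all blocks -/
noncomputable def allBlocks (n : ℕ) : List (so n × so n) :=
  ((Finset.univ : Finset (Fin n × Fin n)).toList.filter fun p => p.1 ≠ p.2).flatMap fun p =>
    [(eA p.1 p.2, eA p.2 p.1), (eB p.1 p.2, eC p.2 p.1), (eC p.2 p.1, eB p.1 p.2)]

theorem mem_allBlocks {b : so n × so n} : b ∈ allBlocks n ↔ ∃ i j : Fin n, i ≠ j ∧
    (b = (eA i j, eA j i) ∨ b = (eB i j, eC j i) ∨ b = (eC j i, eB i j)) := by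
  simp only [allBlocks, List.mem_flatMap, List.mem_filter, Finset.mem_toList, Finset.mem_univ,
    true_and, decide_eq_true_eq, List.mem_cons, List.not_mem_nil, or_false, Prod.exists, ne_eq]

theorem allBlocks_root : ∀ b ∈ allBlocks n, b.1 ∈ rootSet n ∧ b.2 ∈ rootSet n := by
  intro b hb
  obtain ⟨i, j, hij, rfl | rfl | rfl⟩ := mem_allBlocks.mp hb
  · exact ⟨⟨i, j, hij, Or.inl rfl⟩, ⟨j, i, hij.symm, Or.inl rfl⟩⟩
  · exact ⟨⟨i, j, hij, Or.inr (Or.inl rfl)⟩, ⟨j, i, hij.symm, Or.inr (Or.inr rfl)⟩⟩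
  · exact ⟨⟨j, i, hij.symm, Or.inr (Or.inr rfl)⟩, ⟨i, j, hij, Or.inr (Or.inl rfl)⟩⟩

theorem spn_allBlocks (hn : 2 ≤ n) (x : so n) : x.1 ∈ Spn (flat (allBlocks n)) p3 := by
  set S := Spn (flat (allBlocks n)) p3 with hS
  have hmem := fun (b : so n × so n) (hb : b ∈ allBlocks n) => mem_spn_flat allBlocks_root hb
  have hA : ∀ i j, i ≠ j → (eA i j).1 ∈ S := fun i j h =>
    (hmem (eA i j, eA j i) (mem_allBlocks.mpr ⟨i, j, h, Or.inl rfl⟩)).1
  have hB : ∀ i j, (eB i j).1 ∈ S := by
    intro i j
    by_cases h : i = j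
    · subst h; rw [eB_self]; exact S.zero_mem
    · exact (hmem (eB i j, eC j i) (mem_allBlocks.mpr ⟨i, j, h, Or.inr (Or.inl rfl)⟩)).1
  have hC : ∀ i j, (eC i j).1 ∈ S := by
    intro i j
    by_cases h : j = i
    · subst h; rw [eC_self]; exact S.zero_mem
    · exact (hmem (eC i j, eB j i) (mem_allBlocks.mpr ⟨j, i, h, Or.inr (Or.inr rfl)⟩)).1
  have tripleA : ∀ i j : Fin n, i ≠ j → (eA i j).1 * (eA j i).1 * (eA i j).1 = (eA i j).1 := by
    intro i j h
    simp only [eA, mul_sub, sub_mul, Matrix.single_mul_single_same]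
    simp [Matrix.single_mul_single_of_ne]
  have tripleB : ∀ i j : Fin n, i ≠ j → (eB i j).1 * (eC j i).1 * (eB i j).1 = (eB i j).1 := by
    intro i j h
    simp only [eB, eC, mul_sub, sub_mul, Matrix.single_mul_single_same]
    simp [h, h.symm, Matrix.single_mul_single_of_ne]
  have hHA : ∀ i j, i ≠ j → (eA i i).1 - (eA j j).1 ∈ S := by
    intro i j h
    have h1 := (hmem (eA i j, eA j i) (mem_allBlocks.mpr ⟨i, j, h, Or.inl rfl⟩)).2
    have h2 : (eA i j).1 * (eA j i).1 - (eA j i).1 * (eA i j).1 = (eA i i).1 - (eA j j).1 := by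
      have := congrArg Subtype.val (lie_eA_eA h)
      rw [so_lie_val] at this
      exact this
    simp only at h1
    rw [h2, tripleA i j h] at h1
    have h3 := S.add_mem (S.sub_mem h1 (hA j i h.symm)) (hA i j h)
    have h4 : (eA j i).1 + ((eA i i).1 - (eA j j).1) - (eA i j).1 - (eA j i).1 + (eA i j).1 =
        (eA i i).1 - (eA j j).1 := by abel
    rwa [h4] at h3
  have hHB : ∀ i j, i ≠ j → (eA i i).1 + (eA j j).1 ∈ S := by
    intro i j h
    have h1 := (hmem (eB i j, eC j i) (mem_allBlocks.mpr ⟨i, j, h, Or.inr (Or.inl rfl)⟩)).2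
    have h2 : (eB i j).1 * (eC j i).1 - (eC j i).1 * (eB i j).1 = (eA i i).1 + (eA j j).1 := by
      have := congrArg Subtype.val (lie_eB_eC h)
      rw [so_lie_val] at this
      exact this
    simp only at h1
    rw [h2, tripleB i j h] at h1
    have h3 := S.add_mem (S.sub_mem h1 (hC j i)) (hB i j)
    have h4 : (eC j i).1 + ((eA i i).1 + (eA j j).1) - (eB i j).1 - (eC j i).1 + (eB i j).1 =
        (eA i i).1 + (eA j j).1 := by abel
    rwa [h4] at h3
  have hAA : ∀ i, (eA i i).1 ∈ S := by
    intro i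
    obtain ⟨j, hj⟩ : ∃ j : Fin n, i ≠ j := by
      have : Nontrivial (Fin n) := Fin.nontrivial_iff_two_le.mpr hn
      obtain ⟨j, hj⟩ := exists_ne i
      exact ⟨j, hj.symm⟩
    have h3 := S.smul_mem (2⁻¹ : ℂ) (S.add_mem (hHA i j hj) (hHB i j hj))
    have : (2⁻¹ : ℂ) • ((eA i i).1 - (eA j j).1 + ((eA i i).1 + (eA j j).1)) = (eA i i).1 := by
      have e : (eA i i).1 - (eA j j).1 + ((eA i i).1 + (eA j j).1) = (2 : ℂ) • (eA i i).1 := by
        rw [two_smul]; abel
      rw [e, smul_smul, inv_mul_cancel₀ two_ne_zero, one_smul]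
    rwa [this] at h3
  have hA' : ∀ i j, (eA i j).1 ∈ S := by
    intro i j
    by_cases h : i = j
    · subst h; exact hAA i
    · exact hA i j h
  have hx : IsSo x.1 := (mem_so x.1).mp x.2
  rw [isSo_expand hx]
  simp only [mp_complex]
  refine S.add_mem (S.add_mem ?_ (S.smul_mem _ ?_)) (S.smul_mem _ ?_)
  · exact S.sum_mem fun i _ => S.sum_mem fun j _ => S.smul_mem _ (hA' i j)
  · exact S.sum_mem fun i _ => S.sum_mem fun j _ => S.smul_mem _ (hB i j)
  · exact S.sum_mem fun i _ => S.sum_mem fun j _ => S.smul_mem _ (hC i j)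

end special

section point

variable {n : ℕ} {C : Type}

/-- The coordinate ring of the parameter space. -/
abbrev GR (C : Type) := MvPolynomial ((Fin 3 × ℕ) ⊕ (C × C)) ℂ

/-- Its field of fractions. -/
abbrev GF (C : Type) := FractionRing (GR C)

/-- The generic frames. -/
noncomputable def genG (C : Type) (l : List (so n)) (s : Fin 3) :
    Matrix (Fin n ⊕ Fin n) (Fin n ⊕ Fin n) (GR C) :=
  wp l fun k => MvPolynomial.X (Sum.inl (s, k))

/-- The generic skew matrix. -/
noncomputable def genΩ (c c' : C) : GR C :=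
  MvPolynomial.X (Sum.inr (c, c')) - MvPolynomial.X (Sum.inr (c', c))

theorem genΩ_skew (c c' : C) : genΩ c c' = - genΩ c' c := by
  rw [genΩ, genΩ, neg_sub]

/-- the embedding in the field of fractions -/
noncomputable def toGF (C : Type) : GR C →ₐ[ℂ] GF C := IsScalarTower.toAlgHom ℂ (GR C) (GF C)

theorem toGF_injective : Function.Injective (toGF C) := IsFractionRing.injective (GR C) (GF C)

theorem genG_orth {l : List (so n)} (hl : ∀ x ∈ l, x ∈ rootSet n) (s : Fin 3) :
    (genG C l s).transpose * JD (Fin n) (GR C) * genG C l s = JD (Fin n) (GR C) :=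
  wp_orth hl _

theorem InE_wp {l : List (so n)} (hl : ∀ x ∈ l, x ∈ rootSet n) (y : ℕ → ℂ) : InE n (wp l y) := by
  induction l generalizing y with
  | nil => exact InE.one
  | cons x l ih =>
    rw [wp, mp_complex]
    exact InE.mul x (hl x List.mem_cons_self) _ _
      (ih (fun z hz => hl z (List.mem_cons_of_mem _ hz)) _)

theorem genG_ev {l : List (so n)} (hl : ∀ x ∈ l, x ∈ rootSet n) (ev : GR C →ₐ[ℂ] ℂ) (s : Fin 3) :
    InE n ((genG C l s).map ev) := by
  rw [genG, wp_map]
  exact InE_wp hl _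

/-- Non-vanishing is detected by specialisation. -/
theorem exists_ev {r : GR C} (hr : r ≠ 0) : ∃ ev : GR C →ₐ[ℂ] ℂ, ev r ≠ 0 := by
  by_contra h
  push Not at h
  apply hr
  refine MvPolynomial.funext fun x => ?_
  rw [map_zero]
  have := h (MvPolynomial.aeval x)
  rwa [MvPolynomial.aeval_eq_eval] at this

theorem exists_wp {g : Matrix (Fin n ⊕ Fin n) (Fin n ⊕ Fin n) ℂ} (hg : InE n g) :
    ∃ (l : List (so n)) (y : ℕ → ℂ), (∀ x ∈ l, x ∈ rootSet n) ∧ wp l y = g := by
  induction hg with
  | one => exact ⟨[], fun _ => 0, by simp, rfl⟩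
  | mul x hx s g _ ih =>
    obtain ⟨l, y, hl, rfl⟩ := ih
    refine ⟨x :: l, fun k => Nat.casesOn k s y, ?_, ?_⟩
    · intro z hz
      rcases List.mem_cons.mp hz with rfl | hz
      · exact hx
      · exact hl z hz
    · rw [wp, mp_complex]
      rfl

/-- the words used for the generic frames -/
noncomputable def gword (l : List (so n)) : List (so n) := l ++ flat (allBlocks n)

theorem gword_root {l : List (so n)} (hl : ∀ x ∈ l, x ∈ rootSet n) :
    ∀ x ∈ gword l, x ∈ rootSet n := by
  intro x hx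
  rcases List.mem_append.mp hx with h | h
  · exact hl x h
  · exact mem_flat allBlocks_root x h

/-- The generic frames specialise to given frames. -/
theorem exists_gword (C : Type) {g : Fin 3 → Matrix (Fin n ⊕ Fin n) (Fin n ⊕ Fin n) ℂ}
    (hg : ∀ s, InE n (g s)) :
    ∃ l : List (so n), (∀ x ∈ l, x ∈ rootSet n) ∧
      ∃ ev : GR C →ₐ[ℂ] ℂ, ∀ s, (genG C (gword l) s).map ev = g s := by
  choose l y hl hy using fun s => exists_wp (hg s)
  refine ⟨l 0 ++ (l 1 ++ l 2), ?_, ?_⟩
  · intro x hx
    rcases List.mem_append.mp hx with h | h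
    · exact hl 0 x h
    · rcases List.mem_append.mp h with h | h
      · exact hl 1 x h
      · exact hl 2 x h
  · -- parameters
    let a := (l 0).length
    let b := (l 1).length
    let c := (l 2).length
    let P : Fin 3 → ℕ → ℂ := ![fun k => if k < a then y 0 k else 0,
      fun k => if a ≤ k ∧ k < a + b then y 1 (k - a) else 0,
      fun k => if a + b ≤ k ∧ k < a + b + c then y 2 (k - (a + b)) else 0]
    refine ⟨MvPolynomial.aeval (Sum.elim (fun p => P p.1 p.2) fun _ => 0), fun s => ?_⟩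
    rw [genG, wp_map]
    simp only [MvPolynomial.aeval_X, Sum.elim_inl]
    rw [gword, wp_append, wp_append, wp_append]
    simp only [List.length_append]
    have hz : ∀ (l' : List (so n)) (z : ℕ → ℂ), (∀ k < l'.length, z k = 0) → wp l' z = 1 :=
      fun l' z h => by rw [wp_congr (y' := fun _ => 0) h, wp_zero]
    fin_cases s
    · show wp (l 0) (P 0) * (wp (l 1) (fun k => P 0 (a + k)) *
        wp (l 2) (fun k => P 0 (a + (b + k)))) *
        wp (flat (allBlocks n)) (fun k => P 0 (a + (b + c) + k)) = g 0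
      rw [hz (l 1), hz (l 2), hz (flat _), mul_one, mul_one, mul_one, ← hy 0]
      · exact wp_congr fun k hk => if_pos hk
      · intro k _; exact if_neg (by omega)
      · intro k _; exact if_neg (by omega)
      · intro k _; exact if_neg (by omega)
    · show wp (l 0) (P 1) * (wp (l 1) (fun k => P 1 (a + k)) *
        wp (l 2) (fun k => P 1 (a + (b + k)))) *
        wp (flat (allBlocks n)) (fun k => P 1 (a + (b + c) + k)) = g 1
      rw [hz (l 0), hz (l 2), hz (flat _), mul_one, mul_one, one_mul, ← hy 1]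
      · refine wp_congr fun k hk => ?_
        show (if a ≤ a + k ∧ a + k < a + b then y 1 (a + k - a) else 0) = _
        rw [if_pos ⟨by omega, by simpa [b] using hk⟩, Nat.add_sub_cancel_left]
      · intro k _; exact if_neg (by omega)
      · intro k _; exact if_neg (by omega)
      · intro k hk; exact if_neg (by simp only [a, b] at *; omega)
    · show wp (l 0) (P 2) * (wp (l 1) (fun k => P 2 (a + k)) *
        wp (l 2) (fun k => P 2 (a + (b + k)))) *
        wp (flat (allBlocks n)) (fun k => P 2 (a + (b + c) + k)) = g 2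
      rw [hz (l 0), hz (l 1), hz (flat _), mul_one, one_mul, one_mul, ← hy 2]
      · refine wp_congr fun k hk => ?_
        show (if a + b ≤ a + (b + k) ∧ a + (b + k) < a + b + c then
          y 2 (a + (b + k) - (a + b)) else 0) = _
        rw [if_pos ⟨by omega, by simp only [c]; omega⟩]
        congr 1
        omega
      · intro k _; exact if_neg (by omega)
      · intro k hk; exact if_neg (by simp only [a, b] at *; omega)
      · intro k hk; exact if_neg (by simp only [a, b] at *; omega)

/-- The frames over the field. -/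
noncomputable def gF (C : Type) (l : List (so n)) (s : Fin 3) :
    Matrix (Fin n ⊕ Fin n) (Fin n ⊕ Fin n) (GF C) := (genG C l s).map (toGF C)

/-- The skew matrix over the field. -/
noncomputable def gΩ (c c' : C) : GF C := toGF C (genΩ c c')

/-- **Transitivity of the derivations.** -/
theorem exists_der (hn : 2 ≤ n) {l : List (so n)} (hl : ∀ x ∈ l, x ∈ rootSet n)
    (Y : Fin 3 → Matrix (Fin n ⊕ Fin n) (Fin n ⊕ Fin n) (GF C)) (hY : ∀ s, IsSo (Y s))
    (η : C → C → GF C) (hη : ∀ c c', η c c' = - η c' c) :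
    ∃ D : Derivation ℂ (GF C) (GF C),
      (∀ s, (gF C (gword l) s).map D = Y s * gF C (gword l) s) ∧
      ∀ c c', D (gΩ c c') = η c c' := by
  have hlg := gword_root hl
  -- coefficients
  have hcoef : ∀ s, ∃ a : Fin (gword l).length → GF C, Y s = ∑ k, a k •
      (tv (gword l) (fun k => MvPolynomial.X (Sum.inl (s, k))) k : Matrix _ _ (GR C)).map
        (toGF C) := by
    intro s
    let P : ℕ → ℂ := fun k => if k < l.length then 0 else p3 (k - l.length)
    let ev : GR C →ₐ[ℂ] ℂ := MvPolynomial.aeval (Sum.elim (fun p => P p.2) fun _ => 0)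
    refine lift_span (toGF C) toGF_injective ev _ (fun k => isSo_tv _ _ _) ?_ (hY s)
    intro x
    have hx := spn_allBlocks hn x
    have htv : ∀ k : ℕ, (tv (gword l) (fun k => MvPolynomial.X (Sum.inl (s, k))) k :
        Matrix _ _ (GR C)).map ev = tv (gword l) P k := by
      intro k
      rw [tv_map]
      congr 1
      funext k
      simp [ev]
    simp only [htv]
    have hsub : Spn (flat (allBlocks n)) p3 ≤ Submodule.span ℂ
        (Set.range fun k : Fin (gword l).length => tv (gword l) P k) := by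
      rw [Spn, Submodule.span_le]
      rintro X ⟨k, hk, rfl⟩
      refine Submodule.subset_span ⟨⟨l.length + k, ?_⟩, ?_⟩
      · rw [gword, List.length_append]; omega
      · show tv (gword l) P (l.length + k) = _
        have h1 : wp l P = 1 := by
          rw [wp_congr (y' := fun _ => 0) (fun k hk => if_pos hk), wp_zero]
        have h2 : wpi l P = 1 := by
          have := wp_mul_wpi hl P
          rwa [h1, one_mul] at this
        rw [gword, tv_append_right, h1, h2, one_mul, mul_one]
        refine tv_congr (fun k _ => ?_) k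
        show (if l.length + k < l.length then (0 : ℂ) else p3 (l.length + k - l.length)) = _
        rw [if_neg (by omega), Nat.add_sub_cancel_left]
    obtain ⟨a, ha⟩ := (Submodule.mem_span_range_iff_exists_fun ℂ).mp (hsub hx)
    exact ⟨a, ha.symm⟩
  choose a ha using hcoef
  obtain ⟨D, hD⟩ := exists_derivation_mv (k := ℂ) (L := GF C)
    (Sum.elim (fun p : Fin 3 × ℕ => if h : p.2 < (gword l).length then a p.1 ⟨p.2, h⟩ else 0)
      fun p : C × C => (2⁻¹ : ℂ) • η p.1 p.2)
  refine ⟨D, fun s => ?_, fun c c' => ?_⟩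
  · have h1 : gF C (gword l) s = wp (gword l) (fun k => toGF C (MvPolynomial.X (Sum.inl (s, k)))) := by
      rw [gF, genG, wp_map]
    rw [h1, wp_der hlg]
    congr 1
    rw [ha s, Finset.sum_range]
    refine Finset.sum_congr rfl fun k _ => ?_
    rw [tv_map]
    congr 1
    have := hD (Sum.inl (s, (k : ℕ)))
    rw [Sum.elim_inl, dif_pos k.2] at this
    exact this
  · rw [gΩ, genΩ, map_sub, map_sub]
    have h1 := hD (Sum.inr (c, c'))
    have h2 := hD (Sum.inr (c', c))
    rw [Sum.elim_inr] at h1 h2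
    have h1' : D (toGF C (MvPolynomial.X (Sum.inr (c, c')))) = (2⁻¹ : ℂ) • η c c' := h1
    have h2' : D (toGF C (MvPolynomial.X (Sum.inr (c', c)))) = (2⁻¹ : ℂ) • η c' c := h2
    rw [h1', h2', hη c' c, smul_neg, sub_neg_eq_add, ← add_smul]
    norm_num

end point

end Vale.Agent.P182
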