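import Vale.Agent.P182.H163.Scale
import Vale.Agent.P182.H163.Generic

/-!
# Saturation from the core statement
-/

namespace Vale.Agent.P182

open LieAlgebra.Orthogonal

variable {n : ℕ}

theorem asymT_map {A A' : Type*} [CommRing A] [CommRing A'] (φ : A →+* A') (lam : Fin 3 → Fin n → ℤ)
    (g : Fin 3 → Matrix (Fin n ⊕ Fin n) (Fin n ⊕ Fin n) A) (β : CellT lam → Fin n ⊕ Fin n) :
    φ (asymT lam g β) = asymT lam (fun s => (g s).map φ) β := by
  rw [asymT, asymT, map_prod]
  refine Finset.prod_congr rfl fun l _ => ?_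
  rw [RingHom.map_det]
  rfl

theorem JD_map {A A' : Type*} [CommRing A] [CommRing A'] (φ : A →+* A') (b b' : Fin n ⊕ Fin n) :
    φ (JD (Fin n) A b b') = JD (Fin n) A' b b' := by
  rw [JD_eq, JD_eq]
  split_ifs <;> simp

theorem gramT_map {A A' : Type*} [CommRing A] [CommRing A'] (φ : A →+* A')
    (lam : Fin 3 → Fin n → ℤ) (g : Fin 3 → Matrix (Fin n ⊕ Fin n) (Fin n ⊕ Fin n) A)
    (ω : ColT lam → ColT lam → A) :
    (gramT lam g ω).map φ = gramT lam (fun s => (g s).map φ) (fun l l' => φ (ω l l')) := by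
  ext j j'
  rw [Matrix.map_apply, gramT, gramT, Matrix.of_apply, Matrix.of_apply, map_mul, qf, qf, map_sum]
  congr 1
  refine Finset.sum_congr rfl fun b _ => ?_
  rw [map_sum]
  refine Finset.sum_congr rfl fun b' _ => ?_
  rw [map_mul, map_mul, JD_map]
  rfl

/-- **Saturation from the core statement** (integral weights). -/
theorem hasInvariants_of_core (hn : 2 ≤ n) {lam : Fin 3 → Fin n → ℤ} (hl : ∀ s, DomZ (lam s))
    (core : ∀ l : List (so n), (∀ x ∈ l, x ∈ rootSet n) →
      (∀ S : Submodule (GF (ColT lam)) (Fin n ⊕ Fin n → GF (ColT lam)),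
        (∀ u ∈ S, ∀ v ∈ S, qf u v = 0) → theta lam (gF (ColT lam) (gword l)) S ≤ 0) →
      (gramT lam (gF (ColT lam) (gword l)) gΩ).det ≠ 0)
    {N : ℕ} (hN : 0 < N)
    {V₀ V₁ V₂ W₀ W₁ W₂ : Type*} [AddCommGroup V₀] [Module ℂ V₀]
    [LieRingModule (so n) V₀] [LieModule ℂ (so n) V₀] [AddCommGroup V₁] [Module ℂ V₁]
    [LieRingModule (so n) V₁] [LieModule ℂ (so n) V₁] [AddCommGroup V₂] [Module ℂ V₂]
    [LieRingModule (so n) V₂] [LieModule ℂ (so n) V₂] [AddCommGroup W₀] [Module ℂ W₀]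
    [LieRingModule (so n) W₀] [LieModule ℂ (so n) W₀] [AddCommGroup W₁] [Module ℂ W₁]
    [LieRingModule (so n) W₁] [LieModule ℂ (so n) W₁] [AddCommGroup W₂] [Module ℂ W₂]
    [LieRingModule (so n) W₂] [LieModule ℂ (so n) W₂]
    [LieModule.IsIrreducible ℂ (so n) V₀] [LieModule.IsIrreducible ℂ (so n) V₁]
    [LieModule.IsIrreducible ℂ (so n) V₂] [LieModule.IsIrreducible ℂ (so n) W₀]
    [LieModule.IsIrreducible ℂ (so n) W₁] [LieModule.IsIrreducible ℂ (so n) W₂]
    (v₀ : HasHighestWeight (fun i => (lam 0 i : ℚ)) V₀)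
    (v₁ : HasHighestWeight (fun i => (lam 1 i : ℚ)) V₁)
    (v₂ : HasHighestWeight (fun i => (lam 2 i : ℚ)) V₂)
    (w₀ : HasHighestWeight (fun i => ((N : ℤ) * lam 0 i : ℤ)) W₀)
    (w₁ : HasHighestWeight (fun i => ((N : ℤ) * lam 1 i : ℤ)) W₁)
    (w₂ : HasHighestWeight (fun i => ((N : ℤ) * lam 2 i : ℤ)) W₂)
    (h : HasInvariants (n := n) W₀ W₁ W₂) : HasInvariants (n := n) V₀ V₁ V₂ := by
  have hlN : ∀ s, DomZ (fun i => (N : ℤ) * lam s i) := by
    intro s i j hij
    have := hl s i j hij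
    rw [abs_mul, abs_of_nonneg (by positivity : (0 : ℤ) ≤ N)]
    exact mul_le_mul_of_nonneg_left this (by positivity)
  rw [hasInvariants_iff_form hn (lam := fun s i => (N : ℤ) * lam s i) hlN w₀ w₁ w₂] at h
  obtain ⟨f, hf, g', hg', hne⟩ := h
  obtain ⟨l, hlr, ev, hev⟩ := exists_gword (ColT lam) hg'
  have hne' : ∑ β, algebraMap ℂ (GF (ColT lam)) (f β) *
      asymT (fun s i => (N : ℤ) * lam s i) (gF (ColT lam) (gword l)) β ≠ 0 := by
    have h1 : ∑ β, algebraMap ℂ (GF (ColT lam)) (f β) *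
        asymT (fun s i => (N : ℤ) * lam s i) (gF (ColT lam) (gword l)) β =
        toGF (ColT lam) (∑ β, algebraMap ℂ (GR (ColT lam)) (f β) *
          asymT (fun s i => (N : ℤ) * lam s i) (genG (ColT lam) (gword l)) β) := by
      rw [map_sum]
      refine Finset.sum_congr rfl fun β _ => ?_
      rw [map_mul, AlgHom.commutes]
      congr 1
      exact (asymT_map (toGF (ColT lam)).toRingHom _ _ β).symm
    have h2 : ev (∑ β, algebraMap ℂ (GR (ColT lam)) (f β) *
          asymT (fun s i => (N : ℤ) * lam s i) (genG (ColT lam) (gword l)) β) =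
        ∑ β, f β * asymT (fun s i => (N : ℤ) * lam s i) g' β := by
      rw [map_sum]
      refine Finset.sum_congr rfl fun β _ => ?_
      rw [map_mul, AlgHom.commutes]
      congr 1
      refine (asymT_map ev.toRingHom _ _ β).trans ?_
      congr 1
      funext s
      exact hev s
    rw [h1]
    intro h0
    have h3 := toGF_injective (h0.trans (map_zero _).symm)
    rw [h3, map_zero] at h2
    exact hne h2.symm
  have hθ : ∀ S : Submodule (GF (ColT lam)) (Fin n ⊕ Fin n → GF (ColT lam)),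
      (∀ u ∈ S, ∀ v ∈ S, qf u v = 0) → theta lam (gF (ColT lam) (gword l)) S ≤ 0 := by
    intro S hS
    have h1 := theta_nonpos hf hne' hS
    rw [theta_smul hN] at h1
    have hN' : (0 : ℤ) < N := by exact_mod_cast hN
    by_contra h2
    push Not at h2
    have := mul_pos hN' h2
    omega
  have hdet := core l hlr hθ
  have hdet' : (gramT lam (genG (ColT lam) (gword l)) genΩ).det ≠ 0 := by
    intro h0
    apply hdet
    have h1 : gramT lam (gF (ColT lam) (gword l)) gΩ =
        (gramT lam (genG (ColT lam) (gword l)) genΩ).map (toGF (ColT lam)).toRingHom :=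
      (gramT_map _ _ _ _).symm
    rw [h1, ← RingHom.mapMatrix_apply, ← RingHom.map_det, h0, map_zero]
  obtain ⟨ev', hev'⟩ := exists_ev hdet'
  rw [hasInvariants_iff_form hn hl v₀ v₁ v₂]
  have hdet'' : (gramT lam (fun s => (genG (ColT lam) (gword l) s).map ev')
      (fun c c' => ev' (genΩ c c'))).det ≠ 0 := by
    have h1 : gramT lam (fun s => (genG (ColT lam) (gword l) s).map ev')
      (fun c c' => ev' (genΩ c c')) =
        (gramT lam (genG (ColT lam) (gword l)) genΩ).map ev'.toRingHom :=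
      (gramT_map ev'.toRingHom _ _ _).symm
    rw [h1, ← RingHom.mapMatrix_apply, ← RingHom.map_det]
    exact hev'
  obtain ⟨f', hf', hne''⟩ := exists_invF_of_gram lam _ _
    (fun c c' => by rw [genΩ_skew, map_neg]) hdet''
  exact ⟨f', hf', _, fun s => genG_ev (gword_root hlr) ev' s, hne''⟩

end Vale.Agent.P182
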