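import Mathlib.Algebra.Lie.TensorProduct
import Mathlib.Algebra.Lie.Semisimple.Defs
import Mathlib.Algebra.Lie.OfAssociative
import Mathlib.Data.Complex.Basic
import Mathlib.LinearAlgebra.Eigenspace.Basic
import Mathlib.LinearAlgebra.FiniteDimensional.Basic
import Mathlib.Tactic.LinearCombination

/-!
# Highest weight theory, abstractly

`L` is a Lie algebra over `ℂ` with an element `h`, a set `N` of eigenvectors of `ad h` with
eigenvalues `-k`, `k ≥ 1`, and a submodule `B`, such that `L = span N + B`.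
-/

namespace Vale.Agent.P182

variable {L : Type*} [LieRing L] [LieAlgebra ℂ L]

/-- Triangular data. -/
structure Tri (L : Type*) [LieRing L] [LieAlgebra ℂ L] where
  h : L
  N : Set L
  B : Submodule ℂ L
  hmem : h ∈ B
  grade : ∀ y ∈ N, ∃ k : ℕ, 1 ≤ k ∧ ⁅h, y⁆ = -((k : ℂ) • y)
  top : Submodule.span ℂ N ⊔ B = ⊤

section one

set_option linter.unusedSectionVars false

variable {M : Type*} [AddCommGroup M] [Module ℂ M] [LieRingModule L M] [LieModule ℂ L M]
variable (T : Tri L)

/-- `v` is an eigenvector of `B` with eigencharacter `χ`. -/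
def IsHW (χ : L → ℂ) (v : M) : Prop := ∀ b ∈ T.B, ⁅b, v⁆ = χ b • v

/-- Words of length at most `k` in `N` applied to `v`. -/
def words (v : M) : ℕ → Submodule ℂ M
  | 0 => Submodule.span ℂ {v}
  | k + 1 => words v k ⊔ Submodule.span ℂ {w | ∃ y ∈ T.N, ∃ u ∈ words v k, w = ⁅y, u⁆}

theorem words_mono (v : M) (k : ℕ) : words T v k ≤ words T v (k + 1) := le_sup_left

theorem words_mono' (v : M) {k l : ℕ} (h : k ≤ l) : words T v k ≤ words T v l :=
  monotone_nat_of_le_succ (words_mono T v) h

theorem words_N (v : M) (k : ℕ) {y : L} (hy : y ∈ Submodule.span ℂ T.N) {u : M}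
    (hu : u ∈ words T v k) : ⁅y, u⁆ ∈ words T v (k + 1) := by
  induction hy using Submodule.span_induction with
  | mem y hy => exact Submodule.mem_sup_right (Submodule.subset_span ⟨y, hy, u, hu, rfl⟩)
  | zero => rw [zero_lie]; exact zero_mem _
  | add x y _ _ hx hy => rw [add_lie]; exact add_mem hx hy
  | smul c x _ hx => rw [smul_lie]; exact Submodule.smul_mem _ _ hx

theorem decomp (x : L) : ∃ y ∈ Submodule.span ℂ T.N, ∃ b ∈ T.B, x = y + b := by
  have : x ∈ Submodule.span ℂ T.N ⊔ T.B := by rw [T.top]; trivial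
  obtain ⟨y, hy, b, hb, h⟩ := Submodule.mem_sup.mp this
  exact ⟨y, hy, b, hb, h.symm⟩

theorem words_B {χ : L → ℂ} {v : M} (hv : IsHW T χ v) (k : ℕ) :
    (∀ b ∈ T.B, ∀ u ∈ words T v k, ⁅b, u⁆ ∈ words T v k) := by
  induction k with
  | zero =>
    intro b hb u hu
    obtain ⟨c, rfl⟩ := Submodule.mem_span_singleton.mp hu
    rw [lie_smul, hv b hb]
    exact Submodule.smul_mem _ _ (Submodule.smul_mem _ _ (Submodule.mem_span_singleton_self v))
  | succ k ih =>
    intro b hb u hu
    obtain ⟨u1, hu1, u2, hu2, rfl⟩ := Submodule.mem_sup.mp hu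
    rw [lie_add]
    refine add_mem (words_mono T v k (ih b hb u1 hu1)) ?_
    induction hu2 using Submodule.span_induction with
    | zero => rw [lie_zero]; exact zero_mem _
    | add x y _ _ hx hy =>
      rw [lie_add]
      refine add_mem (hx ?_ ) (hy ?_)
      · exact add_mem (words_mono T v k hu1) (Submodule.mem_sup_right ‹_›)
      · exact add_mem (words_mono T v k hu1) (Submodule.mem_sup_right ‹_›)
    | smul c x hx' hx =>
      rw [lie_smul]
      refine Submodule.smul_mem _ _ (hx ?_)
      exact add_mem (words_mono T v k hu1) (Submodule.mem_sup_right hx')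
    | mem w hw =>
      obtain ⟨y, hy, u', hu', rfl⟩ := hw
      rw [leibniz_lie]
      refine add_mem ?_ ?_
      · obtain ⟨y', hy', b', hb', e⟩ := decomp T ⁅b, y⁆
        rw [e, add_lie]
        exact add_mem (words_N T v k hy' hu') (words_mono T v k (ih b' hb' u' hu'))
      · exact words_N T v k (Submodule.subset_span hy) (ih b hb u' hu')

theorem words_L {χ : L → ℂ} {v : M} (hv : IsHW T χ v) (k : ℕ) (x : L) {u : M}
    (hu : u ∈ words T v k) : ⁅x, u⁆ ∈ words T v (k + 1) := by
  obtain ⟨y', hy', b', hb', e⟩ := decomp T x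
  rw [e, add_lie]
  exact add_mem (words_N T v k hy' hu) (words_mono T v k (words_B T hv k b' hb' u hu))

/-- The Lie submodule generated by a highest weight vector. -/
def cyc {χ : L → ℂ} {v : M} (hv : IsHW T χ v) : LieSubmodule ℂ L M where
  toSubmodule := ⨆ k, words T v k
  lie_mem := by
    intro x m hm
    have hdir : Directed (· ≤ ·) (words T v) :=
      (monotone_nat_of_le_succ (words_mono T v)).directed_le
    have hm' : m ∈ ⨆ k, words T v k := hm
    rw [Submodule.mem_iSup_of_directed _ hdir] at hm'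
    obtain ⟨k, hk⟩ := hm'
    exact (Submodule.mem_iSup_of_mem (k + 1) (words_L T hv k x hk))

theorem mem_cyc {χ : L → ℂ} {v : M} (hv : IsHW T χ v) (m : M) :
    m ∈ cyc T hv ↔ ∃ k, m ∈ words T v k := by
  have hdir : Directed (· ≤ ·) (words T v) :=
    (monotone_nat_of_le_succ (words_mono T v)).directed_le
  show m ∈ ⨆ k, words T v k ↔ _
  rw [Submodule.mem_iSup_of_directed _ hdir]

theorem self_mem_cyc {χ : L → ℂ} {v : M} (hv : IsHW T χ v) : v ∈ cyc T hv :=
  (mem_cyc T hv v).mpr ⟨0, Submodule.mem_span_singleton_self v⟩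

theorem cyc_le {χ : L → ℂ} {v : M} (hv : IsHW T χ v) (K : LieSubmodule ℂ L M) (h : v ∈ K) :
    cyc T hv ≤ K := by
  intro m hm
  obtain ⟨k, hk⟩ := (mem_cyc T hv m).mp hm
  clear hm
  induction k generalizing m with
  | zero =>
    obtain ⟨c, rfl⟩ := Submodule.mem_span_singleton.mp hk
    exact K.smul_mem c h
  | succ k ih =>
    obtain ⟨u1, hu1, u2, hu2, rfl⟩ := Submodule.mem_sup.mp hk
    refine add_mem (ih hu1) ?_
    have : Submodule.span ℂ {w | ∃ y ∈ T.N, ∃ u ∈ words T v k, w = ⁅y, u⁆} ≤ K.toSubmodule := by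
      rw [Submodule.span_le]
      rintro _ ⟨y, _, u, hu, rfl⟩
      exact K.lie_mem (ih hu)
    exact this hu2

/-- The sum of the lower eigenspaces. -/
def lower (c : ℂ) : Submodule ℂ M :=
  ⨆ (μ : ℂ) (_ : μ ≠ c), Module.End.eigenspace (LieModule.toEnd ℂ L M T.h) μ

/-- eigenvalues `c - k`, `k ≥ 1` -/
def lower' (c : ℂ) : Submodule ℂ M :=
  ⨆ (k : ℕ) (_ : 1 ≤ k), Module.End.eigenspace (LieModule.toEnd ℂ L M T.h) (c - k)

theorem lower'_le (c : ℂ) : lower' (M := M) T c ≤ lower T c := by
  refine iSup₂_le fun k hk => ?_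
  refine le_iSup₂_of_le (c - k) ?_ le_rfl
  intro h
  have : (k : ℂ) = 0 := by linear_combination -h
  have : k = 0 := by exact_mod_cast this
  omega

theorem N_eigen {c : ℂ} {y : L} (hy : y ∈ T.N) {u : M}
    (hu : u ∈ Module.End.eigenspace (LieModule.toEnd ℂ L M T.h) c) :
    ⁅y, u⁆ ∈ lower' T c := by
  obtain ⟨k, hk, e⟩ := T.grade y hy
  have hu' : ⁅T.h, u⁆ = c • u := by
    simpa [Module.End.mem_eigenspace_iff] using hu
  refine Submodule.mem_iSup_of_mem k (Submodule.mem_iSup_of_mem hk ?_)
  rw [Module.End.mem_eigenspace_iff, LieModule.toEnd_apply_apply, leibniz_lie, e, hu', neg_lie,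
    smul_lie, lie_smul, sub_smul]
  abel

theorem words_lower {c : ℂ} {v : M} (hv : ⁅T.h, v⁆ = c • v) (k : ℕ) :
    words T v k ≤ Submodule.span ℂ {v} ⊔ lower' T c := by
  have hve : v ∈ Module.End.eigenspace (LieModule.toEnd ℂ L M T.h) c := by
    rw [Module.End.mem_eigenspace_iff]; exact hv
  induction k with
  | zero => exact le_sup_left
  | succ k ih =>
    refine sup_le ih ?_
    rw [Submodule.span_le]
    rintro _ ⟨y, hy, u, hu, rfl⟩
    obtain ⟨u1, hu1, u2, hu2, rfl⟩ := Submodule.mem_sup.mp (ih hu)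
    obtain ⟨a, rfl⟩ := Submodule.mem_span_singleton.mp hu1
    rw [lie_add, lie_smul]
    refine Submodule.mem_sup_right (add_mem (Submodule.smul_mem _ _ (N_eigen T hy hve)) ?_)
    have key : lower' T c ≤ (lower' T c).comap (LieModule.toEnd ℂ L M y) := by
      refine iSup₂_le fun l hl => ?_
      intro w hw
      have h1 := N_eigen T hy hw
      have h2 : lower' (M := M) T (c - l) ≤ lower' T c := by
        refine iSup₂_le fun j hj => ?_
        refine le_iSup₂_of_le (l + j) (by omega) ?_
        have : c - (l : ℂ) - (j : ℂ) = c - ((l + j : ℕ) : ℂ) := by push_cast; ring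
        rw [this]
      exact h2 h1
    exact key hu2

/-- The highest weight space of a cyclic highest weight module is one-dimensional. -/
theorem hw_unique {χ : L → ℂ} {v : M} (hv : IsHW T χ v) {w : M} (hw : w ∈ cyc T hv)
    (hw' : ⁅T.h, w⁆ = χ T.h • w) : w ∈ Submodule.span ℂ {v} := by
  obtain ⟨k, hk⟩ := (mem_cyc T hv w).mp hw
  have h0 := hv T.h T.hmem
  obtain ⟨u1, hu1, u2, hu2, rfl⟩ := Submodule.mem_sup.mp (words_lower T h0 k hk)
  obtain ⟨a, rfl⟩ := Submodule.mem_span_singleton.mp hu1
  have h1 : u2 ∈ Module.End.eigenspace (LieModule.toEnd ℂ L M T.h) (χ T.h) := by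
    rw [Module.End.mem_eigenspace_iff, LieModule.toEnd_apply_apply]
    rw [lie_add, lie_smul, h0, smul_add] at hw'
    have : (a • χ T.h • v : M) = χ T.h • a • v := smul_comm _ _ _
    rw [this] at hw'
    exact add_left_cancel hw'
  have h2 := lower'_le T (χ T.h) hu2
  have hind := Module.End.eigenspaces_iSupIndep (LieModule.toEnd ℂ L M T.h)
  have hdisj := hind (χ T.h)
  have h3 : u2 ∈ (⊥ : Submodule ℂ M) := by
    rw [← disjoint_iff.mp hdisj]
    exact ⟨h1, h2⟩
  rw [(Submodule.mem_bot ℂ).mp h3, add_zero]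
  exact hu1

end one

section two

variable {V W : Type*} [AddCommGroup V] [Module ℂ V] [LieRingModule L V] [LieModule ℂ L V]
variable [AddCommGroup W] [Module ℂ W] [LieRingModule L W] [LieModule ℂ L W]

/-- The product of two Lie modules. -/
@[reducible] def prodRM : LieRingModule L (V × W) where
  bracket x p := (⁅x, p.1⁆, ⁅x, p.2⁆)
  add_lie x y p := by ext <;> simp
  lie_add x p q := by ext <;> simp
  leibniz_lie x y p := by ext <;> simp

attribute [local instance] prodRM

theorem prod_lie (x : L) (p : V × W) : ⁅x, p⁆ = (⁅x, p.1⁆, ⁅x, p.2⁆) := rfl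

@[reducible] def prodLM : LieModule ℂ L (V × W) where
  smul_lie c x p := by simp [prod_lie]
  lie_smul c x p := by simp [prod_lie]

attribute [local instance] prodLM

/-- Two irreducible modules with highest weight vectors of the same weight are isomorphic. -/
theorem equiv_of_hw (T : Tri L) [LieModule.IsIrreducible ℂ L V] [LieModule.IsIrreducible ℂ L W]
    {χ : L → ℂ} {v : V} {w : W} (hv : IsHW T χ v) (hw : IsHW T χ w) (hv0 : v ≠ 0) (hw0 : w ≠ 0) :
    Nonempty (V ≃ₗ⁅ℂ,L⁆ W) := by
  have hvw : IsHW T χ ((v, w) : V × W) := by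
    intro b hb
    rw [prod_lie, hv b hb, hw b hb, Prod.smul_mk]
  let K : LieSubmodule ℂ L (V × W) := cyc T hvw
  have hK : ((v, w) : V × W) ∈ K := self_mem_cyc T hvw
  -- kernels
  let K2 : LieSubmodule ℂ L W :=
    { K.toSubmodule.comap (LinearMap.inr ℂ V W) with
      lie_mem := by
        intro x m hm
        have hm' : ((0, m) : V × W) ∈ K := hm
        have := K.lie_mem (x := x) hm'
        rw [prod_lie] at this
        show ((0, ⁅x, m⁆) : V × W) ∈ K
        simpa using this }
  let K1 : LieSubmodule ℂ L V :=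
    { K.toSubmodule.comap (LinearMap.inl ℂ V W) with
      lie_mem := by
        intro x m hm
        have hm' : ((m, 0) : V × W) ∈ K := hm
        have := K.lie_mem (x := x) hm'
        rw [prod_lie] at this
        show ((⁅x, m⁆, 0) : V × W) ∈ K
        simpa using this }
  have hK2 : K2 = ⊥ := by
    rcases IsSimpleOrder.eq_bot_or_eq_top K2 with h | h
    · exact h
    · exfalso
      have h1 : ((0, w) : V × W) ∈ K := by
        have : w ∈ K2 := by rw [h]; trivial
        exact this
      have h2 := hw_unique T hvw h1 (by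
        rw [prod_lie, hw T.h T.hmem]; simp)
      obtain ⟨c, hc⟩ := Submodule.mem_span_singleton.mp h2
      have e1 := congrArg Prod.fst hc
      have e2 := congrArg Prod.snd hc
      simp only [Prod.smul_mk] at e1 e2
      have hc0 : c = 0 := by
        by_contra hc0
        exact hv0 ((smul_eq_zero.mp e1).resolve_left hc0)
      rw [hc0, zero_smul] at e2
      exact hw0 e2.symm
  have hK1 : K1 = ⊥ := by
    rcases IsSimpleOrder.eq_bot_or_eq_top K1 with h | h
    · exact h
    · exfalso
      have h1 : ((v, 0) : V × W) ∈ K := by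
        have : v ∈ K1 := by rw [h]; trivial
        exact this
      have h2 := hw_unique T hvw h1 (by
        rw [prod_lie, hv T.h T.hmem]; simp)
      obtain ⟨c, hc⟩ := Submodule.mem_span_singleton.mp h2
      have e1 := congrArg Prod.fst hc
      have e2 := congrArg Prod.snd hc
      simp only [Prod.smul_mk] at e1 e2
      have hc0 : c = 0 := by
        by_contra hc0
        exact hw0 ((smul_eq_zero.mp e2).resolve_left hc0)
      rw [hc0, zero_smul] at e1
      exact hv0 e1.symm
  -- projections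
  let p1 : K →ₗ[ℂ] V := (LinearMap.fst ℂ V W).comp K.toSubmodule.subtype
  let p2 : K →ₗ[ℂ] W := (LinearMap.snd ℂ V W).comp K.toSubmodule.subtype
  have h1 : Function.Injective p1 := by
    rw [← LinearMap.ker_eq_bot, LinearMap.ker_eq_bot']
    rintro ⟨⟨a, b⟩, hab⟩ h
    have ha : a = 0 := h
    subst ha
    have : b ∈ K2 := hab
    rw [hK2, LieSubmodule.mem_bot] at this
    subst this
    rfl
  have h2 : Function.Injective p2 := by
    rw [← LinearMap.ker_eq_bot, LinearMap.ker_eq_bot']
    rintro ⟨⟨a, b⟩, hab⟩ h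
    have ha : b = 0 := h
    subst ha
    have : a ∈ K1 := hab
    rw [hK1, LieSubmodule.mem_bot] at this
    subst this
    rfl
  have s1 : Function.Surjective p1 := by
    let R : LieSubmodule ℂ L V :=
      { LinearMap.range p1 with
        lie_mem := by
          rintro x _ ⟨k, rfl⟩
          exact ⟨⁅x, k⁆, rfl⟩ }
    have hR : R = ⊤ := by
      rcases IsSimpleOrder.eq_bot_or_eq_top R with h | h
      · exfalso
        have : v ∈ R := ⟨⟨(v, w), hK⟩, rfl⟩
        rw [h, LieSubmodule.mem_bot] at this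
        exact hv0 this
      · exact h
    intro x
    have : x ∈ R := by rw [hR]; trivial
    exact this
  have s2 : Function.Surjective p2 := by
    let R : LieSubmodule ℂ L W :=
      { LinearMap.range p2 with
        lie_mem := by
          rintro x _ ⟨k, rfl⟩
          exact ⟨⁅x, k⁆, rfl⟩ }
    have hR : R = ⊤ := by
      rcases IsSimpleOrder.eq_bot_or_eq_top R with h | h
      · exfalso
        have : w ∈ R := ⟨⟨(v, w), hK⟩, rfl⟩
        rw [h, LieSubmodule.mem_bot] at this
        exact hw0 this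
      · exact h
    intro x
    have : x ∈ R := by rw [hR]; trivial
    exact this
  let e1 : K ≃ₗ[ℂ] V := LinearEquiv.ofBijective p1 ⟨h1, s1⟩
  let e2 : K ≃ₗ[ℂ] W := LinearEquiv.ofBijective p2 ⟨h2, s2⟩
  let E1 : K ≃ₗ⁅ℂ,L⁆ V := { e1 with map_lie' := fun {x m} => rfl }
  let E2 : K ≃ₗ⁅ℂ,L⁆ W := { e2 with map_lie' := fun {x m} => rfl }
  exact ⟨E1.symm.trans E2⟩

end two

end Vale.Agent.P182
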