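import Vale.Agent.P182.H163.Defs
import Vale.Agent.P182.H163.HW
import Mathlib.Analysis.Complex.Basic
import Mathlib.LinearAlgebra.Matrix.ConjTranspose

/-!
# Structure of `so(2n)`
-/

namespace Vale.Agent.P182

open LieAlgebra.Orthogonal

attribute [local instance 100] LieRing.ofAssociativeRing

variable {n : ℕ}

/-- root vector for `ε_i - ε_j` (for `i ≠ j`) -/
def eA (i j : Fin n) : so n :=
  ⟨Matrix.single (Sum.inl i) (Sum.inl j) 1 - Matrix.single (Sum.inr j) (Sum.inr i) 1, by
    rw [mem_so_iff]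
    intro k l
    refine ⟨?_, ?_, ?_⟩
    · simp only [Matrix.sub_apply, Matrix.single_apply]
      simp [and_comm]
    · simp [Matrix.single_apply]
    · simp [Matrix.single_apply]⟩

/-- root vector for `ε_i + ε_j` (for `i ≠ j`) -/
def eB (i j : Fin n) : so n :=
  ⟨Matrix.single (Sum.inl i) (Sum.inr j) 1 - Matrix.single (Sum.inl j) (Sum.inr i) 1, by
    rw [mem_so_iff]
    intro k l
    refine ⟨?_, ?_, ?_⟩
    · simp [Matrix.single_apply]
    · simp only [Matrix.sub_apply, Matrix.single_apply]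
      simp [and_comm]
    · simp [Matrix.single_apply]⟩

/-- root vector for `-ε_i - ε_j` (for `i ≠ j`) -/
def eC (i j : Fin n) : so n :=
  ⟨Matrix.single (Sum.inr i) (Sum.inl j) 1 - Matrix.single (Sum.inr j) (Sum.inl i) 1, by
    rw [mem_so_iff]
    intro k l
    refine ⟨?_, ?_, ?_⟩
    · simp [Matrix.single_apply]
    · simp [Matrix.single_apply]
    · simp only [Matrix.sub_apply, Matrix.single_apply]
      simp [and_comm]⟩

theorem so_lie_val (x y : so n) : (⁅x, y⁆ : so n).1 = x.1 * y.1 - y.1 * x.1 := rfl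

/-- Expansion in the standard vectors. -/
theorem so_expand (x : so n) :
    x = ∑ i, ∑ j, x.1 (Sum.inl i) (Sum.inl j) • eA i j +
      (2⁻¹ : ℂ) • (∑ i, ∑ j, x.1 (Sum.inl i) (Sum.inr j) • eB i j) +
      (2⁻¹ : ℂ) • (∑ i, ∑ j, x.1 (Sum.inr i) (Sum.inl j) • eC i j) := by
  have hx := (mem_so_iff x.1).mp x.2
  apply Subtype.ext
  have hcoe : ∀ (f : Fin n → Fin n → so n), (∑ i, ∑ j, f i j : so n).1 =
      ∑ i, ∑ j, (f i j).1 := by
    intro f
    have h1 : ∀ g : Fin n → so n, (∑ i, g i).1 = ∑ i, (g i).1 := fun g =>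
      map_sum (so n).toSubmodule.subtype g Finset.univ
    rw [h1]
    exact Finset.sum_congr rfl fun i _ => h1 _
  show x.1 = (∑ i, ∑ j, x.1 (Sum.inl i) (Sum.inl j) • eA i j : so n).1
    + (2⁻¹ : ℂ) • (∑ i, ∑ j, x.1 (Sum.inl i) (Sum.inr j) • eB i j : so n).1
    + (2⁻¹ : ℂ) • (∑ i, ∑ j, x.1 (Sum.inr i) (Sum.inl j) • eC i j : so n).1
  rw [hcoe, hcoe, hcoe]
  ext p q
  rcases p with p | p <;> rcases q with q | q
  · simp [Matrix.sum_apply, eA, eB, eC, Matrix.single_apply, ite_and]
  · simp [Matrix.sum_apply, eA, eB, eC, Matrix.single_apply, ite_and, mul_sub, Finset.sum_sub_distrib]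
    rw [(hx p q).2.1]; ring
  · simp [Matrix.sum_apply, eA, eB, eC, Matrix.single_apply, ite_and, mul_sub, Finset.sum_sub_distrib]
    rw [(hx p q).2.2]; ring
  · simp [Matrix.sum_apply, eA, eB, eC, Matrix.single_apply, ite_and]
    rw [(hx q p).1]


/-- The root vectors. -/
def rootSet (n : ℕ) : Set (so n) :=
  {x | ∃ i j : Fin n, i ≠ j ∧ (x = eA i j ∨ x = eB i j ∨ x = eC i j)}

theorem lie_eA_eA {i j : Fin n} (h : i ≠ j) : ⁅eA i j, eA j i⁆ = eA i i - eA j j := by
  apply Subtype.ext
  rw [so_lie_val]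
  show _ = (eA i i).1 - (eA j j).1
  simp only [eA, mul_sub, sub_mul, Matrix.single_mul_single_same]
  rw [Matrix.single_mul_single_of_ne _ _ _ _ (by simp), Matrix.single_mul_single_of_ne _ _ _ _ (by simp),
    Matrix.single_mul_single_of_ne _ _ _ _ (by simp), Matrix.single_mul_single_of_ne _ _ _ _ (by simp)]
  simp only [mul_one, sub_zero, zero_sub]
  abel

theorem lie_eB_eC {i j : Fin n} (h : i ≠ j) : ⁅eB i j, eC j i⁆ = eA i i + eA j j := by
  apply Subtype.ext
  rw [so_lie_val]
  show _ = (eA i i).1 + (eA j j).1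
  simp only [eA, eB, eC, mul_sub, sub_mul, Matrix.single_mul_single_same]
  rw [Matrix.single_mul_single_of_ne _ _ _ _ (by simpa using h),
    Matrix.single_mul_single_of_ne _ _ _ _ (by simpa using h.symm),
    Matrix.single_mul_single_of_ne _ _ _ _ (by simpa using h.symm),
    Matrix.single_mul_single_of_ne _ _ _ _ (by simpa using h)]
  simp only [mul_one, sub_zero, zero_sub]
  abel

theorem eB_self (i : Fin n) : eB i i = 0 := by
  apply Subtype.ext
  simp [eB]

theorem eC_self (i : Fin n) : eC i i = 0 := by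
  apply Subtype.ext
  simp [eC]

/-- The root vectors generate. -/
theorem lieSpan_rootSet (hn : 2 ≤ n) : LieSubalgebra.lieSpan ℂ (so n) (rootSet n) = ⊤ := by
  rw [eq_top_iff]
  intro x _
  set S := LieSubalgebra.lieSpan ℂ (so n) (rootSet n) with hS
  have hsub : rootSet n ⊆ S := LieSubalgebra.subset_lieSpan
  have hA : ∀ i j, i ≠ j → eA i j ∈ S := fun i j h => hsub ⟨i, j, h, Or.inl rfl⟩
  have hB : ∀ i j, eB i j ∈ S := by
    intro i j
    by_cases h : i = j
    · subst h; rw [eB_self]; exact S.zero_mem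
    · exact hsub ⟨i, j, h, Or.inr (Or.inl rfl)⟩
  have hC : ∀ i j, eC i j ∈ S := by
    intro i j
    by_cases h : i = j
    · subst h; rw [eC_self]; exact S.zero_mem
    · exact hsub ⟨i, j, h, Or.inr (Or.inr rfl)⟩
  have hAA : ∀ i, eA i i ∈ S := by
    intro i
    obtain ⟨j, hj⟩ : ∃ j : Fin n, i ≠ j := by
      haveI : Nontrivial (Fin n) := Fin.nontrivial_iff_two_le.mpr hn
      obtain ⟨j, hj⟩ := exists_ne i
      exact ⟨j, hj.symm⟩
    have h1 := S.lie_mem (hA i j hj) (hA j i hj.symm)
    rw [lie_eA_eA hj] at h1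
    have h2 := S.lie_mem (hB i j) (hC j i)
    rw [lie_eB_eC hj] at h2
    have h3 := S.smul_mem (2⁻¹ : ℂ) (S.add_mem h1 h2)
    have : (2⁻¹ : ℂ) • (eA i i - eA j j + (eA i i + eA j j)) = eA i i := by
      have e : eA i i - eA j j + (eA i i + eA j j) = (2 : ℂ) • eA i i := by
        rw [two_smul]; abel
      rw [e, smul_smul, inv_mul_cancel₀ two_ne_zero, one_smul]
    rwa [this] at h3
  rw [so_expand x]
  refine S.add_mem (S.add_mem ?_ ?_) ?_
  · refine sum_mem fun i _ => sum_mem fun j _ => S.smul_mem _ ?_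
    by_cases h : i = j
    · subst h; exact hAA i
    · exact hA i j h
  · exact S.smul_mem _ (sum_mem fun i _ => sum_mem fun j _ => S.smul_mem _ (hB i j))
  · exact S.smul_mem _ (sum_mem fun i _ => sum_mem fun j _ => S.smul_mem _ (hC i j))

/-- Root vectors have square zero. -/
theorem rootSet_sq {x : so n} (hx : x ∈ rootSet n) : x.1 * x.1 = 0 := by
  obtain ⟨i, j, h, rfl | rfl | rfl⟩ := hx
  · simp only [eA, mul_sub, sub_mul]
    rw [Matrix.single_mul_single_of_ne _ _ _ _ (by simpa using h.symm),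
      Matrix.single_mul_single_of_ne _ _ _ _ (by simp),
      Matrix.single_mul_single_of_ne _ _ _ _ (by simp),
      Matrix.single_mul_single_of_ne _ _ _ _ (by simpa using h)]
    simp
  · simp only [eB, mul_sub, sub_mul]
    rw [Matrix.single_mul_single_of_ne _ _ _ _ (by simp),
      Matrix.single_mul_single_of_ne _ _ _ _ (by simp),
      Matrix.single_mul_single_of_ne _ _ _ _ (by simp),
      Matrix.single_mul_single_of_ne _ _ _ _ (by simp)]
    simp
  · simp only [eC, mul_sub, sub_mul]
    rw [Matrix.single_mul_single_of_ne _ _ _ _ (by simp),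
      Matrix.single_mul_single_of_ne _ _ _ _ (by simp),
      Matrix.single_mul_single_of_ne _ _ _ _ (by simp),
      Matrix.single_mul_single_of_ne _ _ _ _ (by simp)]
    simp

/-- The conjugate transpose. -/
noncomputable def tau (x : so n) : so n :=
  ⟨x.1.conjTranspose, by
    have hx := (mem_so_iff x.1).mp x.2
    rw [mem_so_iff]
    intro i j
    simp only [Matrix.conjTranspose_apply]
    refine ⟨?_, ?_, ?_⟩
    · rw [(hx j i).1]; simp
    · rw [(hx j i).2.2]; simp
    · rw [(hx j i).2.1]; simp⟩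

theorem tau_tau (x : so n) : tau (tau x) = x :=
  Subtype.ext (Matrix.conjTranspose_conjTranspose x.1)

/-- The grading element. -/
noncomputable def hgr (n : ℕ) : so n := cartan fun i => (n : ℂ) - (i : ℂ)

/-- The Borel subalgebra (as a subspace). -/
def borel (n : ℕ) : Submodule ℂ (so n) where
  carrier := {x | (∀ i j : Fin n, j < i → x.1 (Sum.inl i) (Sum.inl j) = 0) ∧
    ∀ i j : Fin n, x.1 (Sum.inr i) (Sum.inl j) = 0}
  add_mem' := by
    intro a b ha hb
    refine ⟨fun i j h => ?_, fun i j => ?_⟩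
    · show a.1 _ _ + b.1 _ _ = 0
      rw [ha.1 i j h, hb.1 i j h, add_zero]
    · show a.1 _ _ + b.1 _ _ = 0
      rw [ha.2 i j, hb.2 i j, add_zero]
  zero_mem' := ⟨fun _ _ _ => rfl, fun _ _ => rfl⟩
  smul_mem' := by
    intro c a ha
    refine ⟨fun i j h => ?_, fun i j => ?_⟩
    · show c * a.1 _ _ = 0
      rw [ha.1 i j h, mul_zero]
    · show c * a.1 _ _ = 0
      rw [ha.2 i j, mul_zero]

theorem cartan_val (a : Fin n → ℂ) : (cartan a).1 = Matrix.diagonal (Sum.elim a (-a)) := rfl

theorem cartan_mem_borel (a : Fin n → ℂ) : cartan a ∈ borel n := by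
  refine ⟨fun i j h => ?_, fun i j => ?_⟩
  · rw [cartan_val, Matrix.diagonal_apply_ne]
    intro e
    exact absurd (Sum.inl.inj e) h.ne'
  · rw [cartan_val, Matrix.diagonal_apply_ne]
    simp

theorem lie_cartan_eA (a : Fin n → ℂ) (i j : Fin n) :
    ⁅cartan a, eA i j⁆ = (a i - a j) • eA i j := by
  apply Subtype.ext
  rw [so_lie_val]
  show _ = (a i - a j) • (eA i j).1
  rw [cartan_val]
  ext p q
  rw [Matrix.sub_apply, Matrix.diagonal_mul, Matrix.mul_diagonal, Matrix.smul_apply]
  rcases p with p | p <;> rcases q with q | q <;> simp [eA, Matrix.single_apply]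
  · split_ifs with h
    · rw [h.1, h.2]
    · simp
  · split_ifs with h
    · rw [h.1, h.2]; ring
    · simp

theorem lie_cartan_eC (a : Fin n → ℂ) (i j : Fin n) :
    ⁅cartan a, eC i j⁆ = (-(a i) - a j) • eC i j := by
  apply Subtype.ext
  rw [so_lie_val]
  show _ = (-(a i) - a j) • (eC i j).1
  rw [cartan_val]
  ext p q
  rw [Matrix.sub_apply, Matrix.diagonal_mul, Matrix.mul_diagonal, Matrix.smul_apply]
  rcases p with p | p <;> rcases q with q | q <;> simp [eC, Matrix.single_apply]
  by_cases h1 : i = p ∧ j = q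
  · obtain ⟨rfl, rfl⟩ := h1
    by_cases h2 : j = i
    · subst h2; simp
    · simp [h2]
  · by_cases h2 : j = p ∧ i = q
    · obtain ⟨rfl, rfl⟩ := h2
      simp [h1]
    · simp [h1, h2]

/-- The triangular structure of `so(2n)`. -/
noncomputable def triD (n : ℕ) : Tri (so n) where
  h := hgr n
  N := {x | (∃ i j : Fin n, i < j ∧ x = eA j i) ∨ ∃ i j : Fin n, x = eC i j}
  B := borel n
  hmem := cartan_mem_borel _
  grade := by
    rintro y (⟨i, j, h, rfl⟩ | ⟨i, j, rfl⟩)
    · refine ⟨(j : ℕ) - i, by have : (i : ℕ) < j := h; omega, ?_⟩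
      rw [hgr, lie_cartan_eA, ← neg_smul]
      congr 1
      rw [Nat.cast_sub (le_of_lt h)]
      ring
    · refine ⟨(n - i) + (n - j), by have := i.2; omega, ?_⟩
      rw [hgr, lie_cartan_eC, ← neg_smul]
      congr 1
      rw [Nat.cast_add, Nat.cast_sub i.2.le, Nat.cast_sub j.2.le]
      ring
  top := by
    rw [eq_top_iff]
    intro x _
    rw [so_expand x]
    refine add_mem (add_mem ?_ ?_) ?_
    · refine sum_mem fun i _ => sum_mem fun j _ => Submodule.smul_mem _ _ ?_
      by_cases h : j < i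
      · exact Submodule.mem_sup_left (Submodule.subset_span (Or.inl ⟨j, i, h, rfl⟩))
      · refine Submodule.mem_sup_right ⟨fun k l hkl => ?_, fun k l => ?_⟩
        · simp only [eA, Matrix.sub_apply, Matrix.single_apply]
          have : ¬ (i = k ∧ j = l) := by
            rintro ⟨rfl, rfl⟩; exact h hkl
          simp [this]
        · simp [eA, Matrix.single_apply]
    · refine Submodule.smul_mem _ _ (sum_mem fun i _ => sum_mem fun j _ =>
        Submodule.smul_mem _ _ (Submodule.mem_sup_right ⟨fun k l hkl => ?_, fun k l => ?_⟩))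
      · simp [eB, Matrix.single_apply]
      · simp [eB, Matrix.single_apply]
    · exact Submodule.smul_mem _ _ (sum_mem fun i _ => sum_mem fun j _ =>
        Submodule.smul_mem _ _ (Submodule.mem_sup_left (Submodule.subset_span
          (Or.inr ⟨i, j, rfl⟩))))

/-- The character of the Borel subalgebra attached to a weight. -/
noncomputable def chi (lam : Fin n → ℚ) (x : so n) : ℂ :=
  ∑ i, (lam i : ℂ) * x.1 (Sum.inl i) (Sum.inl i)

theorem isHW_iff {V : Type*} [AddCommGroup V] [Module ℂ V] [LieRingModule (so n) V]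
    [LieModule ℂ (so n) V] (lam : Fin n → ℚ) (v : V) :
    IsHW (triD n) (chi lam) v ↔
      (∀ a : Fin n → ℂ, ⁅cartan a, v⁆ = (∑ i, (lam i : ℂ) * a i) • v) ∧
        ∀ x : so n, IsPositive x → ⁅x, v⁆ = 0 := by
  constructor
  · intro h
    refine ⟨fun a => ?_, fun x hx => ?_⟩
    · rw [h _ (cartan_mem_borel a)]
      congr 1
      simp [chi, cartan_val]
    · rw [h x ⟨fun i j hij => hx.1 i j hij.le, hx.2⟩]
      have : chi lam x = 0 := by
        rw [chi]
        refine Finset.sum_eq_zero fun i _ => ?_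
        rw [hx.1 i i le_rfl, mul_zero]
      rw [this, zero_smul]
  · rintro ⟨h1, h2⟩ b hb
    let a : Fin n → ℂ := fun i => b.1 (Sum.inl i) (Sum.inl i)
    have hpos : IsPositive (b - cartan a) := by
      refine ⟨fun i j hij => ?_, fun i j => ?_⟩
      · show b.1 _ _ - (cartan a).1 _ _ = 0
        rcases hij.lt_or_eq with h | h
        · rw [hb.1 i j h, (cartan_mem_borel a).1 i j h, sub_zero]
        · subst h
          simp [cartan_val, a]
      · show b.1 _ _ - (cartan a).1 _ _ = 0
        rw [hb.2 i j, (cartan_mem_borel a).2 i j, sub_zero]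
    have e : b = (b - cartan a) + cartan a := by abel
    rw [e, add_lie, h2 _ hpos, zero_add, h1, ← e]
    rfl

end Vale.Agent.P182
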