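import Vale.Agent.P182.H163.Tensor
import Vale.Agent.P182.H163.SoD

/-!
# Antisymmetrised tensors attached to frames
-/

namespace Vale.Agent.P182

open scoped InnerProductSpace ComplexConjugate

section asym

variable {C : Type*} [Fintype C] [DecidableEq C] {I : C → Type*} [∀ c, Fintype (I c)]
  [∀ c, DecidableEq (I c)] {B : Type*} [Fintype B]

/-- The product over the columns `c` of the wedge products of the vectors `V ⟨c, i⟩`. -/
noncomputable def asym (V : (Σ c, I c) → B → ℂ) : TF (Σ c, I c) B :=
  WithLp.toLp 2 fun β => ∏ c, (Matrix.of fun i' i : I c => V ⟨c, i⟩ (β ⟨c, i'⟩)).det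

theorem asym_apply (V : (Σ c, I c) → B → ℂ) (β : (Σ c, I c) → B) :
    asym V β = ∏ c, (Matrix.of fun i' i : I c => V ⟨c, i⟩ (β ⟨c, i'⟩)).det := rfl

/-- the sign of a column permutation -/
def csign (π : ∀ c, Equiv.Perm (I c)) : ℤˣ := ∏ c, Equiv.Perm.sign (π c)

theorem asym_eq_sum (V : (Σ c, I c) → B → ℂ) :
    asym V = ∑ π : ∀ c, Equiv.Perm (I c),
      ((csign π : ℤˣ) : ℤ) • pt (fun j => V (Equiv.sigmaCongrRight π j)) := by
  apply tf_ext
  intro β
  rw [asym_apply]
  have h1 : ∀ c, (Matrix.of fun i' i : I c => V ⟨c, i⟩ (β ⟨c, i'⟩)).det =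
      ∑ σ : Equiv.Perm (I c), ((Equiv.Perm.sign σ : ℤˣ) : ℂ) * ∏ i, V ⟨c, σ i⟩ (β ⟨c, i⟩) := by
    intro c
    rw [← Matrix.det_transpose, Matrix.det_apply']
    rfl
  simp only [h1]
  rw [Finset.prod_univ_sum, Fintype.piFinset_univ]
  rw [WithLp.ofLp_sum, Finset.sum_apply]
  refine Finset.sum_congr rfl fun π _ => ?_
  rw [Finset.prod_mul_distrib]
  rw [WithLp.ofLp_smul, Pi.smul_apply, pt_apply, csign, zsmul_eq_mul]
  rw [Fintype.prod_sigma]
  congr 1
  push_cast
  rfl

theorem upd_comp {α β : Type*} [DecidableEq α] (V : α → β) (σ : Equiv.Perm α) (j : α) (a : β) :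
    (fun k => Function.update V j a (σ k)) = Function.update (fun k => V (σ k)) (σ.symm j) a :=
  Function.update_comp_equiv V σ j a

theorem pt_update_add {J : Type*} [Fintype J] [DecidableEq J] (v : J → B → ℂ) (j : J)
    (a b : B → ℂ) :
    pt (Function.update v j (a + b)) = pt (Function.update v j a) + pt (Function.update v j b) := by
  apply tf_ext
  intro β
  rw [PiLp.add_apply, pt_apply, pt_apply, pt_apply,
    ← Finset.mul_prod_erase Finset.univ _ (Finset.mem_univ j),
    ← Finset.mul_prod_erase Finset.univ _ (Finset.mem_univ j),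
    ← Finset.mul_prod_erase Finset.univ _ (Finset.mem_univ j)]
  simp only [Function.update_self, Pi.add_apply, add_mul]
  have h : ∀ c : B → ℂ, ∏ k ∈ Finset.univ.erase j, Function.update v j c k (β k) =
      ∏ k ∈ Finset.univ.erase j, v k (β k) := by
    intro c
    refine Finset.prod_congr rfl fun k hk => ?_
    rw [Function.update_of_ne (Finset.mem_erase.mp hk).1]
  rw [h, h, h]

theorem pt_update_smul {J : Type*} [Fintype J] [DecidableEq J] (v : J → B → ℂ) (j : J)
    (c : ℂ) (a : B → ℂ) :
    pt (Function.update v j (c • a)) = c • pt (Function.update v j a) := by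
  apply tf_ext
  intro β
  rw [PiLp.smul_apply, pt_apply, pt_apply,
    ← Finset.mul_prod_erase Finset.univ _ (Finset.mem_univ j),
    ← Finset.mul_prod_erase Finset.univ _ (Finset.mem_univ j)]
  simp only [Function.update_self, Pi.smul_apply, smul_eq_mul, mul_assoc]
  have h : ∀ c : B → ℂ, ∏ k ∈ Finset.univ.erase j, Function.update v j c k (β k) =
      ∏ k ∈ Finset.univ.erase j, v k (β k) := by
    intro c
    refine Finset.prod_congr rfl fun k hk => ?_
    rw [Function.update_of_ne (Finset.mem_erase.mp hk).1]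
  rw [h, h]

theorem asym_add (V : (Σ c, I c) → B → ℂ) (j : Σ c, I c) (a b : B → ℂ) :
    asym (Function.update V j (a + b)) =
      asym (Function.update V j a) + asym (Function.update V j b) := by
  rw [asym_eq_sum, asym_eq_sum, asym_eq_sum, ← Finset.sum_add_distrib]
  refine Finset.sum_congr rfl fun π _ => ?_
  rw [upd_comp, upd_comp, upd_comp, pt_update_add, smul_add]

theorem asym_smul (V : (Σ c, I c) → B → ℂ) (j : Σ c, I c) (c : ℂ) (a : B → ℂ) :
    asym (Function.update V j (c • a)) = c • asym (Function.update V j a) := by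
  rw [asym_eq_sum, asym_eq_sum, Finset.smul_sum]
  refine Finset.sum_congr rfl fun π _ => ?_
  rw [upd_comp, upd_comp, pt_update_smul, smul_comm]

theorem asym_sum (V : (Σ c, I c) → B → ℂ) (j : Σ c, I c) {ι : Type*} (s : Finset ι)
    (c : ι → ℂ) (a : ι → B → ℂ) :
    asym (Function.update V j (∑ i ∈ s, c i • a i)) =
      ∑ i ∈ s, c i • asym (Function.update V j (a i)) := by
  classical
  induction s using Finset.induction_on with
  | empty =>
    rw [Finset.sum_empty, Finset.sum_empty]
    have := asym_smul V j 0 0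
    simpa using this
  | insert i s hi ih => rw [Finset.sum_insert hi, Finset.sum_insert hi, asym_add, asym_smul, ih]

theorem asym_eq_zero (V : (Σ c, I c) → B → ℂ) (c : C) {i i' : I c} (h : i ≠ i')
    (e : V ⟨c, i⟩ = V ⟨c, i'⟩) : asym V = 0 := by
  apply tf_ext
  intro β
  rw [asym_apply]
  refine Finset.prod_eq_zero (Finset.mem_univ c) ?_
  refine Matrix.det_zero_of_column_eq h fun k => ?_
  rw [Matrix.of_apply, Matrix.of_apply, e]

/-- The derivation action. -/
theorem act_asym (x : Matrix B B ℂ) (V : (Σ c, I c) → B → ℂ) :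
    act x (asym V) = ∑ j, asym (Function.update V j (x.mulVec (V j))) := by
  simp only [asym_eq_sum, map_sum]
  rw [Finset.sum_comm]
  refine Finset.sum_congr rfl fun π _ => ?_
  rw [map_zsmul, act, LinearMap.sum_apply, ← Finset.smul_sum]
  congr 1
  simp only [slot_pt, upd_comp]
  refine Fintype.sum_equiv (Equiv.sigmaCongrRight π) _ _ fun j => ?_
  rw [Equiv.symm_apply_apply]

/-- The group action. -/
theorem grp_asym (g : Matrix B B ℂ) (V : (Σ c, I c) → B → ℂ) :
    grp Finset.univ g (asym V) = asym (fun j => g.mulVec (V j)) := by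
  simp only [asym_eq_sum, map_sum, map_zsmul, grp_univ_pt]

end asym

section model

variable {n : ℕ} {J : Type*} [Fintype J] [DecidableEq J]

/-- `so(2n)` acts on the tensor powers. -/
noncomputable instance tfRM : LieRingModule (so n) (TF J (Fin n ⊕ Fin n)) where
  bracket x f := act x.1 f
  add_lie x y f := by
    show act (x.1 + y.1) f = _
    rw [act_add]; rfl
  lie_add x f g := map_add _ _ _
  leibniz_lie x y f := by
    show act x.1 (act y.1 f) = act (x.1 * y.1 - y.1 * x.1) f + act y.1 (act x.1 f)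
    rw [act_bracket, LinearMap.sub_apply, Module.End.mul_apply, Module.End.mul_apply,
      sub_add_cancel]

theorem tf_lie (x : so n) (f : TF J (Fin n ⊕ Fin n)) : ⁅x, f⁆ = act x.1 f := rfl

noncomputable instance tfLM : LieModule ℂ (so n) (TF J (Fin n ⊕ Fin n)) where
  smul_lie c x f := by
    show act (c • x.1) f = _
    rw [act_smul]; rfl
  lie_smul c x f := map_smul _ _ _

theorem tf_unitary : IsUnitary (tau (n := n)) (TF J (Fin n ⊕ Fin n)) := fun x f g =>
  act_adj x.1 f g

theorem toEnd_tf (x : so n) : LieModule.toEnd ℂ (so n) (TF J (Fin n ⊕ Fin n)) x = act x.1 := rfl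

theorem tf_nilp {x : so n} (hx : x ∈ rootSet n) :
    IsNilpotent (LieModule.toEnd ℂ (so n) (TF J (Fin n ⊕ Fin n)) x) :=
  act_nilp (rootSet_sq hx)

end model

end Vale.Agent.P182
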