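import Vale.Agent.P182.H664.Lang
import Vale.Agent.P182.H922.Final
import Vale.Agent.P182.H922.AlgCl
import Vale.Agent.P182.H163.Assembly

/-!
# The configuration attached to frames
-/

namespace Vale.Agent.P182

open Module Matrix LieAlgebra.Orthogonal Vale.Agent.P182.H533

section cfg

variable {n : ℕ} {L : Type*} [Field L] {J : Type*}

/-- the configuration attached to frames -/
def frCfg (e : Fin 3 → Fin n → Fin n ⊕ Fin n → L) (arm : J → Fin 3) (c : J → ℕ) (Ω : J → J → L) :
    B1.Cfg L (Fin n ⊕ Fin n → L) J where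
  q := qB n L
  F := fun s i => Fl (e s) i
  arm := arm
  c := c
  Ω := Matrix.of Ω

theorem Fl_mono (e : Fin n → Fin n ⊕ Fin n → L) : Monotone (Fl e) := by
  intro a b hab
  apply Submodule.span_mono
  rintro v ⟨i, hi, rfl⟩
  exact ⟨i, lt_of_lt_of_le hi hab, rfl⟩

theorem Fl_zero (e : Fin n → Fin n ⊕ Fin n → L) : Fl e 0 = ⊥ := by
  rw [Fl, Submodule.span_eq_bot]
  rintro v ⟨i, hi, _⟩
  exact absurd hi (Nat.not_lt_zero _)

theorem Fl_step (e : Fin n → Fin n ⊕ Fin n → L) (i : ℕ) :
    finrank L (Fl e (i + 1)) ≤ finrank L (Fl e i) + 1 := by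
  by_cases hi : i < n
  · have h1 : Fl e (i + 1) ≤ Fl e i ⊔ Submodule.span L {e ⟨i, hi⟩} := by
      rw [Fl, Submodule.span_le]
      rintro v ⟨j, hj, rfl⟩
      by_cases h : (j : ℕ) < i
      · exact Submodule.mem_sup_left (Submodule.subset_span ⟨j, h, rfl⟩)
      · have : j = ⟨i, hi⟩ := Fin.ext (by simp only; omega)
        subst this
        exact Submodule.mem_sup_right (Submodule.subset_span rfl)
    have h2 := Submodule.finrank_mono h1
    have h3 := Submodule.finrank_add_le_finrank_add_finrank (Fl e i)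
      (Submodule.span L {e ⟨i, hi⟩})
    have h4 : finrank L (Submodule.span L {e ⟨i, hi⟩}) ≤ 1 :=
      (finrank_span_le_card ({e ⟨i, hi⟩} : Set (Fin n ⊕ Fin n → L))).trans (by simp)
    omega
  · have : Fl e (i + 1) ≤ Fl e i := by
      apply Submodule.span_mono
      rintro v ⟨j, _, rfl⟩
      exact ⟨j, by omega, rfl⟩
    have := Submodule.finrank_mono this
    omega

theorem Fl_iso {e : Fin n → Fin n ⊕ Fin n → L} (hiso : ∀ i j, qf (e i) (e j) = 0) {a b : ℕ} :
    ∀ v ∈ Fl e a, ∀ w ∈ Fl e b, qf v w = 0 := by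
  intro v hv w hw
  induction hv using Submodule.span_induction with
  | mem v hv =>
    obtain ⟨i, _, rfl⟩ := hv
    induction hw using Submodule.span_induction with
    | mem w hw =>
      obtain ⟨j, _, rfl⟩ := hw
      exact hiso i j
    | zero => rw [← qB_apply, map_zero]
    | add w w' _ _ h1 h2 => rw [← qB_apply, map_add, qB_apply, qB_apply, h1, h2, add_zero]
    | smul x w _ h1 => rw [← qB_apply, map_smul, qB_apply, h1, smul_zero]
  | zero => rw [← qB_apply, map_zero, LinearMap.zero_apply]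
  | add w w' _ _ h1 h2 =>
    rw [← qB_apply, map_add, LinearMap.add_apply, qB_apply, qB_apply, h1, h2, add_zero]
  | smul x w _ h1 => rw [← qB_apply, map_smul, LinearMap.smul_apply, qB_apply, h1, smul_zero]

theorem frCfg_good {e : Fin 3 → Fin n → Fin n ⊕ Fin n → L} {arm : J → Fin 3} {c : J → ℕ}
    {Ω : J → J → L} (hΩ : ∀ l l', Ω l l' = - Ω l' l) (hiso : ∀ s i j, qf (e s i) (e s j) = 0) :
    (frCfg e arm c Ω).Good where
  form := H922.isForm_qB
  zero := fun s => Fl_zero _
  mono := fun s => Fl_mono _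
  iso := fun s i v hv w hw => Fl_iso (hiso s) v hv w hw
  step := fun s i => Fl_step _ _
  skew := by
    ext i j
    show Ω j i = - Ω i j
    exact hΩ j i

/-- the connection of a derivation -/
def dConn [Algebra ℂ L] (n : ℕ) (D : Derivation ℂ L L) : Conn (qB n L) where
  d := D.toLinearMap.toAddMonoidHom
  δ :=
    { toFun := fun v => Dv D v
      map_zero' := by funext b; simp [Dv]
      map_add' := fun u v => by funext b; simp [Dv] }
  leib := fun a b => by
    show D (a * b) = D a * b + a * D b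
    rw [Derivation.leibniz, smul_eq_mul, smul_eq_mul]
    ring
  smul := fun a v => by
    show Dv D (a • v) = D a • v + a • Dv D v
    funext b
    simp only [Dv, Pi.smul_apply, smul_eq_mul, Derivation.leibniz, Pi.add_apply]
    ring
  metric := fun u v => D_qf D u v

theorem frCfg_versal [Algebra ℂ L] {e : Fin 3 → Fin n → Fin n ⊕ Fin n → L} {arm : J → Fin 3}
    {c : J → ℕ} {Ω : J → J → L} (hV : Versal e Ω) : (frCfg e arm c Ω).Versal := by
  intro Y hY η hη
  have hYm : ∀ s a, (LinearMap.toMatrix' (Y s)).mulVec a = Y s a := fun s a => by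
    rw [← Matrix.toLin'_apply, Matrix.toLin'_toMatrix']
  obtain ⟨D, hD, hη'⟩ := hV (fun s => LinearMap.toMatrix' (Y s))
    (fun s => H922.isSo_of_skew fun a b => by
      rw [hYm, hYm]; exact hY s a b) (fun l l' => η l l') (fun l l' => by
      have := congrFun (congrFun hη l') l
      rwa [Matrix.transpose_apply, Matrix.neg_apply] at this)
  refine ⟨dConn n D, fun s i v hv => ?_, fun l k => hη' l k⟩
  have h := Dv_mem (hD s) hv
  rw [hYm] at h
  exact h

/-- many derivations killing the frames and `Ω` -/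
def RichF [Algebra ℂ L] (e : Fin 3 → Fin n → Fin n ⊕ Fin n → L) (Ω : J → J → L) : Prop :=
  ∀ m : ℕ, ∃ D : Fin m → Derivation ℂ L L, ∃ τ : Fin m → L,
    (∀ a s i b, D a (e s i b) = 0) ∧ (∀ a l k, D a (Ω l k) = 0) ∧
      ∀ a b, D a (τ b) = if a = b then 1 else 0

theorem frCfg_rich [Algebra ℂ L] {e : Fin 3 → Fin n → Fin n ⊕ Fin n → L} {arm : J → Fin 3}
    {c : J → ℕ} {Ω : J → J → L} (hR : RichF e Ω) : (frCfg e arm c Ω).Rich := by
  intro m
  obtain ⟨D, τ, h1, h2, h3⟩ := hR m
  refine ⟨fun a => dConn n (D a), τ, fun a s i v hv => ?_, fun a l k => h2 a l k,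
    fun a b => h3 a b⟩
  have h := Dv_mem (D := D a) (e := e s) (Y := 0) (fun j => by
    rw [Matrix.zero_mulVec]
    funext b
    exact h1 a s j b) hv
  rw [Matrix.zero_mulVec, sub_zero] at h
  exact h

theorem RichF.ext [CharZero L] [Algebra ℂ L] {T : Type*} [Field T] [Algebra L T]
    [Algebra ℂ T] [IsScalarTower ℂ L T] [Algebra.IsAlgebraic L T]
    {e : Fin 3 → Fin n → Fin n ⊕ Fin n → L} {Ω : J → J → L} (h : RichF e Ω) :
    RichF (fun s i b => algebraMap L T (e s i b)) (fun l l' => algebraMap L T (Ω l l')) := by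
  intro m
  obtain ⟨D, τ, h1, h2, h3⟩ := h m
  choose D' hD' using fun a => H922.exists_ext (T := T) (D a)
  refine ⟨D', fun a => algebraMap L T (τ a), fun a s i b => ?_, fun a l k => ?_, fun a b => ?_⟩
  · rw [hD', h1, map_zero]
  · rw [hD', h2, map_zero]
  · rw [hD', h3]
    split_ifs <;> simp

end cfg

end Vale.Agent.P182
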