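import Vale.Agent.P182.H163.Base
import Vale.Agent.P182.H62.SubQuo

/-!
# The frames of a triple of orthogonal matrices
-/

namespace Vale.Agent.P182

open Module Matrix LieAlgebra.Orthogonal Vale.Agent.P182.H533

section frames

variable {n : ℕ} {L : Type*} [Field L]

/-- the frame of a triple of orthogonal matrices -/
def frm (lam : Fin 3 → Fin n → ℤ) (g : Fin 3 → Matrix (Fin n ⊕ Fin n) (Fin n ⊕ Fin n) L)
    (s : Fin 3) (i : Fin n) : Fin n ⊕ Fin n → L := fun b => g s b (fr (lam s) i)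

theorem qf_col {g : Matrix (Fin n ⊕ Fin n) (Fin n ⊕ Fin n) L}
    (hg : g.transpose * JD (Fin n) L * g = JD (Fin n) L) (a b : Fin n ⊕ Fin n) :
    qf (fun c => g c a) (fun c => g c b) = JD (Fin n) L a b := by
  conv_rhs => rw [← hg]
  rw [qf, Matrix.mul_assoc, Matrix.mul_apply]
  refine Finset.sum_congr rfl fun i _ => ?_
  rw [Matrix.mul_apply, Finset.mul_sum, Matrix.transpose_apply]
  refine Finset.sum_congr rfl fun j _ => ?_
  ring

theorem fr_swap (lam : Fin n → ℤ) (i j : Fin n) : fr lam i ≠ Sum.swap (fr lam j) := by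
  rw [fr, fr]
  split_ifs with h1 h2 h2
  · simp
  · simp only [Sum.swap_inl, ne_eq, Sum.inr.injEq]
    rintro rfl
    exact h2 h1
  · simp only [Sum.swap_inr, ne_eq, Sum.inl.injEq]
    rintro rfl
    exact h1 h2
  · simp

theorem fr_inj {lam : Fin n → ℤ} {i j : Fin n} (h : fr lam i = fr lam j) : i = j := by
  rw [fr, fr] at h
  split_ifs at h <;> simpa using h

variable {lam : Fin 3 → Fin n → ℤ} {g : Fin 3 → Matrix (Fin n ⊕ Fin n) (Fin n ⊕ Fin n) L}

theorem frm_iso (hg : ∀ s, (g s).transpose * JD (Fin n) L * g s = JD (Fin n) L) (s : Fin 3)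
    (i j : Fin n) : qf (frm lam g s i) (frm lam g s j) = 0 := by
  refine (qf_col (hg s) _ _).trans ?_
  rw [JD_eq, if_neg (fr_swap _ _ _)]

theorem frm_dual (hg : ∀ s, (g s).transpose * JD (Fin n) L * g s = JD (Fin n) L) (s : Fin 3)
    (i j : Fin n) : qf (frm lam g s i) (fun b => g s b (Sum.swap (fr (lam s) j))) =
      if i = j then 1 else 0 := by
  refine (qf_col (hg s) _ _).trans ?_
  rw [JD_eq]
  by_cases h : i = j
  · subst h; simp
  · rw [if_neg h, if_neg]
    intro h'
    exact h (fr_inj (Sum.swap_leftInverse.injective h').symm)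

theorem frm_indep (hg : ∀ s, (g s).transpose * JD (Fin n) L * g s = JD (Fin n) L) (s : Fin 3) :
    LinearIndependent L (frm lam g s) := by
  rw [Fintype.linearIndependent_iff]
  intro a ha j
  have h := congrArg (fun v => qf v (fun b => g s b (Sum.swap (fr (lam s) j)))) ha
  simp only [qf_sum_left, frm_dual hg] at h
  simpa [← qB_apply] using h

theorem Fl_eq_span (e : Fin n → Fin n ⊕ Fin n → L) {c : ℕ} (hc : c ≤ n) :
    Fl e c = Submodule.span L (Set.range fun i : Fin c => e (Fin.castLE hc i)) := by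
  rw [Fl]
  congr 1
  ext v
  constructor
  · rintro ⟨i, hi, rfl⟩
    exact ⟨⟨i, hi⟩, rfl⟩
  · rintro ⟨i, rfl⟩
    exact ⟨Fin.castLE hc i, i.2, rfl⟩

theorem finrank_Fl {e : Fin n → Fin n ⊕ Fin n → L} (he : LinearIndependent L e) {c : ℕ}
    (hc : c ≤ n) : finrank L (Fl e c) = c := by
  rw [Fl_eq_span e hc]
  exact (finrank_span_eq_card (he.comp _ (Fin.castLE_injective hc))).trans (Fintype.card_fin c)

/-- the top flag is Lagrangian -/
theorem perp_Fl_top {e : Fin n → Fin n ⊕ Fin n → L} (he : LinearIndependent L e)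
    (hiso : ∀ i j, qf (e i) (e j) = 0) {c : ℕ} (hc : c = n) :
    perp (qB n L) (Fl e c) = Fl e c := by
  subst hc
  symm
  apply Submodule.eq_of_le_of_finrank_eq
  · intro v hv w hw
    exact Fl_iso hiso v hv w hw
  · have h1 := H62.finrank_perp (H922.isForm_qB (n := c) (L := L)) (Fl e c)
    rw [finrank_Fl he le_rfl, finrank_fintype_fun_eq_card, Fintype.card_sum,
      Fintype.card_fin] at h1
    rw [finrank_Fl he le_rfl]
    omega

/-- the symmetric form of the numerical function -/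
theorem dim_swap {V : Type*} [AddCommGroup V] [Module L V] [FiniteDimensional L V]
    {q : V →ₗ[L] V →ₗ[L] L} (hq : IsForm q) (F S : Submodule L V) :
    finrank L (S ⊓ perp q F : Submodule L V) + finrank L F =
      finrank L (F ⊓ perp q S : Submodule L V) + finrank L S := by
  have h1 := H62.finrank_perp hq F
  have h2 := H62.finrank_perp hq S
  have h3 := Submodule.finrank_sup_add_finrank_inf_eq S (perp q F)
  have h4 := H62.finrank_perp hq (S ⊔ perp q F)
  rw [H62.perp_sup, H62.perp_perp hq] at h4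
  rw [inf_comm F]
  omega

end frames

section columns

variable {n : ℕ} {L : Type*} [Field L]

/-- the height of a column -/
def ht (lam : Fin 3 → Fin n → ℤ) (l : ColT lam) : ℕ :=
  (Finset.univ.filter fun i : Fin n => (l.2 : ℕ) < (lam l.1 i).natAbs).card

theorem ht_le (lam : Fin 3 → Fin n → ℤ) (l : ColT lam) : ht lam l ≤ n :=
  (Finset.card_le_univ _).trans (by simp)

theorem natAbs_anti {lam : Fin n → ℤ} (h : DomZ lam) {i j : Fin n} (hij : i ≤ j) :
    (lam j).natAbs ≤ (lam i).natAbs := by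
  rcases eq_or_lt_of_le hij with rfl | hij
  · exact le_rfl
  · have h1 := h i j hij
    have h2 := (abs_nonneg _).trans h1
    have h3 : |lam j| = ((lam j).natAbs : ℤ) := Int.abs_eq_natAbs _
    have h4 : lam i = ((lam i).natAbs : ℤ) := (Int.natAbs_of_nonneg h2).symm
    omega

theorem lt_ht {lam : Fin 3 → Fin n → ℤ} (hl : ∀ s, DomZ (lam s)) (l : ColT lam) (i : Fin n) :
    (i : ℕ) < ht lam l ↔ (l.2 : ℕ) < (lam l.1 i).natAbs := by
  constructor
  · intro h
    by_contra hi
    have h1 : (Finset.univ.filter fun i : Fin n => (l.2 : ℕ) < (lam l.1 i).natAbs) ⊆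
        Finset.Iio i := by
      intro j hj
      rw [Finset.mem_filter] at hj
      rw [Finset.mem_Iio]
      by_contra hij
      exact hi (lt_of_lt_of_le hj.2 (natAbs_anti (hl _) (not_lt.mp hij)))
    have h2 := Finset.card_le_card h1
    rw [Fin.card_Iio] at h2
    exact absurd h (not_lt.mpr h2)
  · intro h
    have h1 : Finset.Iic i ⊆
        (Finset.univ.filter fun i : Fin n => (l.2 : ℕ) < (lam l.1 i).natAbs) := by
      intro j hj
      rw [Finset.mem_Iic] at hj
      rw [Finset.mem_filter]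
      exact ⟨Finset.mem_univ _, lt_of_lt_of_le h (natAbs_anti (hl _) hj)⟩
    have h2 := Finset.card_le_card h1
    rw [Fin.card_Iic] at h2
    exact h2

theorem fspan_eq {lam : Fin 3 → Fin n → ℤ} (hl : ∀ s, DomZ (lam s))
    (g : Fin 3 → Matrix (Fin n ⊕ Fin n) (Fin n ⊕ Fin n) L) (l : ColT lam) :
    fspan (lam l.1) (g l.1) l.2 = Fl (frm lam g l.1) (ht lam l) := by
  rw [fspan, Fl]
  congr 1
  ext v
  constructor
  · rintro ⟨i, hi, rfl⟩
    exact ⟨i, (lt_ht hl l i).mpr hi, rfl⟩
  · rintro ⟨i, hi, rfl⟩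
    exact ⟨i, (lt_ht hl l i).mp hi, rfl⟩

theorem qperp_eq (S : Submodule L (Fin n ⊕ Fin n → L)) : qperp S = perp (qB n L) S := by
  ext v
  exact forall₂_congr fun w _ => by rw [qB_apply, qf_symm]

/-- the configuration of a triple of weights -/
def wCfg (lam : Fin 3 → Fin n → ℤ) (g : Fin 3 → Matrix (Fin n ⊕ Fin n) (Fin n ⊕ Fin n) L)
    (Ω : ColT lam → ColT lam → L) : B1.Cfg L (Fin n ⊕ Fin n → L) (ColT lam) :=
  frCfg (frm lam g) Sigma.fst (ht lam) Ω

/-- The two numerical functions agree. -/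
theorem wCfg_theta {lam : Fin 3 → Fin n → ℤ} (hl : ∀ s, DomZ (lam s))
    {g : Fin 3 → Matrix (Fin n ⊕ Fin n) (Fin n ⊕ Fin n) L}
    (hg : ∀ s, (g s).transpose * JD (Fin n) L * g s = JD (Fin n) L)
    (Ω : ColT lam → ColT lam → L) (S : Submodule L (Fin n ⊕ Fin n → L)) :
    (wCfg lam g Ω).theta S = theta lam g S := by
  rw [theta, B1.Cfg.theta, Fintype.sum_sigma]
  refine Finset.sum_congr rfl fun s _ => ?_
  rw [Finset.sum_range]
  refine Finset.sum_congr rfl fun c _ => ?_
  have h1 : fspan (lam s) (g s) c = Fl (frm lam g s) (ht lam ⟨s, c⟩) := fspan_eq hl g ⟨s, c⟩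
  have h2 := dim_swap (H922.isForm_qB (n := n) (L := L)) (Fl (frm lam g s) (ht lam ⟨s, c⟩)) S
  have h3 := finrank_Fl (frm_indep (lam := lam) hg s) (ht_le lam ⟨s, c⟩)
  rw [colTheta, h1, qperp_eq]
  show (finrank L (S ⊓ Fl (frm lam g s) (ht lam ⟨s, c⟩) : Submodule L _) : ℤ) +
    finrank L (S ⊓ perp (qB n L) (Fl (frm lam g s) (ht lam ⟨s, c⟩)) : Submodule L _) -
      finrank L S = _
  have h4 : ((Finset.univ.filter fun i : Fin n => (c : ℕ) < (lam s i).natAbs).card) =
      ht lam ⟨s, c⟩ := rfl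
  rw [h4, inf_comm S (Fl _ _)]
  omega

/-- A configuration with trivial kernel has a nondegenerate Gram matrix. -/
theorem gram_det_ne_zero {lam : Fin 3 → Fin n → ℤ} (hl : ∀ s, DomZ (lam s))
    {g : Fin 3 → Matrix (Fin n ⊕ Fin n) (Fin n ⊕ Fin n) L}
    (hg : ∀ s, (g s).transpose * JD (Fin n) L * g s = JD (Fin n) L)
    (Ω : ColT lam → ColT lam → L) (hK : (wCfg lam g Ω).K = ⊥) :
    (gramT lam g Ω).det ≠ 0 := by
  intro h0
  obtain ⟨z, hz, hz0⟩ := Matrix.exists_mulVec_eq_zero_iff.mpr h0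
  apply hz
  let t : ColT lam → Fin n ⊕ Fin n → L := fun l => ∑ i : RowT lam l, z ⟨l, i⟩ • cv lam g ⟨l, i⟩
  have hom : ∀ l, (wCfg lam g Ω).om t l =
      ∑ j : CellT lam, (Ω l j.1 * z j) • cv lam g j := by
    intro l
    rw [B1.Cfg.om]
    conv_rhs => rw [Fintype.sum_sigma]
    refine Finset.sum_congr rfl fun k _ => ?_
    show Ω l k • ∑ i : RowT lam k, z ⟨k, i⟩ • cv lam g ⟨k, i⟩ = _
    rw [Finset.smul_sum]
    exact Finset.sum_congr rfl fun i _ => by rw [smul_smul]
  have ht : t ∈ (wCfg lam g Ω).K := by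
    rw [B1.Cfg.mem_K]
    constructor
    · intro l
      refine Submodule.sum_mem _ fun i _ => Submodule.smul_mem _ _ ?_
      exact Submodule.subset_span ⟨i.1, (lt_ht hl l i.1).mpr i.2, rfl⟩
    · intro l
      show (wCfg lam g Ω).om t l ∈ perp (qB n L) (Fl (frm lam g l.1) (ht lam l))
      have key : ∀ v ∈ Fl (frm lam g l.1) (ht lam l), qB n L ((wCfg lam g Ω).om t l) v = 0 := by
        intro v hv
        induction hv using Submodule.span_induction with
        | mem v hv =>
          obtain ⟨i, hi, rfl⟩ := hv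
          have h1 := congrFun hz0 ⟨l, ⟨i, (lt_ht hl l i).mp hi⟩⟩
          rw [Pi.zero_apply] at h1
          rw [hom, map_sum, LinearMap.sum_apply, ← h1, Matrix.mulVec, dotProduct]
          refine Finset.sum_congr rfl fun j _ => ?_
          rw [map_smul, LinearMap.smul_apply, qB_apply, qf_symm, gramT, Matrix.of_apply,
            smul_eq_mul]
          show _ = Ω l j.1 * qf (frm lam g l.1 i) (cv lam g j) * z j
          ring
        | zero => rw [map_zero]
        | add w w' _ _ h1 h2 => rw [map_add, h1, h2, add_zero]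
        | smul x w _ h1 => rw [map_smul, h1, smul_zero]
      exact key
  rw [hK, Submodule.mem_bot] at ht
  funext ⟨l, i⟩
  have h1 := congrFun ht l
  have h2 := congrArg (fun v => qf v (fun b => g l.1 b (Sum.swap (fr (lam l.1) i.1)))) h1
  have h3 : ∀ i' : RowT lam l, qf (cv lam g ⟨l, i'⟩)
      (fun b => g l.1 b (Sum.swap (fr (lam l.1) i.1))) = if i' = i then 1 else 0 := by
    intro i'
    have := frm_dual (lam := lam) hg l.1 i'.1 i.1
    refine this.trans ?_
    simp only [Subtype.ext_iff]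
  simp only [t, qf_sum_left, h3] at h2
  simpa [← qB_apply] using h2

end columns

end Vale.Agent.P182
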