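import Vale.Agent.P182.H163.Base2

/-!
# The base point over the algebraic closure of the function field
-/

namespace Vale.Agent.P182

open Module Matrix LieAlgebra.Orthogonal Vale.Agent.P182.H533

attribute [local instance 100] LieRing.ofAssociativeRing

section point

variable {n : ℕ}

/-- the algebraic closure of the function field -/
abbrev GK (C : Type) := AlgebraicClosure (GF C)

/-- the frames over the algebraic closure -/
noncomputable def gK (C : Type) (l : List (so n)) (s : Fin 3) :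
    Matrix (Fin n ⊕ Fin n) (Fin n ⊕ Fin n) (GK C) := (gF C l s).map (algebraMap (GF C) (GK C))

/-- the skew matrix over the algebraic closure -/
noncomputable def ΩK {C : Type} (c c' : C) : GK C := algebraMap (GF C) (GK C) (gΩ c c')

theorem versal_gF (hn : 2 ≤ n) {lam : Fin 3 → Fin n → ℤ} {l : List (so n)}
    (hl : ∀ x ∈ l, x ∈ rootSet n) :
    Versal (frm lam (gF (ColT lam) (gword l))) (gΩ (C := ColT lam)) := by
  intro Y hY η hη
  obtain ⟨D, hD, hD'⟩ := exists_der hn hl Y hY η hη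
  refine ⟨D, fun s i => ?_, hD'⟩
  funext b
  exact congrFun (congrFun (hD s) b) (fr (lam s) i)

theorem rich_gF {lam : Fin 3 → Fin n → ℤ} {l : List (so n)} (hl : ∀ x ∈ l, x ∈ rootSet n) :
    RichF (frm lam (gF (ColT lam) (gword l))) (gΩ (C := ColT lam)) := by
  intro m
  set N := (gword l).length with hN
  have hex : ∀ a : Fin m, ∃ D : Derivation ℂ (GF (ColT lam)) (GF (ColT lam)), ∀ i,
      D (algebraMap (GR (ColT lam)) (GF (ColT lam)) (MvPolynomial.X i)) =
        (Sum.elim (fun p : Fin 3 × ℕ => if p = (0, N + a) then 1 else 0) fun _ => 0) i :=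
    fun a => exists_derivation_mv _
  choose D hD using hex
  have hD1 : ∀ (a : Fin m) s k, k < N → D a (toGF (ColT lam) (MvPolynomial.X (Sum.inl (s, k)))) =
      0 := by
    intro a s k hk
    refine (hD a (Sum.inl (s, k))).trans ?_
    rw [Sum.elim_inl, if_neg]
    intro h
    rw [Prod.mk.injEq] at h
    omega
  refine ⟨D, fun b => toGF (ColT lam) (MvPolynomial.X (Sum.inl (0, N + b))), fun a s i b => ?_,
    fun a c k => ?_, fun a b => ?_⟩
  · have h1 : gF (ColT lam) (gword l) s =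
        wp (gword l) (fun k => toGF (ColT lam) (MvPolynomial.X (Sum.inl (s, k)))) := by
      rw [gF, genG, wp_map]
    have h2 := wp_der (gword_root hl) (D a)
      (fun k => toGF (ColT lam) (MvPolynomial.X (Sum.inl (s, k))))
    rw [Finset.sum_eq_zero (fun k hk => by
      rw [hD1 a s k (Finset.mem_range.mp hk), zero_smul]), Matrix.zero_mul, ← h1] at h2
    exact congrFun (congrFun h2 b) (fr (lam s) i)
  · rw [gΩ, genΩ, map_sub, map_sub]
    have h1 := hD a (Sum.inr (c, k))
    have h2 := hD a (Sum.inr (k, c))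
    rw [Sum.elim_inr] at h1 h2
    have h1' : D a (toGF (ColT lam) (MvPolynomial.X (Sum.inr (c, k)))) = 0 := h1
    have h2' : D a (toGF (ColT lam) (MvPolynomial.X (Sum.inr (k, c)))) = 0 := h2
    rw [h1', h2', sub_zero]
  · refine (hD a (Sum.inl (0, N + b))).trans ?_
    rw [Sum.elim_inl]
    by_cases hab : a = b
    · subst hab; simp
    · rw [if_neg hab, if_neg]
      intro h
      rw [Prod.mk.injEq] at h
      exact hab (Fin.ext (by omega))

theorem gK_orth {C : Type} {l : List (so n)} (hl : ∀ x ∈ l, x ∈ rootSet n) (s : Fin 3) :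
    (gK C l s).transpose * JD (Fin n) (GK C) * gK C l s = JD (Fin n) (GK C) := by
  have h := genG_orth (C := C) hl s
  have h1 := congrArg (fun M : Matrix _ _ (GR C) =>
    M.map ((algebraMap (GF C) (GK C)).comp (toGF C).toRingHom)) h
  simp only [Matrix.map_mul] at h1
  have h2 : ∀ M : Matrix (Fin n ⊕ Fin n) (Fin n ⊕ Fin n) (GR C),
      M.transpose.map ((algebraMap (GF C) (GK C)).comp (toGF C).toRingHom) =
      (M.map ((algebraMap (GF C) (GK C)).comp (toGF C).toRingHom)).transpose := fun M => rfl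
  have h3 : (JD (Fin n) (GR C)).map ((algebraMap (GF C) (GK C)).comp (toGF C).toRingHom) =
      JD (Fin n) (GK C) := by
    ext b b'
    exact JD_map ((algebraMap (GF C) (GK C)).comp (toGF C).toRingHom) b b'
  rw [h2, h3] at h1
  exact h1

/-- **Saturation from the core statement** (integral weights, semistability over the algebraic
closure). -/
theorem hasInvariants_of_coreK (hn : 2 ≤ n) {lam : Fin 3 → Fin n → ℤ} (hl : ∀ s, DomZ (lam s))
    (core : ∀ l : List (so n), (∀ x ∈ l, x ∈ rootSet n) →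
      (∀ S : Submodule (GK (ColT lam)) (Fin n ⊕ Fin n → GK (ColT lam)),
        (∀ u ∈ S, ∀ v ∈ S, qf u v = 0) → theta lam (gK (ColT lam) (gword l)) S ≤ 0) →
      (gramT lam (gK (ColT lam) (gword l)) ΩK).det ≠ 0)
    {N : ℕ} (hN : 0 < N)
    {V₀ V₁ V₂ W₀ W₁ W₂ : Type*} [AddCommGroup V₀] [Module ℂ V₀]
    [LieRingModule (so n) V₀] [LieModule ℂ (so n) V₀] [AddCommGroup V₁] [Module ℂ V₁]
    [LieRingModule (so n) V₁] [LieModule ℂ (so n) V₁] [AddCommGroup V₂] [Module ℂ V₂]
    [LieRingModule (so n) V₂] [LieModule ℂ (so n) V₂] [AddCommGroup W₀] [Module ℂ W₀]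
    [LieRingModule (so n) W₀] [LieModule ℂ (so n) W₀] [AddCommGroup W₁] [Module ℂ W₁]
    [LieRingModule (so n) W₁] [LieModule ℂ (so n) W₁] [AddCommGroup W₂] [Module ℂ W₂]
    [LieRingModule (so n) W₂] [LieModule ℂ (so n) W₂]
    [LieModule.IsIrreducible ℂ (so n) V₀] [LieModule.IsIrreducible ℂ (so n) V₁]
    [LieModule.IsIrreducible ℂ (so n) V₂] [LieModule.IsIrreducible ℂ (so n) W₀]
    [LieModule.IsIrreducible ℂ (so n) W₁] [LieModule.IsIrreducible ℂ (so n) W₂]
    (v₀ : HasHighestWeight (fun i => (lam 0 i : ℚ)) V₀)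
    (v₁ : HasHighestWeight (fun i => (lam 1 i : ℚ)) V₁)
    (v₂ : HasHighestWeight (fun i => (lam 2 i : ℚ)) V₂)
    (w₀ : HasHighestWeight (fun i => ((N : ℤ) * lam 0 i : ℤ)) W₀)
    (w₁ : HasHighestWeight (fun i => ((N : ℤ) * lam 1 i : ℤ)) W₁)
    (w₂ : HasHighestWeight (fun i => ((N : ℤ) * lam 2 i : ℤ)) W₂)
    (h : HasInvariants (n := n) W₀ W₁ W₂) : HasInvariants (n := n) V₀ V₁ V₂ := by
  have hlN : ∀ s, DomZ (fun i => (N : ℤ) * lam s i) := by
    intro s i j hij
    have := hl s i j hij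
    rw [abs_mul, abs_of_nonneg (by positivity : (0 : ℤ) ≤ N)]
    exact mul_le_mul_of_nonneg_left this (by positivity)
  rw [hasInvariants_iff_form hn (lam := fun s i => (N : ℤ) * lam s i) hlN w₀ w₁ w₂] at h
  obtain ⟨f, hf, g', hg', hne⟩ := h
  obtain ⟨l, hlr, ev, hev⟩ := exists_gword (ColT lam) hg'
  have hne' : ∑ β, algebraMap ℂ (GF (ColT lam)) (f β) *
      asymT (fun s i => (N : ℤ) * lam s i) (gF (ColT lam) (gword l)) β ≠ 0 := by
    have h1 : ∑ β, algebraMap ℂ (GF (ColT lam)) (f β) *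
        asymT (fun s i => (N : ℤ) * lam s i) (gF (ColT lam) (gword l)) β =
        toGF (ColT lam) (∑ β, algebraMap ℂ (GR (ColT lam)) (f β) *
          asymT (fun s i => (N : ℤ) * lam s i) (genG (ColT lam) (gword l)) β) := by
      rw [map_sum]
      refine Finset.sum_congr rfl fun β _ => ?_
      rw [map_mul, AlgHom.commutes]
      congr 1
      exact (asymT_map (toGF (ColT lam)).toRingHom _ _ β).symm
    have h2 : ev (∑ β, algebraMap ℂ (GR (ColT lam)) (f β) *
          asymT (fun s i => (N : ℤ) * lam s i) (genG (ColT lam) (gword l)) β) =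
        ∑ β, f β * asymT (fun s i => (N : ℤ) * lam s i) g' β := by
      rw [map_sum]
      refine Finset.sum_congr rfl fun β _ => ?_
      rw [map_mul, AlgHom.commutes]
      congr 1
      refine (asymT_map ev.toRingHom _ _ β).trans ?_
      congr 1
      funext s
      exact hev s
    rw [h1]
    intro h0
    have h3 := toGF_injective (h0.trans (map_zero _).symm)
    rw [h3, map_zero] at h2
    exact hne h2.symm
  have hneK : ∑ β, algebraMap ℂ (GK (ColT lam)) (f β) *
      asymT (fun s i => (N : ℤ) * lam s i) (gK (ColT lam) (gword l)) β ≠ 0 := by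
    have h1 : ∑ β, algebraMap ℂ (GK (ColT lam)) (f β) *
        asymT (fun s i => (N : ℤ) * lam s i) (gK (ColT lam) (gword l)) β =
        algebraMap (GF (ColT lam)) (GK (ColT lam)) (∑ β, algebraMap ℂ (GF (ColT lam)) (f β) *
          asymT (fun s i => (N : ℤ) * lam s i) (gF (ColT lam) (gword l)) β) := by
      rw [map_sum]
      refine Finset.sum_congr rfl fun β _ => ?_
      rw [map_mul, ← IsScalarTower.algebraMap_apply]
      congr 1
      exact (asymT_map (algebraMap (GF (ColT lam)) (GK (ColT lam))) _ _ β).symm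
    rw [h1]
    intro h0
    exact hne' ((algebraMap (GF (ColT lam)) (GK (ColT lam))).injective
      (h0.trans (map_zero _).symm))
  have hθ : ∀ S : Submodule (GK (ColT lam)) (Fin n ⊕ Fin n → GK (ColT lam)),
      (∀ u ∈ S, ∀ v ∈ S, qf u v = 0) → theta lam (gK (ColT lam) (gword l)) S ≤ 0 := by
    intro S hS
    have h1 := theta_nonpos hf hneK hS
    rw [theta_smul hN] at h1
    have hN' : (0 : ℤ) < N := by exact_mod_cast hN
    by_contra h2
    push Not at h2
    have := mul_pos hN' h2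
    omega
  have hdet := core l hlr hθ
  have hdet' : (gramT lam (genG (ColT lam) (gword l)) genΩ).det ≠ 0 := by
    intro h0
    apply hdet
    have h1 : gramT lam (gF (ColT lam) (gword l)) gΩ =
        (gramT lam (genG (ColT lam) (gword l)) genΩ).map (toGF (ColT lam)).toRingHom :=
      (gramT_map _ _ _ _).symm
    have h2 : gramT lam (gK (ColT lam) (gword l)) ΩK =
        (gramT lam (gF (ColT lam) (gword l)) gΩ).map
          (algebraMap (GF (ColT lam)) (GK (ColT lam))) :=
      (gramT_map _ _ _ _).symm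
    rw [h2, ← RingHom.mapMatrix_apply, ← RingHom.map_det, h1, ← RingHom.mapMatrix_apply,
      ← RingHom.map_det, h0, map_zero, map_zero]
  obtain ⟨ev', hev'⟩ := exists_ev hdet'
  rw [hasInvariants_iff_form hn hl v₀ v₁ v₂]
  have hdet'' : (gramT lam (fun s => (genG (ColT lam) (gword l) s).map ev')
      (fun c c' => ev' (genΩ c c'))).det ≠ 0 := by
    have h1 : gramT lam (fun s => (genG (ColT lam) (gword l) s).map ev')
      (fun c c' => ev' (genΩ c c')) =
        (gramT lam (genG (ColT lam) (gword l)) genΩ).map ev'.toRingHom :=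
      (gramT_map ev'.toRingHom _ _ _).symm
    rw [h1, ← RingHom.mapMatrix_apply, ← RingHom.map_det]
    exact hev'
  obtain ⟨f', hf', hne''⟩ := exists_invF_of_gram lam _ _
    (fun c c' => by rw [genΩ_skew, map_neg]) hdet''
  exact ⟨f', hf', _, fun s => genG_ev (gword_root hlr) ev' s, hne''⟩

/-- the base configuration -/
noncomputable def bCfg (lam : Fin 3 → Fin n → ℤ) (l : List (so n)) :
    B1.Cfg (GK (ColT lam)) (Fin n ⊕ Fin n → GK (ColT lam)) (ColT lam) :=
  wCfg lam (gK (ColT lam) (gword l)) ΩK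

theorem bCfg_good {lam : Fin 3 → Fin n → ℤ} {l : List (so n)} (hl : ∀ x ∈ l, x ∈ rootSet n) :
    (bCfg lam l).Good :=
  frCfg_good (fun c c' => by rw [ΩK, ΩK, gΩ, gΩ, genΩ_skew, map_neg, map_neg])
    (frm_iso (gK_orth (gword_root hl)))

theorem bCfg_versal (hn : 2 ≤ n) {lam : Fin 3 → Fin n → ℤ} {l : List (so n)}
    (hl : ∀ x ∈ l, x ∈ rootSet n) : (bCfg lam l).Versal :=
  frCfg_versal (H922.versal_ext (T := GK (ColT lam)) (versal_gF hn hl))

theorem bCfg_rich {lam : Fin 3 → Fin n → ℤ} {l : List (so n)}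
    (hl : ∀ x ∈ l, x ∈ rootSet n) : (bCfg lam l).Rich :=
  frCfg_rich (RichF.ext (T := GK (ColT lam)) (rich_gF (lam := lam) hl))

/-- **Saturation from `T`** at the base point. -/
theorem hasInvariants_of_T (hn : 2 ≤ n) {lam : Fin 3 → Fin n → ℤ} (hl : ∀ s, DomZ (lam s))
    (hT : ∀ l : List (so n), (∀ x ∈ l, x ∈ rootSet n) → (bCfg lam l).T)
    {N : ℕ} (hN : 0 < N)
    {V₀ V₁ V₂ W₀ W₁ W₂ : Type*} [AddCommGroup V₀] [Module ℂ V₀]
    [LieRingModule (so n) V₀] [LieModule ℂ (so n) V₀] [AddCommGroup V₁] [Module ℂ V₁]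
    [LieRingModule (so n) V₁] [LieModule ℂ (so n) V₁] [AddCommGroup V₂] [Module ℂ V₂]
    [LieRingModule (so n) V₂] [LieModule ℂ (so n) V₂] [AddCommGroup W₀] [Module ℂ W₀]
    [LieRingModule (so n) W₀] [LieModule ℂ (so n) W₀] [AddCommGroup W₁] [Module ℂ W₁]
    [LieRingModule (so n) W₁] [LieModule ℂ (so n) W₁] [AddCommGroup W₂] [Module ℂ W₂]
    [LieRingModule (so n) W₂] [LieModule ℂ (so n) W₂]
    [LieModule.IsIrreducible ℂ (so n) V₀] [LieModule.IsIrreducible ℂ (so n) V₁]
    [LieModule.IsIrreducible ℂ (so n) V₂] [LieModule.IsIrreducible ℂ (so n) W₀]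
    [LieModule.IsIrreducible ℂ (so n) W₁] [LieModule.IsIrreducible ℂ (so n) W₂]
    (v₀ : HasHighestWeight (fun i => (lam 0 i : ℚ)) V₀)
    (v₁ : HasHighestWeight (fun i => (lam 1 i : ℚ)) V₁)
    (v₂ : HasHighestWeight (fun i => (lam 2 i : ℚ)) V₂)
    (w₀ : HasHighestWeight (fun i => ((N : ℤ) * lam 0 i : ℤ)) W₀)
    (w₁ : HasHighestWeight (fun i => ((N : ℤ) * lam 1 i : ℤ)) W₁)
    (w₂ : HasHighestWeight (fun i => ((N : ℤ) * lam 2 i : ℤ)) W₂)
    (h : HasInvariants (n := n) W₀ W₁ W₂) : HasInvariants (n := n) V₀ V₁ V₂ := by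
  refine hasInvariants_of_coreK hn hl (fun l hlr hθ => ?_) hN v₀ v₁ v₂ w₀ w₁ w₂ h
  have hg := fun s => gK_orth (C := ColT lam) (gword_root hlr) s
  refine gram_det_ne_zero hl hg ΩK ?_
  obtain ⟨S, hS, hdim⟩ := hT l hlr
  have h1 : (bCfg lam l).theta S ≤ 0 := by
    rw [bCfg, wCfg_theta hl hg]
    refine hθ S fun u hu v hv => ?_
    exact hS hu v hv
  have h2 : finrank (GK (ColT lam)) (bCfg lam l).K = 0 := by omega
  exact Submodule.finrank_eq_zero.mp h2

end point

end Vale.Agent.P182
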