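import Mathlib.LinearAlgebra.BilinearForm.Properties
import Mathlib.LinearAlgebra.FiniteDimensional.Lemmas
import Mathlib.LinearAlgebra.Dual.Lemmas
import Mathlib.Tactic.LinearCombination

/-!
# Kernels of restrictions of alternating forms and box moves
-/

namespace Vale.Agent.P182

open Module

section kernel

variable {L X : Type*} [Field L] [AddCommGroup X] [Module L X]

/-- The kernel of the restriction of the form `A` to `E`. -/
def ker2 (A : X →ₗ[L] X →ₗ[L] L) (E : Submodule L X) : Submodule L X where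
  carrier := {t | t ∈ E ∧ ∀ r ∈ E, A t r = 0}
  zero_mem' := ⟨E.zero_mem, fun r _ => by rw [map_zero, LinearMap.zero_apply]⟩
  add_mem' := fun {a b} ha hb => ⟨E.add_mem ha.1 hb.1, fun r hr => by
    rw [map_add, LinearMap.add_apply, ha.2 r hr, hb.2 r hr, add_zero]⟩
  smul_mem' := fun c a ha => ⟨E.smul_mem c ha.1, fun r hr => by
    rw [map_smul, LinearMap.smul_apply, ha.2 r hr, smul_zero]⟩

theorem mem_ker2 {A : X →ₗ[L] X →ₗ[L] L} {E : Submodule L X} {t : X} :
    t ∈ ker2 A E ↔ t ∈ E ∧ ∀ r ∈ E, A t r = 0 := Iff.rfl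

theorem ker2_le (A : X →ₗ[L] X →ₗ[L] L) (E : Submodule L X) : ker2 A E ≤ E := fun _ h => h.1

variable {A : X →ₗ[L] X →ₗ[L] L} {E E' : Submodule L X}

theorem skew_of_alt (hA : ∀ x, A x x = 0) (u v : X) : A u v = - A v u := by
  have := hA (u + v)
  rw [map_add, map_add, LinearMap.add_apply, LinearMap.add_apply, hA, hA] at this
  linear_combination this

/-- a hyperplane and a vector outside generate -/
theorem mem_of_hyper [FiniteDimensional L X] (hle : E' ≤ E)
    (hrank : finrank L E = finrank L E' + 1) {k : X} (hk : k ∈ E) (hk' : k ∉ E') :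
    E = E' ⊔ Submodule.span L {k} := by
  refine (Submodule.eq_of_le_of_finrank_le (sup_le hle ?_) ?_).symm
  · rw [Submodule.span_le, Set.singleton_subset_iff]
    exact hk
  · rw [hrank]
    have hlt : E' < E' ⊔ Submodule.span L {k} := by
      refine lt_of_le_of_ne le_sup_left fun h => hk' ?_
      rw [h]
      exact Submodule.mem_sup_right (Submodule.mem_span_singleton_self k)
    exact Submodule.finrank_lt_finrank_of_lt hlt

/-- The first alternative of a box removal: the kernel is not contained in the hyperplane. -/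
theorem ker2_hyper_of_not_le [FiniteDimensional L X] (hA : ∀ x, A x x = 0) (hle : E' ≤ E)
    (hrank : finrank L E = finrank L E' + 1) (h : ¬ ker2 A E ≤ E') :
    ker2 A E' = ker2 A E ⊓ E' ∧ finrank L (ker2 A E) = finrank L (ker2 A E') + 1 := by
  obtain ⟨k, hk, hk'⟩ := Set.not_subset.mp h
  have hE := mem_of_hyper hle hrank hk.1 hk'
  have h1 : ker2 A E' = ker2 A E ⊓ E' := by
    ext t
    constructor
    · rintro ⟨ht, ht'⟩
      refine ⟨⟨hle ht, fun r hr => ?_⟩, ht⟩
      rw [hE] at hr
      obtain ⟨r', hr', z, hz, rfl⟩ := Submodule.mem_sup.mp hr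
      obtain ⟨a, rfl⟩ := Submodule.mem_span_singleton.mp hz
      rw [map_add, ht' r' hr', map_smul, skew_of_alt hA t k, hk.2 t (hle ht), neg_zero, smul_zero,
        add_zero]
    · rintro ⟨⟨ht, ht'⟩, ht''⟩
      exact ⟨ht'', fun r hr => ht' r (hle hr)⟩
  refine ⟨h1, ?_⟩
  -- dimension of the hyperplane section
  have h2 : ker2 A E ⊔ E' = E := by
    refine le_antisymm (sup_le (ker2_le A E) hle) ?_
    conv_lhs => rw [hE]
    refine sup_le le_sup_right (le_trans ?_ le_sup_left)
    rw [Submodule.span_le, Set.singleton_subset_iff]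
    exact hk
  have h3 := Submodule.finrank_sup_add_finrank_inf_eq (ker2 A E) E'
  rw [h2, ← h1, hrank] at h3
  omega

/-- The second alternative: the kernel is contained in the hyperplane. -/
theorem ker2_hyper_of_le [FiniteDimensional L X] (hA : ∀ x, A x x = 0) (hle : E' ≤ E)
    (hrank : finrank L E = finrank L E' + 1) (h : ker2 A E ≤ E') :
    ker2 A E ≤ ker2 A E' ∧ finrank L (ker2 A E') = finrank L (ker2 A E) + 1 := by
  have hK : ker2 A E ≤ ker2 A E' := fun t ht => ⟨h ht, fun r hr => ht.2 r (hle hr)⟩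
  refine ⟨hK, ?_⟩
  obtain ⟨x, hx, hx'⟩ : ∃ x ∈ E, x ∉ E' := by
    by_contra hcon
    push Not at hcon
    have : E = E' := le_antisymm hcon hle
    rw [this] at hrank
    omega
  have hE := mem_of_hyper hle hrank hx hx'
  -- upper bound
  let φ : ker2 A E' →ₗ[L] L := (A.flip x).comp (ker2 A E').subtype
  have hker : (LinearMap.ker φ).map (ker2 A E').subtype = ker2 A E := by
    ext t
    constructor
    · rintro ⟨⟨t, ht⟩, htk, rfl⟩
      have h0 : A t x = 0 := htk
      refine ⟨hle ht.1, fun r hr => ?_⟩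
      rw [hE] at hr
      obtain ⟨r', hr', z, hz, rfl⟩ := Submodule.mem_sup.mp hr
      obtain ⟨a, rfl⟩ := Submodule.mem_span_singleton.mp hz
      rw [Submodule.subtype_apply, map_add, ht.2 r' hr', map_smul, h0, smul_zero, add_zero]
    · intro ht
      exact ⟨⟨t, hK ht⟩, ht.2 x hx, rfl⟩
  have hkerrank : finrank L (LinearMap.ker φ) = finrank L (ker2 A E) := by
    rw [← hker, Submodule.finrank_map_subtype_eq]
  have hrn := LinearMap.finrank_range_add_finrank_ker φ
  have hr1 : finrank L (LinearMap.range φ) ≤ 1 := by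
    have := Submodule.finrank_le (LinearMap.range φ)
    rwa [finrank_self] at this
  -- lower bound
  obtain ⟨y, hy, hyK⟩ : ∃ y ∈ ker2 A E', y ∉ ker2 A E := by
    by_contra hcon
    push Not at hcon
    -- orthogonal of E' in E
    let ψ : E →ₗ[L] Dual L E' := (LinearMap.lcomp L L E'.subtype).comp (A.comp E.subtype)
    have hψ : ∀ (t : E) (r : E'), ψ t r = A t r := fun t r => rfl
    have hran : LinearMap.range ψ ≤ ((ker2 A E).comap E'.subtype).dualAnnihilator := by
      rintro _ ⟨t, rfl⟩
      rw [Submodule.mem_dualAnnihilator]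
      intro r hr
      rw [hψ, skew_of_alt hA, (show (r : X) ∈ ker2 A E from hr).2 t t.2, neg_zero]
    have h1 := Submodule.finrank_mono hran
    have h2 := Subspace.finrank_add_finrank_dualAnnihilator_eq ((ker2 A E).comap E'.subtype)
    have h3 : finrank L ((ker2 A E).comap E'.subtype) = finrank L (ker2 A E) := by
      rw [← Submodule.finrank_map_subtype_eq, Submodule.map_comap_subtype, inf_of_le_right h]
    have h4 := LinearMap.finrank_range_add_finrank_ker ψ
    have h5 : finrank L (ker2 A E) < finrank L (LinearMap.ker ψ) := by omega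
    have h6 : ¬ (LinearMap.ker ψ).map E.subtype ≤ ker2 A E := by
      intro hc
      have := Submodule.finrank_mono hc
      rw [Submodule.finrank_map_subtype_eq] at this
      omega
    obtain ⟨y, ⟨⟨y', hy'⟩, hyk, rfl⟩, hyn⟩ := Set.not_subset.mp h6
    have hy0 : ∀ r ∈ E', A y' r = 0 := fun r hr =>
      congrArg (fun f => f ⟨r, hr⟩) (show ψ ⟨y', hy'⟩ = 0 from hyk)
    by_cases hyE : y' ∈ E'
    · exact hyn (hcon y' ⟨hyE, hy0⟩)
    · apply hyn
      refine ⟨hy', fun r hr => ?_⟩
      have hE2 := mem_of_hyper hle hrank hy' hyE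
      rw [hE2] at hr
      obtain ⟨r', hr', z, hz, rfl⟩ := Submodule.mem_sup.mp hr
      obtain ⟨a, rfl⟩ := Submodule.mem_span_singleton.mp hz
      rw [Submodule.subtype_apply, map_add, hy0 r' hr', map_smul, hA, smul_zero, add_zero]
  have hlt : ker2 A E < ker2 A E' := lt_of_le_of_ne hK fun he => hyK (he ▸ hy)
  have h7 := Submodule.finrank_lt_finrank_of_lt hlt
  omega

end kernel

end Vale.Agent.P182
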