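import Vale.Agent.P182.H163.BridgeB

/-!
# Invariants force the isotropic inequalities
-/

namespace Vale.Agent.P182

open LieAlgebra.Orthogonal

section qfl

variable {n : ℕ} {L : Type*} [CommRing L]

theorem JD_eq (b b' : Fin n ⊕ Fin n) :
    JD (Fin n) L b b' = if b' = Sum.swap b then 1 else 0 := by
  rcases b with b | b <;> rcases b' with b' | b' <;> simp [JD, Matrix.one_apply, eq_comm]

theorem qf_eq (u v : Fin n ⊕ Fin n → L) : qf u v = ∑ b, u b * v (Sum.swap b) := by
  rw [qf]
  refine Finset.sum_congr rfl fun b _ => ?_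
  simp only [JD_eq]
  simp

theorem qf_add_left (u u' v : Fin n ⊕ Fin n → L) : qf (u + u') v = qf u v + qf u' v := by
  rw [qf_eq, qf_eq, qf_eq, ← Finset.sum_add_distrib]
  exact Finset.sum_congr rfl fun b _ => by rw [Pi.add_apply, add_mul]

theorem qf_smul_left (c : L) (u v : Fin n ⊕ Fin n → L) : qf (c • u) v = c * qf u v := by
  rw [qf_eq, qf_eq, Finset.mul_sum]
  exact Finset.sum_congr rfl fun b _ => by rw [Pi.smul_apply, smul_eq_mul, mul_assoc]

/-- the form as a bilinear map -/
def qB (n : ℕ) (L : Type*) [CommRing L] :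
    (Fin n ⊕ Fin n → L) →ₗ[L] (Fin n ⊕ Fin n → L) →ₗ[L] L :=
  LinearMap.mk₂ L qf qf_add_left qf_smul_left
    (fun u v v' => by rw [qf_symm, qf_add_left, qf_symm v, qf_symm v'])
    (fun c u v => by rw [qf_symm, qf_smul_left, qf_symm v]; rfl)

theorem qB_apply (u v : Fin n ⊕ Fin n → L) : qB n L u v = qf u v := rfl

/-- orthogonal complement -/
def qperp (S : Submodule L (Fin n ⊕ Fin n → L)) : Submodule L (Fin n ⊕ Fin n → L) where
  carrier := {v | ∀ s ∈ S, qf s v = 0}
  zero_mem' := fun s _ => (qB n L s).map_zero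
  add_mem' := fun {u v} hu hv s hs => by
    show qB n L s (u + v) = 0
    rw [map_add, qB_apply, qB_apply, hu s hs, hv s hs, add_zero]
  smul_mem' := fun c u hu s hs => by
    show qB n L s (c • u) = 0
    rw [map_smul, qB_apply, hu s hs, smul_zero]

theorem mem_qperp {S : Submodule L (Fin n ⊕ Fin n → L)} {v : Fin n ⊕ Fin n → L} :
    v ∈ qperp S ↔ ∀ s ∈ S, qf s v = 0 := Iff.rfl

end qfl

section multilinear

variable {n : ℕ} {J : Type*} [Fintype J] [DecidableEq J] {L : Type*} [Field L] [Algebra ℂ L]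

/-- The multilinear form with the given coefficients. -/
noncomputable def mlf (L : Type*) [Field L] [Algebra ℂ L] (f : (J → Fin n ⊕ Fin n) → ℂ) :
    MultilinearMap L (fun _ : J => (Fin n ⊕ Fin n → L)) L :=
  ∑ β, algebraMap ℂ L (f β) •
    (MultilinearMap.mkPiAlgebra L J L).compLinearMap fun j => LinearMap.proj (β j)

theorem mlf_apply (f : (J → Fin n ⊕ Fin n) → ℂ) (V : J → Fin n ⊕ Fin n → L) :
    mlf L f V = ∑ β, algebraMap ℂ L (f β) * ∏ j, V j (β j) := by
  rw [mlf, sum_apply]
  refine Finset.sum_congr rfl fun β _ => ?_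
  rw [smul_apply, MultilinearMap.compLinearMap_apply,
    MultilinearMap.mkPiAlgebra_apply, smul_eq_mul]
  rfl

/-- exchange of a value -/
def exch (B : Type*) (j : J) : Equiv.Perm ((J → B) × B) where
  toFun p := (Function.update p.1 j p.2, p.1 j)
  invFun p := (Function.update p.1 j p.2, p.1 j)
  left_inv p := by simp
  right_inv p := by simp

theorem mlf_update (f : (J → Fin n ⊕ Fin n) → ℂ) (V : J → Fin n ⊕ Fin n → L) (j : J)
    (X : Matrix (Fin n ⊕ Fin n) (Fin n ⊕ Fin n) L) :
    mlf L f (Function.update V j (X.mulVec (V j))) =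
      ∑ γ, (∑ b, X b (γ j) * algebraMap ℂ L (f (Function.update γ j b))) * ∏ k, V k (γ k) := by
  rw [mlf_apply]
  have h1 : ∀ β : J → Fin n ⊕ Fin n, algebraMap ℂ L (f β) *
      ∏ k, Function.update V j (X.mulVec (V j)) k (β k) =
      ∑ b', X (β j) b' * algebraMap ℂ L (f β) *
        (V j b' * ∏ k ∈ Finset.univ.erase j, V k (β k)) := by
    intro β
    have h0 : ∏ k ∈ Finset.univ.erase j, Function.update V j (X.mulVec (V j)) k (β k) =
        ∏ k ∈ Finset.univ.erase j, V k (β k) := by
      refine Finset.prod_congr rfl fun k hk => ?_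
      rw [Function.update_of_ne (Finset.mem_erase.mp hk).1]
    have h00 : X.mulVec (V j) (β j) = ∑ b', X (β j) b' * V j b' := rfl
    rw [← Finset.mul_prod_erase Finset.univ _ (Finset.mem_univ j), Function.update_self,
      h0, h00, Finset.sum_mul, Finset.mul_sum]
    refine Finset.sum_congr rfl fun b' _ => ?_
    ring
  simp only [h1, Finset.sum_mul]
  rw [← Fintype.sum_prod_type', ← Fintype.sum_prod_type']
  refine Fintype.sum_equiv (exch (Fin n ⊕ Fin n) j) _ _ fun p => ?_
  rcases p with ⟨β, b'⟩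
  show _ = X (β j) ((Function.update β j b') j) *
    algebraMap ℂ L (f (Function.update (Function.update β j b') j (β j))) *
    ∏ k, V k (Function.update β j b' k)
  rw [Function.update_self, Function.update_idem, Function.update_eq_self,
    ← Finset.mul_prod_erase Finset.univ _ (Finset.mem_univ j), Function.update_self]
  congr 2
  refine Finset.prod_congr rfl fun k hk => ?_
  rw [Function.update_of_ne (Finset.mem_erase.mp hk).1]

/-- elementary elements of `so` -/
def xe (c d : Fin n ⊕ Fin n) : so n :=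
  ⟨Matrix.of fun b b' => (if b = c then JD (Fin n) ℂ d b' else 0) -
    (if b = d then JD (Fin n) ℂ c b' else 0), by
    rw [mem_so]
    ext p q
    rw [Matrix.neg_apply, Matrix.mul_apply, Matrix.mul_apply]
    simp only [Matrix.transpose_apply, Matrix.of_apply, sub_mul, mul_sub, ite_mul, mul_ite,
      zero_mul, mul_zero, Finset.sum_sub_distrib, Finset.sum_ite_eq',
      Finset.mem_univ, if_true]
    rw [JD_symm p c, JD_symm p d]
    ring⟩

theorem xe_val (c d b b' : Fin n ⊕ Fin n) : (xe c d).1 b b' =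
    (if b = c then JD (Fin n) ℂ d b' else 0) - (if b = d then JD (Fin n) ℂ c b' else 0) := rfl

theorem map_JD (b b' : Fin n ⊕ Fin n) :
    algebraMap ℂ L (JD (Fin n) ℂ b b') = JD (Fin n) L b b' := by
  rw [JD_eq, JD_eq]
  split_ifs <;> simp

theorem invF_elt {f : (J → Fin n ⊕ Fin n) → ℂ} (hf : InvF f) (u v : Fin n ⊕ Fin n → L)
    (γ : J → Fin n ⊕ Fin n) :
    ∑ j, ∑ b, (u b * (∑ d, v d * JD (Fin n) L d (γ j)) - v b * (∑ d, u d * JD (Fin n) L d (γ j))) *
      algebraMap ℂ L (f (Function.update γ j b)) = 0 := by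
  have h1 : ∑ c, ∑ d, u c * v d * algebraMap ℂ L
      (∑ j, ∑ b, (xe c d).1 b (γ j) * f (Function.update γ j b)) = 0 := by
    refine Finset.sum_eq_zero fun c _ => Finset.sum_eq_zero fun d _ => ?_
    rw [hf (xe c d) γ, map_zero, mul_zero]
  have h2 : ∀ c d, u c * v d * algebraMap ℂ L
      (∑ j, ∑ b, (xe c d).1 b (γ j) * f (Function.update γ j b)) =
      ∑ j, ∑ b, ((if b = c then u c * (v d * JD (Fin n) L d (γ j)) else 0) -
        (if b = d then v d * (u c * JD (Fin n) L c (γ j)) else 0)) *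
        algebraMap ℂ L (f (Function.update γ j b)) := by
    intro c d
    rw [map_sum, Finset.mul_sum]
    refine Finset.sum_congr rfl fun j _ => ?_
    rw [map_sum, Finset.mul_sum]
    refine Finset.sum_congr rfl fun b _ => ?_
    rw [map_mul, xe_val, map_sub, apply_ite (algebraMap ℂ L), apply_ite (algebraMap ℂ L),
      map_JD, map_JD, map_zero]
    split_ifs <;> ring
  simp only [h2] at h1
  rw [← h1]
  have h3 : ∀ c, ∑ d, ∑ j, ∑ b, ((if b = c then u c * (v d * JD (Fin n) L d (γ j)) else 0) -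
        (if b = d then v d * (u c * JD (Fin n) L c (γ j)) else 0)) *
        algebraMap ℂ L (f (Function.update γ j b)) =
      ∑ j, ∑ b, ∑ d, ((if b = c then u c * (v d * JD (Fin n) L d (γ j)) else 0) -
        (if b = d then v d * (u c * JD (Fin n) L c (γ j)) else 0)) *
        algebraMap ℂ L (f (Function.update γ j b)) := by
    intro c
    rw [Finset.sum_comm]
    refine Finset.sum_congr rfl fun j _ => ?_
    rw [Finset.sum_comm]
  simp only [h3]
  conv_rhs => rw [Finset.sum_comm]
  refine Finset.sum_congr rfl fun j _ => ?_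
  conv_rhs => rw [Finset.sum_comm]
  refine Finset.sum_congr rfl fun b _ => ?_
  simp only [← Finset.sum_mul]
  congr 1
  simp only [Finset.sum_sub_distrib]
  congr 1
  · simp [Finset.mul_sum, -Fintype.sum_sum_type]
  · rw [Finset.sum_comm]
    simp [Finset.mul_sum, -Fintype.sum_sum_type]

/-- The elementary operators. -/
def elt (u v w : Fin n ⊕ Fin n → L) : Fin n ⊕ Fin n → L := qf v w • u - qf u w • v

theorem mlf_elt {f : (J → Fin n ⊕ Fin n) → ℂ} (hf : InvF f) (u v : Fin n ⊕ Fin n → L)
    (V : J → Fin n ⊕ Fin n → L) :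
    ∑ j, mlf L f (Function.update V j (elt u v (V j))) = 0 := by
  let X : Matrix (Fin n ⊕ Fin n) (Fin n ⊕ Fin n) L := Matrix.of fun b b' =>
    u b * (∑ d, v d * JD (Fin n) L d b') - v b * (∑ d, u d * JD (Fin n) L d b')
  have hX : ∀ w, X.mulVec w = elt u v w := by
    intro w
    funext b
    rw [elt, Matrix.mulVec, dotProduct]
    simp only [X, Matrix.of_apply, Pi.sub_apply, Pi.smul_apply, smul_eq_mul, sub_mul,
      Finset.sum_sub_distrib]
    have : ∀ (a c : Fin n ⊕ Fin n → L), ∑ x, a b * (∑ d, c d * JD (Fin n) L d x) * w x =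
        qf c w * a b := by
      intro a c
      rw [qf, Finset.sum_comm, Finset.sum_mul]
      refine Finset.sum_congr rfl fun x _ => ?_
      rw [mul_assoc, Finset.sum_mul, mul_comm]
    rw [this, this]
  simp only [← hX, mlf_update]
  rw [Finset.sum_comm]
  refine Finset.sum_eq_zero fun γ _ => ?_
  rw [← Finset.sum_mul]
  have := invF_elt hf u v γ
  simp only [X, Matrix.of_apply]
  rw [this, zero_mul]

end multilinear

section dualsys

variable {n : ℕ} {L : Type*} [Field L]

/-- A hyperbolic system. -/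
structure IsHyp {m : ℕ} (s t : Fin m → Fin n ⊕ Fin n → L) : Prop where
  ss : ∀ i j, qf (s i) (s j) = 0
  tt : ∀ i j, qf (t i) (t j) = 0
  st : ∀ i j, qf (s i) (t j) = if i = j then 1 else 0

theorem qf_sum_left {ι : Type*} (s : Finset ι) (c : ι → L) (u : ι → Fin n ⊕ Fin n → L)
    (v : Fin n ⊕ Fin n → L) : qf (∑ i ∈ s, c i • u i) v = ∑ i ∈ s, c i * qf (u i) v := by
  rw [← qB_apply, map_sum, LinearMap.sum_apply]
  refine Finset.sum_congr rfl fun i _ => ?_
  rw [map_smul, LinearMap.smul_apply, qB_apply, smul_eq_mul]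

theorem qf_sum_right {ι : Type*} (s : Finset ι) (c : ι → L) (u : ι → Fin n ⊕ Fin n → L)
    (v : Fin n ⊕ Fin n → L) : qf v (∑ i ∈ s, c i • u i) = ∑ i ∈ s, c i * qf v (u i) := by
  rw [qf_symm, qf_sum_left]
  exact Finset.sum_congr rfl fun i _ => by rw [qf_symm]

/-- linear functionals are given by the form -/
theorem exists_qf_repr (φ : (Fin n ⊕ Fin n → L) →ₗ[L] L) :
    ∃ t : Fin n ⊕ Fin n → L, ∀ v, qf v t = φ v := by
  refine ⟨fun b => φ (Pi.single (Sum.swap b) 1), fun v => ?_⟩
  rw [qf_eq]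
  simp only [Sum.swap_swap]
  conv_rhs => rw [← LinearMap.sum_single_apply (φ := fun _ => L) v, map_sum]
  refine Finset.sum_congr rfl fun b _ => ?_
  rw [← mul_one (v b), ← smul_eq_mul (v b) 1, Pi.single_smul', map_smul, smul_eq_mul]
  simp

/-- Existence of hyperbolic systems. -/
theorem exists_hyp [CharZero L] (S : Submodule L (Fin n ⊕ Fin n → L))
    (hS : ∀ u ∈ S, ∀ v ∈ S, qf u v = 0) :
    ∃ (m : ℕ) (s t : Fin m → Fin n ⊕ Fin n → L), IsHyp s t ∧
      Submodule.span L (Set.range s) = S := by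
  let b := Module.finBasis L S
  set m := Module.finrank L S with hm
  let s : Fin m → Fin n ⊕ Fin n → L := fun i => (b i : Fin n ⊕ Fin n → L)
  have hspan : Submodule.span L (Set.range s) = S := by
    have : Set.range s = S.subtype '' Set.range b := by
      rw [← Set.range_comp]; rfl
    rw [this, Submodule.span_image, b.span_eq, Submodule.map_top, Submodule.range_subtype]
  have hss : ∀ i j, qf (s i) (s j) = 0 := fun i j => hS _ (b i).2 _ (b j).2
  have h1 : ∀ i, ∃ t : Fin n ⊕ Fin n → L, ∀ v : S, qf v.1 t = b.coord i v := by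
    intro i
    obtain ⟨φ, hφ⟩ := LinearMap.exists_extend (b.coord i)
    obtain ⟨t, ht⟩ := exists_qf_repr φ
    refine ⟨t, fun v => ?_⟩
    rw [ht, ← hφ]
    rfl
  choose t₀ ht₀ using h1
  have hst : ∀ i j, qf (s i) (t₀ j) = if i = j then 1 else 0 := by
    intro i j
    rw [ht₀ j (b i), Module.Basis.coord_apply, b.repr_self, Finsupp.single_apply]
  let t : Fin m → Fin n ⊕ Fin n → L := fun i =>
    t₀ i - (2⁻¹ : L) • ∑ j, qf (t₀ i) (t₀ j) • s j
  have e1 : ∀ i u, qf u (t i) = qf u (t₀ i) - 2⁻¹ * ∑ j, qf (t₀ i) (t₀ j) * qf u (s j) := by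
    intro i u
    show qB n L u (t₀ i - (2⁻¹ : L) • ∑ j, qf (t₀ i) (t₀ j) • s j) = _
    rw [map_sub, map_smul, qB_apply, qB_apply, qf_sum_right, smul_eq_mul]
  refine ⟨m, s, t, ⟨hss, ?_, ?_⟩, hspan⟩
  · intro i j
    rw [e1, qf_symm, e1]
    have h2 : ∀ k, qf (t i) (s k) = if k = i then 1 else 0 := by
      intro k
      rw [qf_symm, e1, hst]
      simp [hss]
    simp only [h2]
    rw [qf_symm (t₀ j) (t₀ i)]
    simp only [qf_symm (t₀ j) (s _), hst, mul_ite, mul_one, mul_zero, Finset.sum_ite_eq',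
      Finset.mem_univ, if_true]
    rw [qf_symm (t₀ j) (t₀ i)]
    ring
  · intro i j
    rw [e1, hst]
    simp [hss]

end dualsys

end Vale.Agent.P182
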