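import Vale.Agent.P182.H163.BridgeA
import Mathlib.Algebra.CharP.Algebra

/-!
# Invariants force the isotropic inequalities: the weight argument
-/

namespace Vale.Agent.P182

open LieAlgebra.Orthogonal

section adapted

variable {L : Type*} [Field L] {V : Type*} [AddCommGroup V] [Module L V] [FiniteDimensional L V]

/-- Bases adapted to a flag. -/
theorem exists_adapted (A B F : Submodule L V) (hAB : A ≤ B) (hBF : B ≤ F) {ι : Type*} [Fintype ι]
    (hcard : Fintype.card ι = Module.finrank L F) :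
    ∃ (u : ι → V) (w : ι → ℤ), (∀ i, (w i = 1 ∧ u i ∈ A) ∨ (w i = 0 ∧ u i ∈ B) ∨ w i = -1) ∧
      F ≤ Submodule.span L (Set.range u) ∧
      ∑ i, w i = Module.finrank L A + Module.finrank L B - Module.finrank L F := by
  classical
  obtain ⟨b₀, hb₀A, -, hA, hi₀⟩ := exists_linearIndepOn_id_extension (K := L)
    (linearIndepOn_empty L (id : V → V)) (Set.empty_subset (A : Set V))
  obtain ⟨b₁, hb₁B, h01, hB, hi₁⟩ := exists_linearIndepOn_id_extension (K := L) hi₀
    (hb₀A.trans hAB : b₀ ⊆ (B : Set V))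
  obtain ⟨b₂, hb₂F, h12, hF, hi₂⟩ := exists_linearIndepOn_id_extension (K := L) hi₁
    (hb₁B.trans hBF : b₁ ⊆ (F : Set V))
  have f₂ : b₂.Finite := LinearIndependent.setFinite hi₂
  have f₁ : b₁.Finite := f₂.subset h12
  have f₀ : b₀.Finite := f₁.subset h01
  have s₀ : Submodule.span L b₀ = A := le_antisymm (Submodule.span_le.mpr hb₀A) hA
  have s₁ : Submodule.span L b₁ = B := le_antisymm (Submodule.span_le.mpr hb₁B) hB
  have s₂ : Submodule.span L b₂ = F := le_antisymm (Submodule.span_le.mpr hb₂F) hF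
  have c₀ : Module.finrank L A = f₀.toFinset.card := by
    have h := finrank_span_finset_eq_card (R := L) (s := f₀.toFinset) (by
      rw [Set.Finite.coe_toFinset]; exact hi₀)
    rwa [Set.Finite.coe_toFinset, s₀] at h
  have c₁ : Module.finrank L B = f₁.toFinset.card := by
    have h := finrank_span_finset_eq_card (R := L) (s := f₁.toFinset) (by
      rw [Set.Finite.coe_toFinset]; exact hi₁)
    rwa [Set.Finite.coe_toFinset, s₁] at h
  have c₂ : Module.finrank L F = f₂.toFinset.card := by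
    have h := finrank_span_finset_eq_card (R := L) (s := f₂.toFinset) (by
      rw [Set.Finite.coe_toFinset]; exact hi₂)
    rwa [Set.Finite.coe_toFinset, s₂] at h
  have hcard' : Fintype.card ι = Fintype.card f₂.toFinset := by
    rw [hcard, c₂, Fintype.card_coe]
  let e : ι ≃ f₂.toFinset := Fintype.equivOfCardEq hcard'
  refine ⟨fun i => (e i : V), fun i => (if (e i : V) ∈ b₀ then 1 else 0) +
    (if (e i : V) ∈ b₁ then 1 else 0) - 1, ?_, ?_, ?_⟩
  · intro i
    by_cases h0 : (e i : V) ∈ b₀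
    · left
      refine ⟨?_, hb₀A h0⟩
      simp [h0, h01 h0]
    · by_cases h1 : (e i : V) ∈ b₁
      · right; left
        refine ⟨?_, hb₁B h1⟩
        simp [h0, h1]
      · right; right
        simp [h0, h1]
  · have : Set.range (fun i => (e i : V)) = b₂ := by
      ext v
      constructor
      · rintro ⟨i, rfl⟩
        exact f₂.mem_toFinset.mp (e i).2
      · intro hv
        exact ⟨e.symm ⟨v, f₂.mem_toFinset.mpr hv⟩, by simp⟩
    rw [this, s₂]
  · rw [Equiv.sum_comp e (fun v : f₂.toFinset => ((if (v : V) ∈ b₀ then (1 : ℤ) else 0) +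
      (if (v : V) ∈ b₁ then 1 else 0) - 1)), Finset.sum_sub_distrib, Finset.sum_add_distrib]
    rw [Finset.sum_coe_sort f₂.toFinset (fun v => if v ∈ b₀ then (1 : ℤ) else 0),
      Finset.sum_coe_sort f₂.toFinset (fun v => if v ∈ b₁ then (1 : ℤ) else 0),
      Finset.sum_coe_sort f₂.toFinset (fun v => (1 : ℤ)),
      Finset.sum_boole, Finset.sum_boole, Finset.sum_const, c₀, c₁, c₂]
    have e0 : f₂.toFinset.filter (· ∈ b₀) = f₀.toFinset := by
      ext v
      simp only [Finset.mem_filter, Set.Finite.mem_toFinset]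
      exact ⟨fun h => h.2, fun h => ⟨h12 (h01 h), h⟩⟩
    have e1 : f₂.toFinset.filter (· ∈ b₁) = f₁.toFinset := by
      ext v
      simp only [Finset.mem_filter, Set.Finite.mem_toFinset]
      exact ⟨fun h => h.2, fun h => ⟨h12 h, h⟩⟩
    rw [e0, e1]
    simp

end adapted

section psi

variable {n : ℕ} {C : Type*} [Fintype C] [DecidableEq C] {I : C → Type*} [∀ c, Fintype (I c)]
  [∀ c, DecidableEq (I c)] {L : Type*} [Field L] [Algebra ℂ L]

/-- The column-alternating form. -/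
noncomputable def psi (L : Type*) [Field L] [Algebra ℂ L] (f : ((Σ c, I c) → Fin n ⊕ Fin n) → ℂ) :
    MultilinearMap L (fun _ : (Σ c, I c) => (Fin n ⊕ Fin n → L)) L :=
  ∑ π : ∀ c, Equiv.Perm (I c), (((csign π : ℤˣ) : ℤ) : L) •
    (mlf L f).domDomCongr (Equiv.sigmaCongrRight π)

theorem psi_apply (f : ((Σ c, I c) → Fin n ⊕ Fin n) → ℂ) (V : (Σ c, I c) → Fin n ⊕ Fin n → L) :
    psi L f V = ∑ π : ∀ c, Equiv.Perm (I c), (((csign π : ℤˣ) : ℤ) : L) *
      mlf L f (fun j => V (Equiv.sigmaCongrRight π j)) := by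
  rw [psi, sum_apply]
  refine Finset.sum_congr rfl fun π _ => ?_
  rw [smul_apply, smul_eq_mul]
  rfl

theorem psi_eq (f : ((Σ c, I c) → Fin n ⊕ Fin n) → ℂ) (V : (Σ c, I c) → Fin n ⊕ Fin n → L) :
    psi L f V = ∑ β, algebraMap ℂ L (f β) *
      ∏ c, (Matrix.of fun i' i : I c => V ⟨c, i⟩ (β ⟨c, i'⟩)).det := by
  rw [psi_apply]
  simp only [mlf_apply, Finset.mul_sum]
  rw [Finset.sum_comm]
  refine Finset.sum_congr rfl fun β _ => ?_
  have h1 : ∀ c, (Matrix.of fun i' i : I c => V ⟨c, i⟩ (β ⟨c, i'⟩)).det =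
      ∑ σ : Equiv.Perm (I c), (((Equiv.Perm.sign σ : ℤˣ) : ℤ) : L) *
        ∏ i, V ⟨c, σ i⟩ (β ⟨c, i⟩) := by
    intro c
    rw [← Matrix.det_transpose, Matrix.det_apply']
    rfl
  simp only [h1]
  rw [Finset.prod_univ_sum, Fintype.piFinset_univ, Finset.mul_sum]
  refine Finset.sum_congr rfl fun π _ => ?_
  rw [Finset.prod_mul_distrib, csign,
    Fintype.prod_sigma (fun j : (Σ c, I c) => V (Equiv.sigmaCongrRight π j) (β j))]
  have h2 : (((∏ c, Equiv.Perm.sign (π c) : ℤˣ) : ℤ) : L) =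
      ∏ c, (((Equiv.Perm.sign (π c) : ℤˣ) : ℤ) : L) := by
    push_cast
    rfl
  rw [h2]
  simp only [Equiv.sigmaCongrRight_apply]
  ring

/-- Change of frames. -/
theorem psi_change (f : ((Σ c, I c) → Fin n ⊕ Fin n) → ℂ)
    (U V : (Σ c, I c) → Fin n ⊕ Fin n → L) (A : ∀ c, Matrix (I c) (I c) L)
    (hV : ∀ c i, V ⟨c, i⟩ = ∑ k, A c k i • U ⟨c, k⟩) :
    psi L f V = (∏ c, (A c).det) * psi L f U := by
  rw [psi_eq, psi_eq, Finset.mul_sum]
  refine Finset.sum_congr rfl fun β _ => ?_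
  have h1 : ∀ c, (Matrix.of fun i' i : I c => V ⟨c, i⟩ (β ⟨c, i'⟩)).det =
      (Matrix.of fun i' i : I c => U ⟨c, i⟩ (β ⟨c, i'⟩)).det * (A c).det := by
    intro c
    rw [← Matrix.det_mul]
    congr 1
    ext i' i
    rw [Matrix.of_apply, hV, Matrix.mul_apply, Finset.sum_apply]
    refine Finset.sum_congr rfl fun k _ => ?_
    rw [Pi.smul_apply, smul_eq_mul, Matrix.of_apply, mul_comm]
  simp only [h1, Finset.prod_mul_distrib]
  ring

theorem li_of_psi {f : ((Σ c, I c) → Fin n ⊕ Fin n) → ℂ} {V : (Σ c, I c) → Fin n ⊕ Fin n → L}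
    (h : psi L f V ≠ 0) (c : C) : LinearIndependent L fun i : I c => V ⟨c, i⟩ := by
  rw [psi_eq] at h
  obtain ⟨β, -, hβ⟩ := Finset.exists_ne_zero_of_sum_ne_zero h
  have h1 := Finset.prod_ne_zero_iff.mp (right_ne_zero_of_mul hβ) c (Finset.mem_univ c)
  have h2 := Matrix.linearIndependent_cols_of_det_ne_zero h1
  let φ : (Fin n ⊕ Fin n → L) →ₗ[L] (I c → L) := LinearMap.funLeft L L fun i' => β ⟨c, i'⟩
  have h3 : (Matrix.of fun i' i : I c => V ⟨c, i⟩ (β ⟨c, i'⟩)).col =
      φ ∘ fun i : I c => V ⟨c, i⟩ := rfl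
  rw [h3] at h2
  exact LinearIndependent.of_comp φ h2

theorem mlf_weight {J : Type*} [Fintype J] [DecidableEq J] {f : (J → Fin n ⊕ Fin n) → ℂ}
    (hf : InvF f) {m : ℕ} (s t : Fin m → Fin n ⊕ Fin n → L) (V : J → Fin n ⊕ Fin n → L)
    (w : J → L) (hV : ∀ j, ∑ i, elt (s i) (t i) (V j) = w j • V j) :
    (∑ j, w j) * mlf L f V = 0 := by
  have h1 : ∑ j, mlf L f (Function.update V j (∑ i, elt (s i) (t i) (V j))) = 0 := by
    have h2 : ∀ j, mlf L f (Function.update V j (∑ i, elt (s i) (t i) (V j))) =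
        ∑ i, mlf L f (Function.update V j (elt (s i) (t i) (V j))) := by
      intro j
      rw [MultilinearMap.map_update_sum]
    simp only [h2]
    rw [Finset.sum_comm]
    exact Finset.sum_eq_zero fun i _ => mlf_elt hf _ _ V
  rw [← h1, Finset.sum_mul]
  refine Finset.sum_congr rfl fun j _ => ?_
  rw [hV, MultilinearMap.map_update_smul, Function.update_eq_self, smul_eq_mul]

theorem psi_weight {f : ((Σ c, I c) → Fin n ⊕ Fin n) → ℂ} (hf : InvF f) {m : ℕ}
    (s t : Fin m → Fin n ⊕ Fin n → L) (V : (Σ c, I c) → Fin n ⊕ Fin n → L)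
    (w : (Σ c, I c) → L) (hV : ∀ j, ∑ i, elt (s i) (t i) (V j) = w j • V j) :
    (∑ j, w j) * psi L f V = 0 := by
  rw [psi_apply, Finset.mul_sum]
  refine Finset.sum_eq_zero fun π _ => ?_
  have h1 := mlf_weight hf s t (fun j => V (Equiv.sigmaCongrRight π j))
    (fun j => w (Equiv.sigmaCongrRight π j)) fun j => hV _
  rw [Equiv.sum_comp (Equiv.sigmaCongrRight π) w] at h1
  rw [mul_left_comm, h1, mul_zero]

/-- the weights -/
def wt : Fin 3 → ℤ := ![1, 0, -1]

/-- The weight projections of a hyperbolic system. -/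
def pP {L : Type*} [Field L] {m : ℕ} (s t : Fin m → Fin n ⊕ Fin n → L) (v : Fin n ⊕ Fin n → L) :
    Fin 3 → (Fin n ⊕ Fin n → L) :=
  ![∑ i, qf (t i) v • s i, v - ∑ i, qf (t i) v • s i - ∑ i, qf (s i) v • t i,
    ∑ i, qf (s i) v • t i]

theorem sum_pP {L : Type*} [Field L] {m : ℕ} (s t : Fin m → Fin n ⊕ Fin n → L)
    (v : Fin n ⊕ Fin n → L) : ∑ r, pP s t v r = v := by
  rw [Fin.sum_univ_three]
  show (∑ i, qf (t i) v • s i) + (v - ∑ i, qf (t i) v • s i - ∑ i, qf (s i) v • t i) +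
    (∑ i, qf (s i) v • t i) = v
  abel

theorem qf_sub_right {L : Type*} [Field L] (u v w : Fin n ⊕ Fin n → L) :
    qf u (v - w) = qf u v - qf u w := by
  rw [← qB_apply, map_sub, qB_apply, qB_apply]

theorem elt_pP {L : Type*} [Field L] {m : ℕ} {s t : Fin m → Fin n ⊕ Fin n → L} (h : IsHyp s t)
    (v : Fin n ⊕ Fin n → L) (r : Fin 3) :
    ∑ i, elt (s i) (t i) (pP s t v r) = ((wt r : ℤ) : L) • pP s t v r := by
  have hts : ∀ i j, qf (t i) (s j) = if i = j then 1 else 0 := by
    intro i j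
    rw [qf_symm, h.st]
    simp [eq_comm]
  have a1 : ∀ i, qf (t i) (∑ i, qf (t i) v • s i) = qf (t i) v := by
    intro i
    rw [qf_sum_right]
    simp [hts]
  have a2 : ∀ i, qf (s i) (∑ i, qf (t i) v • s i) = 0 := by
    intro i
    rw [qf_sum_right]
    simp [h.ss]
  have a3 : ∀ i, qf (t i) (∑ i, qf (s i) v • t i) = 0 := by
    intro i
    rw [qf_sum_right]
    simp [h.tt]
  have a4 : ∀ i, qf (s i) (∑ i, qf (s i) v • t i) = qf (s i) v := by
    intro i
    rw [qf_sum_right]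
    simp [h.st]
  fin_cases r
  · show ∑ i, elt (s i) (t i) (∑ i, qf (t i) v • s i) = ((1 : ℤ) : L) • ∑ i, qf (t i) v • s i
    simp only [elt, a1, a2, zero_smul, sub_zero, Int.cast_one, one_smul]
  · show ∑ i, elt (s i) (t i) (v - ∑ i, qf (t i) v • s i - ∑ i, qf (s i) v • t i) =
      ((0 : ℤ) : L) • _
    simp only [elt, qf_sub_right, a1, a2, a3, a4, sub_zero, sub_self, zero_smul,
      Finset.sum_const_zero, Int.cast_zero]
  · show ∑ i, elt (s i) (t i) (∑ i, qf (s i) v • t i) = ((-1 : ℤ) : L) • ∑ i, qf (s i) v • t i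
    simp only [elt, a3, a4, zero_smul, zero_sub, Int.cast_neg, Int.cast_one, neg_smul, one_smul,
      Finset.sum_neg_distrib]

/-- **Bridge A.** -/
theorem theta_le {f : ((Σ c, I c) → Fin n ⊕ Fin n) → ℂ} (hf : InvF f)
    {V : (Σ c, I c) → Fin n ⊕ Fin n → L} (hV : psi L f V ≠ 0)
    {S : Submodule L (Fin n ⊕ Fin n → L)} (hS : ∀ u ∈ S, ∀ v ∈ S, qf u v = 0) :
    ∑ c, ((Module.finrank L
        (Submodule.span L (Set.range fun i : I c => V ⟨c, i⟩) ⊓ S : Submodule L _) : ℤ) +
      Module.finrank L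
        (Submodule.span L (Set.range fun i : I c => V ⟨c, i⟩) ⊓ qperp S : Submodule L _) -
      Fintype.card (I c)) ≤ 0 := by
  have : CharZero L := charZero_of_injective_algebraMap (algebraMap ℂ L).injective
  obtain ⟨m, s, t, hst, hspan⟩ := exists_hyp S hS
  set F : C → Submodule L (Fin n ⊕ Fin n → L) := fun c =>
    Submodule.span L (Set.range fun i : I c => V ⟨c, i⟩) with hF
  have hcard : ∀ c, Fintype.card (I c) = Module.finrank L (F c) := fun c =>
    (finrank_span_eq_card (li_of_psi hV c)).symm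
  have hSp : S ≤ qperp S := fun v hv s hs => hS s hs v hv
  have hA := fun c => exists_adapted (F c ⊓ S) (F c ⊓ qperp S) (F c)
    (inf_le_inf_left _ hSp) inf_le_left (hcard c)
  choose u w hw hFu hsum using hA
  let U : (Σ c, I c) → Fin n ⊕ Fin n → L := fun j => u j.1 j.2
  -- change of frames
  have hch : ∀ c i, ∃ a : I c → L, V ⟨c, i⟩ = ∑ k, a k • u c k := by
    intro c i
    have h1 : V ⟨c, i⟩ ∈ Submodule.span L (Set.range (u c)) :=
      hFu c (Submodule.subset_span ⟨i, rfl⟩)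
    obtain ⟨a, ha⟩ := (Submodule.mem_span_range_iff_exists_fun L).mp h1
    exact ⟨a, ha.symm⟩
  choose a ha using hch
  have hU : psi L f U ≠ 0 := by
    intro h0
    apply hV
    rw [psi_change f U V (fun c => Matrix.of fun k i => a c i k) fun c i => ha c i, h0, mul_zero]
  -- expansion
  have hexp : psi L f U = ∑ r : (Σ c, I c) → Fin 3, psi L f fun j => pP s t (U j) (r j) := by
    rw [← MultilinearMap.map_sum]
    congr 1
    funext j
    rw [sum_pP]
  rw [hexp] at hU
  obtain ⟨r, -, hr⟩ := Finset.exists_ne_zero_of_sum_ne_zero hU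
  have hwt : ∑ j, ((wt (r j) : ℤ) : L) = 0 := by
    have := psi_weight hf s t (fun j => pP s t (U j) (r j)) (fun j => ((wt (r j) : ℤ) : L))
      fun j => elt_pP hst _ _
    exact (mul_eq_zero.mp this).resolve_right hr
  have hwt' : ∑ j, wt (r j) = 0 := by
    rw [← Int.cast_sum] at hwt
    exact_mod_cast hwt
  have hne : ∀ j, pP s t (U j) (r j) ≠ 0 := by
    intro j h0
    exact hr (MultilinearMap.map_coord_zero _ j h0)
  have hmS : ∀ v ∈ S, ∀ i, qf (s i) v = 0 := by
    intro v hv i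
    refine hS _ ?_ v hv
    rw [← hspan]
    exact Submodule.subset_span ⟨i, rfl⟩
  have hmP : ∀ v ∈ qperp S, ∀ i, qf (s i) v = 0 := by
    intro v hv i
    refine hv _ ?_
    rw [← hspan]
    exact Submodule.subset_span ⟨i, rfl⟩
  have hge : ∀ j : (Σ c, I c), w j.1 j.2 ≤ wt (r j) := by
    intro j
    have h2 : ∀ v, (∀ i, qf (s i) v = 0) → pP s t v 2 = 0 := by
      intro v hv
      show ∑ i, qf (s i) v • t i = 0
      exact Finset.sum_eq_zero fun i _ => by rw [hv, zero_smul]
    have h1 : ∀ v ∈ S, pP s t v 1 = 0 := by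
      intro v hv
      show v - ∑ i, qf (t i) v • s i - ∑ i, qf (s i) v • t i = 0
      have e1 : ∑ i, qf (s i) v • t i = 0 :=
        Finset.sum_eq_zero fun i _ => by rw [hmS v hv, zero_smul]
      rw [e1, sub_zero, sub_eq_zero]
      rw [← hspan] at hv
      obtain ⟨b, hb⟩ := (Submodule.mem_span_range_iff_exists_fun L).mp hv
      have hts : ∀ i j, qf (t i) (s j) = if j = i then 1 else 0 := by
        intro i j
        rw [qf_symm, hst.st]
      conv_lhs => rw [← hb]
      refine Finset.sum_congr rfl fun i _ => ?_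
      congr 1
      rw [← hb, qf_sum_right]
      simp [hts]
    have hr3 : r j = 0 ∨ r j = 1 ∨ r j = 2 := by
      generalize r j = x
      fin_cases x <;> simp
    rcases hw j.1 j.2 with ⟨e, hm⟩ | ⟨e, hm⟩ | e
    · rcases hr3 with h | h | h
      · rw [e, h]; decide
      · exact absurd (h1 _ hm.2) (by have := hne j; rwa [h] at this)
      · exact absurd (h2 _ (hmS _ hm.2)) (by have := hne j; rwa [h] at this)
    · rcases hr3 with h | h | h
      · rw [e, h]; decide
      · rw [e, h]; decide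
      · exact absurd (h2 _ (hmP _ hm.2)) (by have := hne j; rwa [h] at this)
    · rw [e]
      rcases hr3 with h | h | h <;> rw [h] <;> decide
  have hfin : ∑ c, ∑ i, w c i ≤ 0 := by
    rw [← hwt', Fintype.sum_sigma]
    exact Finset.sum_le_sum fun c _ => Finset.sum_le_sum fun i _ => hge ⟨c, i⟩
  simp only [hsum] at hfin
  simp only [hcard]
  exact hfin

end psi

end Vale.Agent.P182
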