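import Mathlib.LinearAlgebra.Alternating.Basic
import Mathlib.LinearAlgebra.Matrix.Determinant.Basic
import Mathlib.LinearAlgebra.Matrix.NonsingularInverse
import Mathlib.LinearAlgebra.Matrix.ToLin
import Mathlib.LinearAlgebra.Matrix.SesquilinearForm
import Mathlib.LinearAlgebra.Matrix.ToLinearEquiv
import Mathlib.LinearAlgebra.FiniteDimensional.Lemmas
import Mathlib.GroupTheory.Perm.Sign
import Mathlib.Tactic.LinearCombination

/-!
# A Pfaffian sum which does not vanish on nonsingular alternating matrices
-/

namespace Vale.Agent.P182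

open Equiv

section perm

variable {k : ℕ}

/-- the standard symplectic matrix -/
def sympl {K : Type*} [Ring K] (p q : Fin k × Bool) : K :=
  if p.1 = q.1 then (if p.2 = q.2 then 0 else if q.2 = true then 1 else -1) else 0

theorem sympl_perm {K : Type*} [CommRing K] (σ : Perm (Fin k × Bool))
    (h : ∀ i, (σ (i, false)).1 = (σ (i, true)).1) :
    ((Perm.sign σ : ℤ) : K) * ∏ i, sympl (σ (i, false)) (σ (i, true)) = 1 := by
  let ρ : Fin k → Fin k := fun i => (σ (i, false)).1
  have hρ : ∀ i b, (σ (i, b)).1 = ρ i := by
    intro i b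
    cases b
    · rfl
    · exact (h i).symm
  have hinj : Function.Injective ρ := by
    intro i j hij
    by_contra hne
    -- three distinct elements with the same first component
    have h3 : (σ (i, false)).2 ≠ (σ (i, true)).2 := by
      intro e
      have : σ (i, false) = σ (i, true) := Prod.ext (h i) e
      have := σ.injective this
      simp at this
    have h4 : (σ (i, false)).2 ≠ (σ (j, false)).2 := by
      intro e
      have : σ (i, false) = σ (j, false) := Prod.ext hij e
      have := σ.injective this
      simp at this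
      exact hne this
    have h5 : (σ (i, true)).2 ≠ (σ (j, false)).2 := by
      intro e
      have : σ (i, true) = σ (j, false) := Prod.ext ((hρ i true).trans hij) e
      have := σ.injective this
      simp at this
    revert h3 h4 h5
    generalize (σ (i, false)).2 = a
    generalize (σ (i, true)).2 = b
    generalize (σ (j, false)).2 = c
    revert a b c
    decide
  let P : Perm (Fin k) := Equiv.ofBijective ρ (Finite.injective_iff_bijective.mp hinj)
  have hτ : ∀ i, Function.Bijective fun b => (σ (i, b)).2 := by
    intro i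
    apply Finite.injective_iff_bijective.mp
    intro b c hbc
    have : σ (i, b) = σ (i, c) := Prod.ext ((hρ i b).trans (hρ i c).symm) hbc
    have := σ.injective this
    simpa using this
  let τ : Fin k → Perm Bool := fun i => Equiv.ofBijective _ (hτ i)
  have hσ : σ = (prodCongrLeft (fun _ : Bool => P)) * (prodCongrRight τ) := by
    ext p
    · rcases p with ⟨i, b⟩
      simp [P, τ, hρ, prodCongrLeft, prodCongrRight]
    · rcases p with ⟨i, b⟩
      simp [P, τ, hρ, prodCongrLeft, prodCongrRight]
  have hsign : Perm.sign σ = ∏ i, Perm.sign (τ i) := by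
    conv_lhs => rw [hσ, Perm.sign_mul]
    rw [Perm.sign_prodCongrLeft, Perm.sign_prodCongrRight]
    simp
  have hS : ∀ i, (sympl (σ (i, false)) (σ (i, true)) : K) = ((Perm.sign (τ i) : ℤ) : K) := by
    intro i
    rw [sympl, if_pos (h i)]
    have h1 : (σ (i, false)).2 = τ i false := rfl
    have h2 : (σ (i, true)).2 = τ i true := rfl
    rw [h1, h2]
    generalize τ i = t
    have ht : t = 1 ∨ t = Equiv.swap false true := by revert t; decide
    rcases ht with rfl | rfl
    · simp
    · rw [Perm.sign_swap (by decide)]
      simp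
  rw [hsign]
  simp only [hS]
  push_cast
  rw [← Finset.prod_mul_distrib]
  refine Finset.prod_eq_one fun i _ => ?_
  have : ((Perm.sign (τ i) : ℤ) : K) * ((Perm.sign (τ i) : ℤ) : K) = 1 := by
    rcases Int.units_eq_one_or (Perm.sign (τ i)) with e | e <;> rw [e] <;> simp
  exact this

theorem sum_sympl_ne_zero {K : Type*} [Field K] [CharZero K] :
    (∑ σ : Perm (Fin k × Bool), ((Perm.sign σ : ℤ) : K) *
      ∏ i, sympl (σ (i, false)) (σ (i, true))) ≠ 0 := by
  classical
  have h1 : ∀ σ : Perm (Fin k × Bool), ((Perm.sign σ : ℤ) : K) *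
      ∏ i, sympl (σ (i, false)) (σ (i, true)) =
      if (∀ i, (σ (i, false)).1 = (σ (i, true)).1) then 1 else 0 := by
    intro σ
    split_ifs with h
    · exact sympl_perm σ h
    · push Not at h
      obtain ⟨i, hi⟩ := h
      rw [Finset.prod_eq_zero (Finset.mem_univ i), mul_zero]
      rw [sympl, if_neg hi]
  simp only [h1]
  rw [Finset.sum_boole]
  rw [Nat.cast_ne_zero]
  intro h
  rw [Finset.card_eq_zero] at h
  have : (1 : Perm (Fin k × Bool)) ∈ (Finset.univ.filter fun σ : Perm (Fin k × Bool) =>
      ∀ i, (σ (i, false)).1 = (σ (i, true)).1) := by simp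
  rw [h] at this
  exact absurd this (Finset.notMem_empty _)

end perm

section form

variable {K : Type*} [Field K] {W : Type*} [AddCommGroup W] [Module K W]

/-- A symplectic family. -/
def IsSympl (A : W →ₗ[K] W →ₗ[K] K) {k : ℕ} (w : Fin k × Bool → W) : Prop :=
  ∀ p q, A (w p) (w q) = sympl p q

theorem sympl_pair_sum {A : W →ₗ[K] W →ₗ[K] K} {k : ℕ} {w : Fin k × Bool → W}
    (hw : IsSympl A w) (c : Fin k × Bool → K) (p : Fin k × Bool) :
    A (w p) (∑ q, c q • w q) = if p.2 = true then - c (p.1, false) else c (p.1, true) := by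
  rw [map_sum]
  simp only [map_smul, smul_eq_mul, hw p]
  rw [Fintype.sum_prod_type]
  simp only [Fintype.univ_bool, Finset.mem_singleton, Bool.true_eq_false, not_false_eq_true,
    Finset.sum_insert, Finset.sum_singleton]
  rw [Finset.sum_eq_single p.1]
  · rcases p with ⟨i, b⟩
    cases b <;> simp [sympl]
  · intro i _ hi
    simp [sympl, Ne.symm hi]
  · intro h; exact absurd (Finset.mem_univ _) h

theorem IsSympl.linearIndependent {A : W →ₗ[K] W →ₗ[K] K} {k : ℕ} {w : Fin k × Bool → W}
    (hw : IsSympl A w) : LinearIndependent K w := by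
  rw [Fintype.linearIndependent_iff]
  intro c hc q
  rcases q with ⟨i, b⟩
  cases b
  · have := sympl_pair_sum hw c (i, true)
    rw [hc, map_zero] at this
    simpa using this.symm
  · have := sympl_pair_sum hw c (i, false)
    rw [hc, map_zero] at this
    simpa using this.symm

/-- extension of symplectic families -/
theorem exists_extend [FiniteDimensional K W] {A : W →ₗ[K] W →ₗ[K] K} (hA : ∀ u, A u u = 0)
    (hnd : ∀ u, (∀ v, A u v = 0) → u = 0) {k : ℕ} {w : Fin k × Bool → W}
    (hw : IsSympl A w) (hk : 2 * k < Module.finrank K W) :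
    ∃ w' : Fin (k + 1) × Bool → W, IsSympl A w' := by
  have hskew : ∀ u v, A u v = - A v u := by
    intro u v
    have := hA (u + v)
    rw [map_add, map_add, LinearMap.add_apply, LinearMap.add_apply, hA, hA] at this
    linear_combination this
  -- a vector orthogonal to the family
  obtain ⟨u, hu0, hu⟩ : ∃ u : W, u ≠ 0 ∧ ∀ p, A (w p) u = 0 := by
    let f : W →ₗ[K] (Fin k × Bool → K) := LinearMap.pi fun p => A (w p)
    have hker : LinearMap.ker f ≠ ⊥ := by
      apply LinearMap.ker_ne_bot_of_finrank_lt
      rw [Module.finrank_fintype_fun_eq_card, Fintype.card_prod, Fintype.card_fin,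
        Fintype.card_bool]
      omega
    obtain ⟨u, hu, hu0⟩ := (Submodule.ne_bot_iff _).mp hker
    exact ⟨u, hu0, fun p => congrFun (LinearMap.mem_ker.mp hu) p⟩
  obtain ⟨v₀, hv₀⟩ : ∃ v, A u v ≠ 0 := by
    by_contra h
    push Not at h
    exact hu0 (hnd u h)
  let v₁ : W := (A u v₀)⁻¹ • v₀
  have hv₁ : A u v₁ = 1 := by
    rw [map_smul, smul_eq_mul, inv_mul_cancel₀ hv₀]
  let c : Fin k × Bool → K := fun q => if q.2 = true then A (w (q.1, false)) v₁
    else - A (w (q.1, true)) v₁
  let v : W := v₁ - ∑ q, c q • w q
  have hv : A u v = 1 := by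
    show A u (v₁ - ∑ q, c q • w q) = 1
    rw [map_sub, hv₁, map_sum, Finset.sum_eq_zero, sub_zero]
    intro q _
    rw [map_smul, hskew, hu, neg_zero, smul_zero]
  have hwv : ∀ p, A (w p) v = 0 := by
    intro p
    show A (w p) (v₁ - ∑ q, c q • w q) = 0
    rw [map_sub, sympl_pair_sum hw]
    rcases p with ⟨i, b⟩
    cases b <;> simp [c]
  refine ⟨fun p => Fin.lastCases (motive := fun _ => W) (if p.2 = true then v else u)
    (fun i => w (i, p.2)) p.1, ?_⟩
  rintro ⟨i, b⟩ ⟨j, c⟩
  induction i using Fin.lastCases with
  | last =>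
    induction j using Fin.lastCases with
    | last =>
      simp only [Fin.lastCases_last]
      cases b <;> cases c <;> simp [sympl, hA, hv]
      rw [hskew, hv]
    | cast j =>
      simp only [Fin.lastCases_last, Fin.lastCases_castSucc]
      have h1 : ¬ (Fin.last k = j.castSucc) := fun e => (Fin.castSucc_lt_last j).ne e.symm
      rw [sympl, if_neg h1]
      cases b
      · simp only [Bool.false_eq_true, if_false]
        rw [hskew, hu, neg_zero]
      · simp only [if_true]
        rw [hskew, hwv, neg_zero]
  | cast i =>
    induction j using Fin.lastCases with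
    | last =>
      simp only [Fin.lastCases_last, Fin.lastCases_castSucc]
      have h1 : ¬ (i.castSucc = Fin.last k) := (Fin.castSucc_lt_last i).ne
      rw [sympl, if_neg h1]
      cases c
      · simp only [Bool.false_eq_true, if_false]
        exact hu _
      · simp only [if_true]
        exact hwv _
    | cast j =>
      simp only [Fin.lastCases_castSucc]
      rw [hw]
      simp [sympl]

/-- symplectic bases -/
theorem exists_sympl_basis [FiniteDimensional K W] {A : W →ₗ[K] W →ₗ[K] K}
    (hA : ∀ u, A u u = 0) (hnd : ∀ u, (∀ v, A u v = 0) → u = 0) :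
    ∃ (k : ℕ) (w : Fin k × Bool → W), IsSympl A w ∧ 2 * k = Module.finrank K W := by
  by_contra hcon
  push Not at hcon
  have h1 : ∀ k, ∃ w : Fin k × Bool → W, IsSympl A w := by
    intro k
    induction k with
    | zero => exact ⟨fun p => Fin.elim0 p.1, fun p => Fin.elim0 p.1⟩
    | succ k ih =>
      obtain ⟨w, hw⟩ := ih
      have h2 := hcon k w hw
      have h3 := hw.linearIndependent.fintype_card_le_finrank
      rw [Fintype.card_prod, Fintype.card_fin, Fintype.card_bool] at h3
      exact exists_extend hA hnd hw (by omega)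
  obtain ⟨w, hw⟩ := h1 (Module.finrank K W + 1)
  have h3 := hw.linearIndependent.fintype_card_le_finrank
  rw [Fintype.card_prod, Fintype.card_fin, Fintype.card_bool] at h3
  omega

/-- the product over the standard pairing -/
def pfm (k : ℕ) (A : W →ₗ[K] W →ₗ[K] K) :
    MultilinearMap K (fun _ : Fin k × Bool => W) K where
  toFun w := ∏ i, A (w (i, false)) (w (i, true))
  map_update_add' := by
    intro _ w p x y
    rcases p with ⟨i, b⟩
    simp only [← Finset.mul_prod_erase Finset.univ _ (Finset.mem_univ i)]
    have h : ∀ z : W, ∏ j ∈ Finset.univ.erase i, A (Function.update w (i, b) z (j, false))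
        (Function.update w (i, b) z (j, true)) =
        ∏ j ∈ Finset.univ.erase i, A (w (j, false)) (w (j, true)) := by
      intro z
      refine Finset.prod_congr rfl fun j hj => ?_
      have hj' : j ≠ i := (Finset.mem_erase.mp hj).1
      rw [Function.update_of_ne (fun e => hj' (congrArg Prod.fst e)),
        Function.update_of_ne (fun e => hj' (congrArg Prod.fst e))]
    rw [h, h, h]
    cases b
    · simp only [Function.update_self]
      rw [Function.update_of_ne (by simp), Function.update_of_ne (by simp),
        Function.update_of_ne (by simp), map_add, LinearMap.add_apply, add_mul]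
    · simp only [Function.update_self]
      rw [Function.update_of_ne (by simp), Function.update_of_ne (by simp),
        Function.update_of_ne (by simp), map_add, add_mul]
  map_update_smul' := by
    intro _ w p r x
    rcases p with ⟨i, b⟩
    simp only [← Finset.mul_prod_erase Finset.univ _ (Finset.mem_univ i)]
    have h : ∀ z : W, ∏ j ∈ Finset.univ.erase i, A (Function.update w (i, b) z (j, false))
        (Function.update w (i, b) z (j, true)) =
        ∏ j ∈ Finset.univ.erase i, A (w (j, false)) (w (j, true)) := by
      intro z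
      refine Finset.prod_congr rfl fun j hj => ?_
      have hj' : j ≠ i := (Finset.mem_erase.mp hj).1
      rw [Function.update_of_ne (fun e => hj' (congrArg Prod.fst e)),
        Function.update_of_ne (fun e => hj' (congrArg Prod.fst e))]
    rw [h, h]
    cases b
    · simp only [Function.update_self]
      rw [Function.update_of_ne (by simp), Function.update_of_ne (by simp),
        map_smul, LinearMap.smul_apply, smul_eq_mul, smul_eq_mul, mul_assoc]
    · simp only [Function.update_self]
      rw [Function.update_of_ne (by simp), Function.update_of_ne (by simp),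
        map_smul, smul_eq_mul, smul_eq_mul, mul_assoc]

theorem pfm_apply (k : ℕ) (A : W →ₗ[K] W →ₗ[K] K) (w : Fin k × Bool → W) :
    pfm k A w = ∏ i, A (w (i, false)) (w (i, true)) := rfl

/-- The Pfaffian as an alternating map. -/
noncomputable def pfa (k : ℕ) (A : W →ₗ[K] W →ₗ[K] K) : W [⋀^Fin k × Bool]→ₗ[K] K :=
  MultilinearMap.alternatization (pfm k A)

theorem pfa_apply (k : ℕ) (A : W →ₗ[K] W →ₗ[K] K) (w : Fin k × Bool → W) :
    pfa k A w = ∑ σ : Perm (Fin k × Bool), ((Perm.sign σ : ℤ) : K) *
      ∏ i, A (w (σ (i, false))) (w (σ (i, true))) := by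
  rw [pfa, MultilinearMap.alternatization_apply]
  refine Finset.sum_congr rfl fun σ _ => ?_
  rw [MultilinearMap.domDomCongr_apply, pfm_apply, Units.smul_def, zsmul_eq_mul]

/-- The Pfaffian sum of a nonsingular alternating matrix does not vanish. -/
theorem pf_ne_zero [CharZero K] {J : Type*} [Fintype J] [DecidableEq J] (M : Matrix J J K)
    (hM : ∀ i j, M i j = - M j i) (hdet : M.det ≠ 0) :
    ∃ (k : ℕ) (e : Fin k × Bool ≃ J),
      (∑ σ : Perm (Fin k × Bool), ((Perm.sign σ : ℤ) : K) *
        ∏ i, M (e (σ (i, false))) (e (σ (i, true)))) ≠ 0 := by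
  let A : (J → K) →ₗ[K] (J → K) →ₗ[K] K := Matrix.toLinearMap₂' K M
  have hAv : ∀ u v, A u v = u ⬝ᵥ M.mulVec v := by
    intro u v
    simp only [A]
    rw [Matrix.toLinearMap₂'_apply']
  have hAb : ∀ i j, A (Pi.single i 1) (Pi.single j 1) = M i j := by
    intro i j
    rw [hAv, single_one_dotProduct, Matrix.mulVec_single_one]
    rfl
  have hA : ∀ u, A u u = 0 := by
    intro u
    rw [hAv]
    have hT : M.transpose = -M := by
      ext i j
      rw [Matrix.transpose_apply, Matrix.neg_apply, hM]
    have h1 : u ⬝ᵥ M.mulVec u = - (u ⬝ᵥ M.mulVec u) := by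
      conv_lhs => rw [dotProduct_comm, ← Matrix.vecMul_transpose, hT, Matrix.vecMul_neg,
        neg_dotProduct, ← Matrix.dotProduct_mulVec]
    have h2 : (2 : K) * (u ⬝ᵥ M.mulVec u) = 0 := by linear_combination h1
    exact (mul_eq_zero.mp h2).resolve_left two_ne_zero
  have hnd : ∀ u, (∀ v, A u v = 0) → u = 0 := by
    intro u hu
    have h1 : Matrix.vecMul u M = 0 := by
      funext j
      have := hu (Pi.single j 1)
      rw [hAv, Matrix.dotProduct_mulVec, dotProduct_single_one] at this
      exact this
    exact Matrix.eq_zero_of_vecMul_eq_zero hdet h1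
  obtain ⟨k, w, hw, hk⟩ := exists_sympl_basis hA hnd
  rw [Module.finrank_fintype_fun_eq_card] at hk
  have hcard : Fintype.card (Fin k × Bool) = Fintype.card J := by
    rw [Fintype.card_prod, Fintype.card_fin, Fintype.card_bool]
    omega
  let e : Fin k × Bool ≃ J := Fintype.equivOfCardEq hcard
  refine ⟨k, e, ?_⟩
  intro h0
  have h1 : pfa k A (fun p => Pi.single (e p) (1 : K)) = 0 := by
    rw [pfa_apply, ← h0]
    simp only [hAb]
  have h2 : pfa k A = 0 := by
    refine Module.Basis.ext_alternating (Pi.basisFun K J) fun v hv => ?_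
    let σ : Perm (Fin k × Bool) := Equiv.ofBijective (fun p => e.symm (v p))
      (Finite.injective_iff_bijective.mp (e.symm.injective.comp hv))
    have h3 : (fun p => (Pi.basisFun K J) (v p)) =
        (fun p => Pi.single (e p) (1 : K)) ∘ σ := by
      funext p
      rw [Pi.basisFun_apply, Function.comp_apply]
      simp [σ]
    rw [h3, AlternatingMap.map_perm, h1, smul_zero]
    rfl
  have h3 : pfa k A w = 0 := by rw [h2]; rfl
  rw [pfa_apply] at h3
  simp only [hw _ _] at h3
  exact sum_sympl_ne_zero h3

end form

end Vale.Agent.P182
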