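import Vale.Agent.P182.H163.Form
import Vale.Agent.P182.H163.Pfaff

/-!
# Invariants from nonsingular Gram matrices
-/

namespace Vale.Agent.P182

open LieAlgebra.Orthogonal

/-- The symmetric bilinear form of the matrix `JD`. -/
def qf {n : ℕ} {K : Type*} [CommRing K] (u v : Fin n ⊕ Fin n → K) : K :=
  ∑ b, ∑ b', u b * JD (Fin n) K b b' * v b'

theorem JD_symm {n : ℕ} {K : Type*} [CommRing K] (b b' : Fin n ⊕ Fin n) :
    JD (Fin n) K b b' = JD (Fin n) K b' b := by
  rcases b with b | b <;> rcases b' with b' | b' <;> simp [JD, Matrix.one_apply, eq_comm]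

theorem qf_symm {n : ℕ} {K : Type*} [CommRing K] (u v : Fin n ⊕ Fin n → K) :
    qf u v = qf v u := by
  rw [qf, qf, Finset.sum_comm]
  refine Finset.sum_congr rfl fun b _ => Finset.sum_congr rfl fun b' _ => ?_
  rw [JD_symm]; ring

section inv

variable {n k : ℕ} {J : Type*} [Fintype J] [DecidableEq J]

theorem InvF.sum {ι : Type*} (s : Finset ι) (f : ι → (J → Fin n ⊕ Fin n) → ℂ) (c : ι → ℂ)
    (h : ∀ i ∈ s, InvF (f i)) : InvF fun β => ∑ i ∈ s, c i * f i β := by
  intro x γ
  have h1 : ∀ j : J, ∑ b, x.1 b (γ j) * ∑ i ∈ s, c i * f i (Function.update γ j b) =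
      ∑ i ∈ s, c i * ∑ b, x.1 b (γ j) * f i (Function.update γ j b) := by
    intro j
    simp only [Finset.mul_sum]
    rw [Finset.sum_comm]
    refine Finset.sum_congr rfl fun i _ => Finset.sum_congr rfl fun b _ => ?_
    ring
  simp only [h1]
  rw [Finset.sum_comm]
  refine Finset.sum_eq_zero fun i hi => ?_
  rw [← Finset.mul_sum, h i hi x γ, mul_zero]

theorem so_JD (x : so n) (b b' : Fin n ⊕ Fin n) :
    (∑ d, x.1 d b * JD (Fin n) ℂ d b') + (∑ d, x.1 d b' * JD (Fin n) ℂ b d) = 0 := by
  have h := congrFun (congrFun ((mem_so x.1).mp x.2) b) b'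
  rw [Matrix.neg_apply, Matrix.mul_apply, Matrix.mul_apply] at h
  simp only [Matrix.transpose_apply] at h
  rw [h]
  rw [neg_add_eq_zero]
  exact Finset.sum_congr rfl fun d _ => mul_comm _ _

/-- The invariant attached to a pairing. -/
theorem invF_pairing (e : Fin k × Bool ≃ J) (a : Fin k → ℂ) :
    InvF (n := n) fun β : J → Fin n ⊕ Fin n =>
      ∏ i, (a i * JD (Fin n) ℂ (β (e (i, false))) (β (e (i, true)))) := by
  intro x γ
  rw [← Equiv.sum_comp e, Fintype.sum_prod_type]
  refine Finset.sum_eq_zero fun i _ => ?_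
  have hprod : ∀ (c : Bool) (b : Fin n ⊕ Fin n),
      ∏ i', (a i' * JD (Fin n) ℂ (Function.update γ (e (i, c)) b (e (i', false)))
        (Function.update γ (e (i, c)) b (e (i', true)))) =
      (a i * JD (Fin n) ℂ (Function.update γ (e (i, c)) b (e (i, false)))
        (Function.update γ (e (i, c)) b (e (i, true)))) *
      ∏ i' ∈ Finset.univ.erase i, (a i' * JD (Fin n) ℂ (γ (e (i', false))) (γ (e (i', true)))) := by
    intro c b
    rw [← Finset.mul_prod_erase Finset.univ _ (Finset.mem_univ i)]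
    congr 1
    refine Finset.prod_congr rfl fun i' hi' => ?_
    have hne : i' ≠ i := (Finset.mem_erase.mp hi').1
    rw [Function.update_of_ne, Function.update_of_ne]
    · intro h; exact hne (congrArg Prod.fst (e.injective h))
    · intro h; exact hne (congrArg Prod.fst (e.injective h))
  simp only [hprod, Fintype.univ_bool]
  rw [Finset.sum_pair (by decide)]
  simp only [Function.update_self]
  have h1 : ∀ b, Function.update γ (e (i, true)) b (e (i, false)) = γ (e (i, false)) := by
    intro b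
    rw [Function.update_of_ne]
    intro h
    have := e.injective h
    simp at this
  have h2 : ∀ b, Function.update γ (e (i, false)) b (e (i, true)) = γ (e (i, true)) := by
    intro b
    rw [Function.update_of_ne]
    intro h
    have := e.injective h
    simp at this
  simp only [h1, h2]
  have h3 := so_JD x (γ (e (i, false))) (γ (e (i, true)))
  set P := ∏ i' ∈ Finset.univ.erase i,
    (a i' * JD (Fin n) ℂ (γ (e (i', false))) (γ (e (i', true)))) with hP
  have h4 : ∑ b, x.1 b (γ (e (i, true))) * (a i * JD (Fin n) ℂ (γ (e (i, false))) b * P) =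
      (a i * P) * ∑ d, x.1 d (γ (e (i, true))) * JD (Fin n) ℂ (γ (e (i, false))) d := by
    rw [Finset.mul_sum]
    exact Finset.sum_congr rfl fun d _ => by ring
  have h5 : ∑ b, x.1 b (γ (e (i, false))) * (a i * JD (Fin n) ℂ b (γ (e (i, true))) * P) =
      (a i * P) * ∑ d, x.1 d (γ (e (i, false))) * JD (Fin n) ℂ d (γ (e (i, true))) := by
    rw [Finset.mul_sum]
    exact Finset.sum_congr rfl fun d _ => by ring
  rw [h4, h5, ← mul_add, add_comm, h3, mul_zero]

/-- Evaluation of the invariant attached to a pairing on a decomposable tensor. -/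
theorem sum_pairing {K : Type*} [CommRing K] (e : Fin k × Bool ≃ J) (a : Fin k → K)
    (V : J → Fin n ⊕ Fin n → K) :
    ∑ β : J → Fin n ⊕ Fin n, (∏ i, (a i * JD (Fin n) K (β (e (i, false))) (β (e (i, true))))) *
      ∏ j, V j (β j) = ∏ i, (a i * qf (V (e (i, false))) (V (e (i, true)))) := by
  -- reindexing
  let E : (Fin k → Bool → Fin n ⊕ Fin n) ≃ (J → Fin n ⊕ Fin n) :=
    (Equiv.curry (Fin k) Bool (Fin n ⊕ Fin n)).symm.trans (e.arrowCongr (Equiv.refl _))
  have hE : ∀ (β : Fin k → Bool → Fin n ⊕ Fin n) i c, E β (e (i, c)) = β i c := by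
    intro β i c
    simp [E, Equiv.arrowCongr]
  rw [← Equiv.sum_comp E]
  have h1 : ∀ β : Fin k → Bool → Fin n ⊕ Fin n,
      (∏ i, (a i * JD (Fin n) K (E β (e (i, false))) (E β (e (i, true))))) *
      ∏ j, V j (E β j) = ∏ i, (a i * JD (Fin n) K (β i false) (β i true) *
        (V (e (i, false)) (β i false) * V (e (i, true)) (β i true))) := by
    intro β
    simp only [hE]
    have h0 : ∏ j, V j (E β j) = ∏ p : Fin k × Bool, V (e p) (E β (e p)) :=
      (Equiv.prod_comp e (fun j => V j (E β j))).symm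
    rw [h0, Fintype.prod_prod_type, ← Finset.prod_mul_distrib]
    refine Finset.prod_congr rfl fun i _ => ?_
    rw [Fintype.prod_bool, hE, hE]
    ring
  simp only [h1]
  have h2 := Finset.prod_univ_sum (fun _ : Fin k => (Finset.univ : Finset (Bool → Fin n ⊕ Fin n)))
    (fun i c => a i * JD (Fin n) K (c false) (c true) *
        (V (e (i, false)) (c false) * V (e (i, true)) (c true)))
  rw [Fintype.piFinset_univ] at h2
  rw [← h2]
  refine Finset.prod_congr rfl fun i _ => ?_
  rw [qf, Finset.mul_sum]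
  rw [← Equiv.sum_comp (Equiv.boolArrowEquivProd (Fin n ⊕ Fin n)).symm, Fintype.sum_prod_type]
  refine Finset.sum_congr rfl fun b _ => ?_
  rw [Finset.mul_sum]
  refine Finset.sum_congr rfl fun b' _ => ?_
  simp only [Equiv.boolArrowEquivProd, Equiv.coe_fn_symm_mk]
  simp only [if_true, Bool.false_eq_true, if_false]
  ring

theorem sign_sigma_single {C : Type*} [Fintype C] [DecidableEq C] {I : C → Type*}
    [∀ c, Fintype (I c)] [∀ c, DecidableEq (I c)] (l : C) (τ : Equiv.Perm (I l)) :
    Equiv.Perm.sign (Equiv.sigmaCongrRight (Pi.mulSingle (M := fun c => Equiv.Perm (I c)) l τ) :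
      Equiv.Perm (Σ c, I c)) = Equiv.Perm.sign τ := by
  let φ : Equiv.Perm (I l) →* ℤˣ := (Equiv.Perm.sign (α := Σ c, I c)).comp
    ((Equiv.Perm.sigmaCongrRightHom I).comp (MonoidHom.mulSingle (fun c => Equiv.Perm (I c)) l))
  have h : ∀ τ : Equiv.Perm (I l), φ τ = Equiv.Perm.sign τ := by
    intro τ
    induction τ using Equiv.Perm.swap_induction_on with
    | one => simp
    | swap_mul f x y hxy ih =>
      rw [map_mul, map_mul, ih, Equiv.Perm.sign_swap hxy]
      congr 1
      have h1 : (Equiv.Perm.sigmaCongrRightHom I)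
          ((MonoidHom.mulSingle (fun c => Equiv.Perm (I c)) l) (Equiv.swap x y)) =
          Equiv.swap (⟨l, x⟩ : Σ c, I c) ⟨l, y⟩ := by
        ext1 ⟨c, i⟩
        show (⟨c, Pi.mulSingle (M := fun c => Equiv.Perm (I c)) l (Equiv.swap x y) c i⟩ :
          Σ c, I c) = _
        by_cases hc : c = l
        · subst hc
          rw [Pi.mulSingle_eq_same, Equiv.swap_apply_def, Equiv.swap_apply_def]
          by_cases h1 : i = x
          · subst h1; simp
          · by_cases h2 : i = y
            · subst h2; simp [h1]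
            · simp [h1, h2]
        · rw [Pi.mulSingle_eq_of_ne hc, Equiv.Perm.one_apply, Equiv.swap_apply_of_ne_of_ne]
          · intro e; exact hc (congrArg Sigma.fst e)
          · intro e; exact hc (congrArg Sigma.fst e)
      show Equiv.Perm.sign ((Equiv.Perm.sigmaCongrRightHom I)
          ((MonoidHom.mulSingle (fun c => Equiv.Perm (I c)) l) (Equiv.swap x y))) = -1
      rw [h1, Equiv.Perm.sign_swap]
      intro e
      apply hxy
      exact eq_of_heq (Sigma.mk.inj e).2
  exact h τ

theorem sign_sigma {C : Type*} [Fintype C] [DecidableEq C] {I : C → Type*}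
    [∀ c, Fintype (I c)] [∀ c, DecidableEq (I c)] (π : ∀ c, Equiv.Perm (I c)) :
    Equiv.Perm.sign (Equiv.sigmaCongrRight π : Equiv.Perm (Σ c, I c)) = csign π := by
  have key : ∀ (s : Finset C) (π : ∀ c, Equiv.Perm (I c)), (∀ c, c ∉ s → π c = 1) →
      Equiv.Perm.sign (Equiv.sigmaCongrRight π : Equiv.Perm (Σ c, I c)) =
        ∏ c ∈ s, Equiv.Perm.sign (π c) := by
    intro s
    induction s using Finset.induction_on with
    | empty =>
      intro π h
      have : π = 1 := funext fun c => h c (Finset.notMem_empty c)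
      rw [this, Finset.prod_empty]
      exact map_one ((Equiv.Perm.sign (α := Σ c, I c)).comp (Equiv.Perm.sigmaCongrRightHom I))
    | insert l s hl ih =>
      intro π h
      have h1 : π = Pi.mulSingle (M := fun c => Equiv.Perm (I c)) l (π l) *
          Function.update π l 1 := by
        funext c
        by_cases hc : c = l
        · subst hc
          rw [Pi.mul_apply, Pi.mulSingle_eq_same, Function.update_self, mul_one]
        · rw [Pi.mul_apply, Pi.mulSingle_eq_of_ne hc, Function.update_of_ne hc, one_mul]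
      have h2 : Equiv.Perm.sign (Equiv.sigmaCongrRight π : Equiv.Perm (Σ c, I c)) =
          Equiv.Perm.sign (Equiv.sigmaCongrRight
            (Pi.mulSingle (M := fun c => Equiv.Perm (I c)) l (π l)) : Equiv.Perm (Σ c, I c)) *
          Equiv.Perm.sign (Equiv.sigmaCongrRight (Function.update π l 1) :
            Equiv.Perm (Σ c, I c)) := by
        conv_lhs => rw [h1]
        exact map_mul ((Equiv.Perm.sign (α := Σ c, I c)).comp (Equiv.Perm.sigmaCongrRightHom I)) _ _
      rw [h2, sign_sigma_single, ih, Finset.prod_insert hl]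
      · congr 1
        refine Finset.prod_congr rfl fun c hc => ?_
        rw [Function.update_of_ne]
        rintro rfl
        exact hl hc
      · intro c hc
        by_cases hcl : c = l
        · subst hcl; rw [Function.update_self]
        · rw [Function.update_of_ne hcl]
          exact h c (by rw [Finset.mem_insert]; push Not; exact ⟨hcl, hc⟩)
  rw [key Finset.univ π fun c hc => absurd (Finset.mem_univ c) hc, csign]

end inv

section bridge

variable {n : ℕ} {K : Type*} [CommRing K]

/-- The column vectors of the frames. -/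
def cv (lam : Fin 3 → Fin n → ℤ) (g : Fin 3 → Matrix (Fin n ⊕ Fin n) (Fin n ⊕ Fin n) K)
    (j : CellT lam) (b : Fin n ⊕ Fin n) : K := g j.1.1 b (fr (lam j.1.1) j.2.1)

/-- The twisted Gram matrix. -/
def gramT (lam : Fin 3 → Fin n → ℤ) (g : Fin 3 → Matrix (Fin n ⊕ Fin n) (Fin n ⊕ Fin n) K)
    (ω : ColT lam → ColT lam → K) : Matrix (CellT lam) (CellT lam) K :=
  Matrix.of fun j j' => ω j.1 j'.1 * qf (cv lam g j) (cv lam g j')

/-- Expansion of the product of minors. -/
theorem asymT_eq_sum (lam : Fin 3 → Fin n → ℤ)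
    (g : Fin 3 → Matrix (Fin n ⊕ Fin n) (Fin n ⊕ Fin n) K) (β : CellT lam → Fin n ⊕ Fin n) :
    asymT lam g β = ∑ π : ∀ l : ColT lam, Equiv.Perm (RowT lam l),
      (((csign π : ℤˣ) : ℤ) : K) * ∏ j, cv lam g (Equiv.sigmaCongrRight π j) (β j) := by
  rw [asymT]
  have h1 : ∀ l : ColT lam, (Matrix.of fun i' i : RowT lam l =>
      g l.1 (β ⟨l, i'⟩) (fr (lam l.1) i.1)).det =
      ∑ σ : Equiv.Perm (RowT lam l), (((Equiv.Perm.sign σ : ℤˣ) : ℤ) : K) *
        ∏ i, cv lam g ⟨l, σ i⟩ (β ⟨l, i⟩) := by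
    intro l
    rw [← Matrix.det_transpose, Matrix.det_apply']
    rfl
  simp only [h1]
  rw [Finset.prod_univ_sum, Fintype.piFinset_univ]
  refine Finset.sum_congr rfl fun π _ => ?_
  rw [Finset.prod_mul_distrib, csign]
  rw [Fintype.prod_sigma (fun j : CellT lam => cv lam g (Equiv.sigmaCongrRight π j) (β j))]
  congr 1
  push_cast
  rfl

theorem sign_sigmaCongrRight' (lam : Fin 3 → Fin n → ℤ)
    (π : ∀ l : ColT lam, Equiv.Perm (RowT lam l)) :
    Equiv.Perm.sign (Equiv.sigmaCongrRight π : Equiv.Perm (CellT lam)) = csign π := by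
  exact sign_sigma π

/-- **Bridge B.** -/
theorem exists_invF_of_gram (lam : Fin 3 → Fin n → ℤ)
    (g : Fin 3 → Matrix (Fin n ⊕ Fin n) (Fin n ⊕ Fin n) ℂ)
    (ω : ColT lam → ColT lam → ℂ) (hω : ∀ l l', ω l l' = - ω l' l)
    (hdet : (gramT lam g ω).det ≠ 0) :
    ∃ f : (CellT lam → Fin n ⊕ Fin n) → ℂ, InvF f ∧ ∑ β, f β * asymT lam g β ≠ 0 := by
  set M := gramT lam g ω with hM
  have hskew : ∀ i j, M i j = - M j i := by
    intro i j
    rw [hM, gramT, Matrix.of_apply, Matrix.of_apply, hω, qf_symm]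
    ring
  obtain ⟨k, e, hk⟩ := pf_ne_zero M hskew hdet
  let F : Equiv.Perm (Fin k × Bool) → (CellT lam → Fin n ⊕ Fin n) → ℂ := fun σ β =>
    ∏ i, (ω (e (σ (i, false))).1 (e (σ (i, true))).1 *
      JD (Fin n) ℂ (β (e (σ (i, false)))) (β (e (σ (i, true)))))
  have hF : ∀ σ, InvF (F σ) := fun σ =>
    invF_pairing (n := n) (σ.trans e) (fun i => ω (e (σ (i, false))).1 (e (σ (i, true))).1)
  refine ⟨fun β => ∑ σ : Equiv.Perm (Fin k × Bool), (((Equiv.Perm.sign σ : ℤˣ) : ℤ) : ℂ) * F σ β,
    InvF.sum Finset.univ F _ fun σ _ => hF σ, ?_⟩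
  -- evaluation
  have hval : ∀ (σ : Equiv.Perm (Fin k × Bool)) (π : ∀ l : ColT lam, Equiv.Perm (RowT lam l)),
      ∑ β : CellT lam → Fin n ⊕ Fin n, F σ β *
        ∏ j, cv lam g (Equiv.sigmaCongrRight π j) (β j) =
      ∏ i, M (Equiv.sigmaCongrRight π (e (σ (i, false)))) (Equiv.sigmaCongrRight π (e (σ (i, true)))) := by
    intro σ π
    have := sum_pairing (n := n) (σ.trans e)
      (fun i => ω (e (σ (i, false))).1 (e (σ (i, true))).1)
      (fun j => cv lam g (Equiv.sigmaCongrRight π j))
    refine Eq.trans this ?_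
    rfl
  have hcol : ∀ π : ∀ l : ColT lam, Equiv.Perm (RowT lam l),
      ∑ σ : Equiv.Perm (Fin k × Bool), (((Equiv.Perm.sign σ : ℤˣ) : ℤ) : ℂ) *
        ∏ i, M (Equiv.sigmaCongrRight π (e (σ (i, false))))
          (Equiv.sigmaCongrRight π (e (σ (i, true)))) =
      (((csign π : ℤˣ) : ℤ) : ℂ) * ∑ σ : Equiv.Perm (Fin k × Bool),
        (((Equiv.Perm.sign σ : ℤˣ) : ℤ) : ℂ) * ∏ i, M (e (σ (i, false))) (e (σ (i, true))) := by
    intro π
    let ρ : Equiv.Perm (Fin k × Bool) := (e.trans (Equiv.sigmaCongrRight π)).trans e.symm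
    have hρ : Equiv.Perm.sign ρ = csign π := by
      rw [← sign_sigmaCongrRight' lam π]
      exact Equiv.Perm.sign_eq_sign_of_equiv _ _ e fun x => by simp [ρ]
    rw [Finset.mul_sum]
    refine Fintype.sum_equiv (Equiv.mulLeft ρ) _ _ fun σ => ?_
    have h1 : ∀ p, e ((Equiv.mulLeft ρ σ) p) = Equiv.sigmaCongrRight π (e (σ p)) := by
      intro p
      simp [ρ]
    simp only [h1]
    rw [← mul_assoc]
    congr 1
    rw [Equiv.coe_mulLeft, Equiv.Perm.sign_mul, hρ]
    rcases Int.units_eq_one_or (csign π) with h | h <;> rw [h] <;> simp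
  have hsum : ∑ β, (∑ σ : Equiv.Perm (Fin k × Bool),
      (((Equiv.Perm.sign σ : ℤˣ) : ℤ) : ℂ) * F σ β) * asymT lam g β =
      (Fintype.card (∀ l : ColT lam, Equiv.Perm (RowT lam l)) : ℂ) *
      ∑ σ : Equiv.Perm (Fin k × Bool),
        (((Equiv.Perm.sign σ : ℤˣ) : ℤ) : ℂ) * ∏ i, M (e (σ (i, false))) (e (σ (i, true))) := by
    calc _ = ∑ β, ∑ π : ∀ l : ColT lam, Equiv.Perm (RowT lam l),
          ∑ σ : Equiv.Perm (Fin k × Bool), (((csign π : ℤˣ) : ℤ) : ℂ) *
          ((((Equiv.Perm.sign σ : ℤˣ) : ℤ) : ℂ) *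
            (F σ β * ∏ j, cv lam g (Equiv.sigmaCongrRight π j) (β j))) := by
          refine Finset.sum_congr rfl fun β _ => ?_
          rw [asymT_eq_sum, Finset.mul_sum]
          refine Finset.sum_congr rfl fun π _ => ?_
          rw [Finset.sum_mul]
          refine Finset.sum_congr rfl fun σ _ => ?_
          ring
      _ = ∑ π : ∀ l : ColT lam, Equiv.Perm (RowT lam l), (((csign π : ℤˣ) : ℤ) : ℂ) *
          ∑ σ : Equiv.Perm (Fin k × Bool), (((Equiv.Perm.sign σ : ℤˣ) : ℤ) : ℂ) *
            ∑ β, (F σ β * ∏ j, cv lam g (Equiv.sigmaCongrRight π j) (β j)) := by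
          rw [Finset.sum_comm]
          refine Finset.sum_congr rfl fun π _ => ?_
          rw [Finset.sum_comm]
          rw [Finset.mul_sum]
          refine Finset.sum_congr rfl fun σ _ => ?_
          rw [Finset.mul_sum, Finset.mul_sum]
      _ = ∑ π : ∀ l : ColT lam, Equiv.Perm (RowT lam l),
          ∑ σ : Equiv.Perm (Fin k × Bool),
            (((Equiv.Perm.sign σ : ℤˣ) : ℤ) : ℂ) * ∏ i, M (e (σ (i, false))) (e (σ (i, true))) := by
          refine Finset.sum_congr rfl fun π _ => ?_
          simp only [hval]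
          rw [hcol, ← mul_assoc]
          have : (((csign π : ℤˣ) : ℤ) : ℂ) * (((csign π : ℤˣ) : ℤ) : ℂ) = 1 := by
            rcases Int.units_eq_one_or (csign π) with h | h <;> rw [h] <;> simp
          rw [this, one_mul]
      _ = _ := by
          rw [Finset.sum_const, nsmul_eq_mul, Finset.card_univ]
  rw [hsum]
  refine mul_ne_zero ?_ hk
  rw [Nat.cast_ne_zero]
  exact Fintype.card_ne_zero

end bridge

end Vale.Agent.P182
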