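import Vale.Agent.P182.H163.SoD
import Mathlib.Analysis.InnerProductSpace.PiL2

/-!
# The spin module of `so(2n)`

Clifford operators on the Fock space (functions on the subsets of `Fin n`).
-/

namespace Vale.Agent.P182

open scoped InnerProductSpace ComplexConjugate

attribute [local instance 100] LieRing.ofAssociativeRing

variable {n : ℕ}

section abstract_cliff

variable {A : Type*} [Ring A] [Algebra ℂ A] (c : Fin n ⊕ Fin n → A)

/-- canonical anticommutation relations -/
def IsCAR : Prop := ∀ a b : Fin n ⊕ Fin n, c a * c b + c b * c a = if b = a.swap then 1 else 0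

/-- the quadratic element of a matrix -/
noncomputable def quad (M : Matrix (Fin n ⊕ Fin n) (Fin n ⊕ Fin n) ℂ) : A :=
  ∑ b', ∑ b, M b' b • (c b' * c b.swap)

/-- the spin action -/
noncomputable def rho (M : Matrix (Fin n ⊕ Fin n) (Fin n ⊕ Fin n) ℂ) : A :=
  (2⁻¹ : ℂ) • quad c M

theorem quad_add (M N : Matrix (Fin n ⊕ Fin n) (Fin n ⊕ Fin n) ℂ) :
    quad c (M + N) = quad c M + quad c N := by
  simp only [quad, Matrix.add_apply, add_smul, Finset.sum_add_distrib]

theorem quad_smul (s : ℂ) (M : Matrix (Fin n ⊕ Fin n) (Fin n ⊕ Fin n) ℂ) :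
    quad c (s • M) = s • quad c M := by
  simp only [quad, Matrix.smul_apply, smul_eq_mul, mul_smul, Finset.smul_sum]

theorem skew_so (x : so n) (b d : Fin n ⊕ Fin n) : x.1 d.swap b = - x.1 b.swap d := by
  have hx := (mem_so_iff x.1).mp x.2
  rcases b with i | i <;> rcases d with j | j
  · exact (hx i j).2.2
  · show x.1 (Sum.inl j) (Sum.inl i) = - x.1 (Sum.inr i) (Sum.inr j)
    rw [(hx j i).1, neg_neg]
  · show x.1 (Sum.inr j) (Sum.inr i) = - x.1 (Sum.inl i) (Sum.inl j)
    exact (hx i j).1
  · exact (hx i j).2.1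

variable {c}

theorem IsCAR.comm_quad (hc : IsCAR c) (x : so n) (d : Fin n ⊕ Fin n) :
    quad c x.1 * c d - c d * quad c x.1 = (2 : ℂ) • ∑ b', x.1 b' d • c b' := by
  have h1 : ∀ a e : Fin n ⊕ Fin n, (c a * c e) * c d - c d * (c a * c e) =
      (if d = e.swap then (1 : ℂ) else 0) • c a - (if d = a.swap then (1 : ℂ) else 0) • c e := by
    intro a e
    have e1 := hc e d
    have e2 := hc a d
    have h3 : c a * (c e * c d + c d * c e) - (c a * c d + c d * c a) * c e =
        (c a * c e) * c d - c d * (c a * c e) := by noncomm_ring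
    rw [← h3, e1, e2]
    split_ifs <;> simp
  have h0 : quad c x.1 * c d - c d * quad c x.1 =
      ∑ b', ∑ b, x.1 b' b • ((c b' * c b.swap) * c d - c d * (c b' * c b.swap)) := by
    rw [quad, Finset.sum_mul, Finset.mul_sum, ← Finset.sum_sub_distrib]
    refine Finset.sum_congr rfl fun b' _ => ?_
    rw [Finset.sum_mul, Finset.mul_sum, ← Finset.sum_sub_distrib]
    refine Finset.sum_congr rfl fun b _ => ?_
    rw [smul_mul_assoc, mul_smul_comm, smul_sub]
  rw [h0]
  simp only [h1, Sum.swap_swap, smul_sub, smul_smul, mul_ite, mul_one, mul_zero,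
    Finset.sum_sub_distrib]
  have e1 : ∀ b' : Fin n ⊕ Fin n,
      ∑ b, (if d = b then x.1 b' b else 0) • c b' = x.1 b' d • c b' := by
    intro b'
    rw [Finset.sum_eq_single d]
    · rw [if_pos rfl]
    · intro b _ hb
      rw [if_neg (Ne.symm hb), zero_smul]
    · intro h; exact absurd (Finset.mem_univ _) h
  simp only [e1]
  rw [Finset.sum_comm (f := fun b' b => (if d = b'.swap then x.1 b' b else 0) • c b.swap)]
  have e2 : ∀ b : Fin n ⊕ Fin n,
      ∑ b', (if d = b'.swap then x.1 b' b else 0) • c b.swap = - (x.1 b.swap d • c b.swap) := by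
    intro b
    rw [Finset.sum_eq_single d.swap]
    · rw [if_pos (Sum.swap_swap d).symm, skew_so, neg_smul]
    · intro b' _ hb
      rw [if_neg, zero_smul]
      intro h
      apply hb
      rw [h, Sum.swap_swap]
    · intro h; exact absurd (Finset.mem_univ _) h
  simp only [e2]
  rw [Finset.sum_neg_distrib, sub_neg_eq_add, two_smul]
  congr 1
  exact Fintype.sum_equiv (Equiv.sumComm (Fin n) (Fin n)) _ _ fun b => rfl

theorem IsCAR.comm_rho (hc : IsCAR c) (x : so n) (d : Fin n ⊕ Fin n) :
    rho c x.1 * c d - c d * rho c x.1 = ∑ b', x.1 b' d • c b' := by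
  rw [rho, smul_mul_assoc, mul_smul_comm, ← smul_sub, hc.comm_quad, smul_smul,
    inv_mul_cancel₀ two_ne_zero, one_smul]

theorem IsCAR.rho_bracket (hc : IsCAR c) (x y : so n) :
    rho c (x.1 * y.1 - y.1 * x.1) = rho c x.1 * rho c y.1 - rho c y.1 * rho c x.1 := by
  have h1 : ∀ a e : Fin n ⊕ Fin n,
      rho c x.1 * (c a * c e) - (c a * c e) * rho c x.1 =
        (∑ b', x.1 b' a • (c b' * c e)) + ∑ b', x.1 b' e • (c a * c b') := by
    intro a e
    have e1 := hc.comm_rho x a
    have e2 := hc.comm_rho x e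
    have h3 : (rho c x.1 * c a - c a * rho c x.1) * c e + c a * (rho c x.1 * c e - c e * rho c x.1) =
        rho c x.1 * (c a * c e) - (c a * c e) * rho c x.1 := by noncomm_ring
    rw [← h3, e1, e2, Finset.sum_mul, Finset.mul_sum]
    simp only [smul_mul_assoc, mul_smul_comm]
  have h2 : rho c x.1 * quad c y.1 - quad c y.1 * rho c x.1 =
      quad c (x.1 * y.1 - y.1 * x.1) := by
    have e0 : quad c (x.1 * y.1 - y.1 * x.1) = quad c (x.1 * y.1) - quad c (y.1 * x.1) := by
      rw [sub_eq_add_neg, quad_add, sub_eq_add_neg]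
      congr 1
      have := quad_smul c (-1 : ℂ) (y.1 * x.1)
      simpa using this
    rw [e0]
    conv_lhs => rw [quad, Finset.mul_sum, Finset.sum_mul]
    simp only [Finset.mul_sum, Finset.sum_mul, smul_mul_assoc, mul_smul_comm,
      ← Finset.sum_sub_distrib, ← smul_sub, h1, smul_add, Finset.sum_add_distrib, Finset.smul_sum,
      smul_smul]
    rw [sub_eq_add_neg]
    congr 1
    · rw [quad]
      simp only [Matrix.mul_apply, Finset.sum_smul]
      rw [Finset.sum_comm]
      have : ∀ b : Fin n ⊕ Fin n,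
          ∑ b', ∑ e, (y.1 b' b * x.1 e b') • (c e * c b.swap) =
          ∑ e, ∑ b', (x.1 e b' * y.1 b' b) • (c e * c b.swap) := by
        intro b
        rw [Finset.sum_comm]
        exact Finset.sum_congr rfl fun e _ => Finset.sum_congr rfl fun b' _ => by rw [mul_comm]
      simp only [this]
      rw [Finset.sum_comm]
    · rw [quad]
      simp only [Matrix.mul_apply, Finset.sum_smul]
      rw [← Finset.sum_neg_distrib]
      refine Finset.sum_congr rfl fun b' _ => ?_
      rw [Finset.sum_comm, ← Finset.sum_neg_distrib]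
      refine Fintype.sum_equiv (Equiv.sumComm (Fin n) (Fin n)) _ _ fun e => ?_
      rw [← Finset.sum_neg_distrib]
      refine Finset.sum_congr rfl fun b _ => ?_
      show (y.1 b' b * x.1 e b.swap) • (c b' * c e) = -((y.1 b' b * x.1 b e.swap) • (c b' * c e.swap.swap))
      rw [Sum.swap_swap]
      have := skew_so x b.swap e.swap
      rw [Sum.swap_swap, Sum.swap_swap] at this
      rw [this, mul_neg, neg_smul]
  have h3 : rho c x.1 * rho c y.1 - rho c y.1 * rho c x.1 =
      (2⁻¹ : ℂ) • (rho c x.1 * quad c y.1 - quad c y.1 * rho c x.1) := by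
    conv_lhs => rw [show rho c y.1 = (2⁻¹ : ℂ) • quad c y.1 from rfl]
    rw [mul_smul_comm, smul_mul_assoc, smul_sub]
  rw [h3, h2]
  rfl

theorem IsCAR.sq (hc : IsCAR c) (b : Fin n ⊕ Fin n) : c b * c b = 0 := by
  have h := hc b b
  rw [if_neg (by rcases b with b | b <;> simp)] at h
  have h2 : (2 : ℂ) • (c b * c b) = 0 := by rw [two_smul]; exact h
  exact (smul_eq_zero.mp h2).resolve_left two_ne_zero

omit [Algebra ℂ A] in
theorem IsCAR.anti (hc : IsCAR c) {a b : Fin n ⊕ Fin n} (h : b ≠ a.swap) :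
    c a * c b = - (c b * c a) := by
  have h1 := hc a b
  rw [if_neg h] at h1
  exact eq_neg_of_add_eq_zero_left h1

theorem IsCAR.pair_sq (hc : IsCAR c) {a b : Fin n ⊕ Fin n} (h : b ≠ a.swap) :
    (c a * c b) * (c a * c b) = 0 := by
  calc (c a * c b) * (c a * c b) = c a * (c b * c a) * c b := by noncomm_ring
    _ = c a * (-(c a * c b)) * c b := by rw [hc.anti h, neg_neg]
    _ = - ((c a * c a) * (c b * c b)) := by noncomm_ring
    _ = 0 := by rw [hc.sq]; simp

end abstract_cliff

end Vale.Agent.P182
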