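import Vale.Agent.P182.H163.Box
import Vale.Agent.P182.H163.Generic

/-!
# Versal configurations and the first order relations
-/

namespace Vale.Agent.P182

open LieAlgebra.Orthogonal

section config

variable {n : ℕ} {L : Type*} [Field L] {J : Type*} [Fintype J]

/-- the space spanned by the first `c` vectors of a frame -/
def Fl (e : Fin n → Fin n ⊕ Fin n → L) (c : ℕ) : Submodule L (Fin n ⊕ Fin n → L) :=
  Submodule.span L {v | ∃ i : Fin n, (i : ℕ) < c ∧ v = e i}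

/-- the space of the configuration with column lengths `c` -/
def Ec (arm : J → Fin 3) (e : Fin 3 → Fin n → Fin n ⊕ Fin n → L) (c : J → ℕ) :
    Submodule L (J → Fin n ⊕ Fin n → L) :=
  Submodule.pi Set.univ fun l => Fl (e (arm l)) (c l)

theorem mem_Ec {arm : J → Fin 3} {e : Fin 3 → Fin n → Fin n ⊕ Fin n → L} {c : J → ℕ}
    {t : J → Fin n ⊕ Fin n → L} : t ∈ Ec arm e c ↔ ∀ l, t l ∈ Fl (e (arm l)) (c l) := by
  simp [Ec, Submodule.mem_pi]

/-- the vector `u_l` -/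
def uv (Ω : J → J → L) (t : J → Fin n ⊕ Fin n → L) (l : J) : Fin n ⊕ Fin n → L :=
  ∑ k, Ω l k • t k

/-- The form. -/
def AΩ (Ω : J → J → L) :
    (J → Fin n ⊕ Fin n → L) →ₗ[L] (J → Fin n ⊕ Fin n → L) →ₗ[L] L :=
  ∑ l, ∑ l', Ω l l' • (qB n L).compl₁₂ (LinearMap.proj l) (LinearMap.proj l')

theorem AΩ_apply (Ω : J → J → L) (t r : J → Fin n ⊕ Fin n → L) :
    AΩ Ω t r = ∑ l, ∑ l', Ω l l' * qf (t l) (r l') := by
  simp only [AΩ, LinearMap.sum_apply, LinearMap.smul_apply, LinearMap.compl₁₂_apply,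
    LinearMap.proj_apply, qB_apply, smul_eq_mul]

theorem AΩ_eq (Ω : J → J → L) (t r : J → Fin n ⊕ Fin n → L) :
    AΩ Ω t r = ∑ l, qf (t l) (uv Ω r l) := by
  rw [AΩ_apply]
  refine Finset.sum_congr rfl fun l _ => ?_
  rw [uv, qf_sum_right]

theorem AΩ_skew {Ω : J → J → L} (hΩ : ∀ l l', Ω l l' = - Ω l' l) (t r : J → Fin n ⊕ Fin n → L) :
    AΩ Ω t r = - AΩ Ω r t := by
  rw [AΩ_apply, AΩ_apply, Finset.sum_comm, ← Finset.sum_neg_distrib]
  refine Finset.sum_congr rfl fun l _ => ?_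
  rw [← Finset.sum_neg_distrib]
  refine Finset.sum_congr rfl fun l' _ => ?_
  rw [hΩ l' l, qf_symm]
  ring

theorem AΩ_alt [CharZero L] {Ω : J → J → L} (hΩ : ∀ l l', Ω l l' = - Ω l' l)
    (t : J → Fin n ⊕ Fin n → L) : AΩ Ω t t = 0 := by
  have h := AΩ_skew hΩ t t
  have h2 : (2 : L) * AΩ Ω t t = 0 := by linear_combination h
  exact (mul_eq_zero.mp h2).resolve_left two_ne_zero

/-- The kernel of a configuration. -/
def Kc (arm : J → Fin 3) (e : Fin 3 → Fin n → Fin n ⊕ Fin n → L) (Ω : J → J → L) (c : J → ℕ) :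
    Submodule L (J → Fin n ⊕ Fin n → L) :=
  ker2 (AΩ Ω) (Ec arm e c)

variable [DecidableEq J]

theorem mem_Kc {arm : J → Fin 3} {e : Fin 3 → Fin n → Fin n ⊕ Fin n → L} {Ω : J → J → L}
    (hΩ : ∀ l l', Ω l l' = - Ω l' l) {c : J → ℕ}
    {t : J → Fin n ⊕ Fin n → L} : t ∈ Kc arm e Ω c ↔
      (∀ l, t l ∈ Fl (e (arm l)) (c l)) ∧ ∀ l, ∀ v ∈ Fl (e (arm l)) (c l), qf v (uv Ω t l) = 0 := by
  rw [Kc, mem_ker2, mem_Ec]
  refine and_congr_right fun ht => ?_
  constructor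
  · intro h l v hv
    have h1 := h (Pi.single l v) (mem_Ec.mpr fun k => by
      by_cases hk : k = l
      · subst hk; rw [Pi.single_eq_same]; exact hv
      · rw [Pi.single_eq_of_ne hk]; exact Submodule.zero_mem _)
    rw [AΩ_skew hΩ, AΩ_eq, neg_eq_zero, Finset.sum_eq_single l] at h1
    · rwa [Pi.single_eq_same] at h1
    · intro k _ hk
      rw [Pi.single_eq_of_ne hk, ← qB_apply, map_zero, LinearMap.zero_apply]
    · intro h; exact absurd (Finset.mem_univ _) h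
  · intro h r hr
    rw [AΩ_skew hΩ, AΩ_eq, neg_eq_zero]
    exact Finset.sum_eq_zero fun l _ => h l _ (mem_Ec.mp hr l)

variable [Algebra ℂ L]

/-- coordinatewise action of a derivation -/
def Dv (D : Derivation ℂ L L) (v : Fin n ⊕ Fin n → L) : Fin n ⊕ Fin n → L := fun b => D (v b)

theorem D_qf (D : Derivation ℂ L L) (u v : Fin n ⊕ Fin n → L) :
    D (qf u v) = qf (Dv D u) v + qf u (Dv D v) := by
  rw [qf_eq, qf_eq, qf_eq, map_sum, ← Finset.sum_add_distrib]
  refine Finset.sum_congr rfl fun b _ => ?_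
  rw [Derivation.leibniz, smul_eq_mul, smul_eq_mul, Dv, Dv]
  ring

/-- Versality: all first order deformations of the frames and of `Ω` are induced by derivations. -/
def Versal (e : Fin 3 → Fin n → Fin n ⊕ Fin n → L) (Ω : J → J → L) : Prop :=
  ∀ Y : Fin 3 → Matrix (Fin n ⊕ Fin n) (Fin n ⊕ Fin n) L, (∀ s, IsSo (Y s)) →
    ∀ η : J → J → L, (∀ l l', η l l' = - η l' l) →
      ∃ D : Derivation ℂ L L, (∀ s i, Dv D (e s i) = (Y s).mulVec (e s i)) ∧
        ∀ l l', D (Ω l l') = η l l'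

/-- A derivation preserves the moving flags up to `Y`. -/
theorem Dv_mem {D : Derivation ℂ L L} {e : Fin n → Fin n ⊕ Fin n → L}
    {Y : Matrix (Fin n ⊕ Fin n) (Fin n ⊕ Fin n) L} (hD : ∀ i, Dv D (e i) = Y.mulVec (e i)) {c : ℕ}
    {v : Fin n ⊕ Fin n → L} (hv : v ∈ Fl e c) : Dv D v - Y.mulVec v ∈ Fl e c := by
  induction hv using Submodule.span_induction with
  | mem v hv =>
    obtain ⟨i, _, rfl⟩ := hv
    rw [hD, sub_self]
    exact Submodule.zero_mem _
  | zero =>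
    have : Dv D (0 : Fin n ⊕ Fin n → L) = 0 := by funext b; simp [Dv]
    rw [this, Matrix.mulVec_zero, sub_zero]
    exact Submodule.zero_mem _
  | add u v _ _ hu hv =>
    have h1 : Dv D (u + v) = Dv D u + Dv D v := by funext b; simp [Dv]
    rw [h1, Matrix.mulVec_add, add_sub_add_comm]
    exact Submodule.add_mem _ hu hv
  | smul a u hu' hu =>
    have h1 : Dv D (a • u) = D a • u + a • Dv D u := by
      funext b
      simp [Dv, mul_comm, add_comm]
    rw [h1, Matrix.mulVec_smul, add_sub_assoc, ← smul_sub]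
    exact Submodule.add_mem _ (Submodule.smul_mem _ _ hu') (Submodule.smul_mem _ _ hu)

/-- **The first order relation.** -/
theorem first_order {arm : J → Fin 3} {e : Fin 3 → Fin n → Fin n ⊕ Fin n → L} {Ω : J → J → L}
    (hΩ : ∀ l l', Ω l l' = - Ω l' l) {c : J → ℕ} {D : Derivation ℂ L L}
    {Y : Fin 3 → Matrix (Fin n ⊕ Fin n) (Fin n ⊕ Fin n) L} {η : J → J → L}
    (hD : ∀ s i, Dv D (e s i) = (Y s).mulVec (e s i)) (hη : ∀ l l', D (Ω l l') = η l l')
    {t r : J → Fin n ⊕ Fin n → L} (ht : t ∈ Kc arm e Ω c) (hr : r ∈ Kc arm e Ω c) :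
    ∑ l, ∑ l', η l l' * qf (t l) (r l') +
      (∑ l, qf ((Y (arm l)).mulVec (t l)) (uv Ω r l) -
       ∑ l, qf ((Y (arm l)).mulVec (r l)) (uv Ω t l)) = 0 := by
  have h0 : D (AΩ Ω t r) = 0 := by rw [ht.2 r hr.1, map_zero]
  have ht1 := mem_Ec.mp ht.1
  have hr1 := mem_Ec.mp hr.1
  let t' : J → Fin n ⊕ Fin n → L := fun l => Dv D (t l) - (Y (arm l)).mulVec (t l)
  let r' : J → Fin n ⊕ Fin n → L := fun l => Dv D (r l) - (Y (arm l)).mulVec (r l)
  have ht' : t' ∈ Ec arm e c := mem_Ec.mpr fun l => Dv_mem (hD (arm l)) (ht1 l)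
  have hr' : r' ∈ Ec arm e c := mem_Ec.mpr fun l => Dv_mem (hD (arm l)) (hr1 l)
  have h1 : AΩ Ω t' r = 0 := by rw [AΩ_skew hΩ, hr.2 t' ht', neg_zero]
  have h2 : AΩ Ω t r' = 0 := ht.2 r' hr'
  have h3 : D (AΩ Ω t r) = ∑ l, ∑ l', η l l' * qf (t l) (r l') +
      (AΩ Ω (fun l => Dv D (t l)) r + AΩ Ω t (fun l => Dv D (r l))) := by
    rw [AΩ_apply, AΩ_apply, AΩ_apply, map_sum, ← Finset.sum_add_distrib, ← Finset.sum_add_distrib]
    refine Finset.sum_congr rfl fun l _ => ?_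
    rw [map_sum, ← Finset.sum_add_distrib, ← Finset.sum_add_distrib]
    refine Finset.sum_congr rfl fun l' _ => ?_
    rw [Derivation.leibniz, D_qf, hη, smul_eq_mul, smul_eq_mul]
    ring
  have h4 : (fun l => Dv D (t l)) = t' + fun l => (Y (arm l)).mulVec (t l) := by
    funext l
    show Dv D (t l) = Dv D (t l) - (Y (arm l)).mulVec (t l) + (Y (arm l)).mulVec (t l)
    rw [sub_add_cancel]
  have h5 : (fun l => Dv D (r l)) = r' + fun l => (Y (arm l)).mulVec (r l) := by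
    funext l
    show Dv D (r l) = Dv D (r l) - (Y (arm l)).mulVec (r l) + (Y (arm l)).mulVec (r l)
    rw [sub_add_cancel]
  rw [h0, h4, h5, map_add, LinearMap.add_apply, h1, zero_add, map_add, h2, zero_add,
    AΩ_skew hΩ t, AΩ_eq, AΩ_eq] at h3
  rw [sub_eq_add_neg]
  exact h3.symm

/-- **F1.** -/
theorem F1 {arm : J → Fin 3} {e : Fin 3 → Fin n → Fin n ⊕ Fin n → L} {Ω : J → J → L}
    (hΩ : ∀ l l', Ω l l' = - Ω l' l) (hV : Versal e Ω) {c : J → ℕ}
    {t r : J → Fin n ⊕ Fin n → L} (ht : t ∈ Kc arm e Ω c) (hr : r ∈ Kc arm e Ω c) (l k : J) :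
    qf (t l) (r k) = qf (t k) (r l) := by
  by_cases hlk : l = k
  · rw [hlk]
  obtain ⟨D, hD, hη⟩ := hV (fun _ => 0) (fun s => by rw [IsSo]; simp)
    (fun a b => if a = l ∧ b = k then 1 else if a = k ∧ b = l then -1 else 0) (by
      intro a b
      by_cases h1 : a = l ∧ b = k
      · obtain ⟨rfl, rfl⟩ := h1
        have h2 : ¬ (b = a ∧ a = b) := fun h => hlk h.2
        simp [h2]
      · by_cases h2 : a = k ∧ b = l
        · obtain ⟨rfl, rfl⟩ := h2
          simp [hlk]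
        · have h3 : ¬ (b = l ∧ a = k) := fun h => h2 ⟨h.2, h.1⟩
          have h4 : ¬ (b = k ∧ a = l) := fun h => h1 ⟨h.2, h.1⟩
          simp [h1, h2, h3, h4])
  have h := first_order hΩ hD hη ht hr
  simp only [Matrix.zero_mulVec] at h
  have hz : ∀ v : Fin n ⊕ Fin n → L, qf 0 v = 0 := fun v => by
    rw [← qB_apply, map_zero, LinearMap.zero_apply]
  simp only [hz, Finset.sum_const_zero, sub_zero, add_zero] at h
  rw [Finset.sum_eq_add l k hlk] at h
  · rw [Finset.sum_eq_single k, Finset.sum_eq_single l] at h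
    · simp only [true_and, and_self, if_true, hlk, false_and, if_false, Ne.symm hlk] at h
      linear_combination h
    · intro b _ hb
      simp [hb, Ne.symm hlk]
    · intro h; exact absurd (Finset.mem_univ _) h
    · intro b _ hb
      simp [hb, hlk]
    · intro h; exact absurd (Finset.mem_univ _) h
  · rintro a _ ⟨h1, h2⟩
    refine Finset.sum_eq_zero fun b _ => ?_
    simp [h1, h2]
  · intro h; exact absurd (Finset.mem_univ _) h
  · intro h; exact absurd (Finset.mem_univ _) h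

theorem F1u {arm : J → Fin 3} {e : Fin 3 → Fin n → Fin n ⊕ Fin n → L} {Ω : J → J → L}
    (hΩ : ∀ l l', Ω l l' = - Ω l' l) (hV : Versal e Ω) {c : J → ℕ}
    {t r : J → Fin n ⊕ Fin n → L} (ht : t ∈ Kc arm e Ω c) (hr : r ∈ Kc arm e Ω c) (l k : J) :
    qf (uv Ω t l) (r k) = qf (uv Ω r l) (t k) := by
  rw [uv, uv, qf_sum_left, qf_sum_left]
  refine Finset.sum_congr rfl fun j _ => ?_
  rw [F1 hΩ hV ht hr j k, qf_symm]

/-- **F2.** -/
theorem F2 {arm : J → Fin 3} {e : Fin 3 → Fin n → Fin n ⊕ Fin n → L} {Ω : J → J → L}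
    (hΩ : ∀ l l', Ω l l' = - Ω l' l) (hV : Versal e Ω) {c : J → ℕ}
    {t r : J → Fin n ⊕ Fin n → L} (ht : t ∈ Kc arm e Ω c) (hr : r ∈ Kc arm e Ω c) (s : Fin 3)
    {X : Matrix (Fin n ⊕ Fin n) (Fin n ⊕ Fin n) L} (hX : IsSo X) :
    ∑ l ∈ Finset.univ.filter (fun l => arm l = s),
      (qf (X.mulVec (t l)) (uv Ω r l) - qf (X.mulVec (r l)) (uv Ω t l)) = 0 := by
  obtain ⟨D, hD, hη⟩ := hV (fun s' => if s' = s then X else 0) (fun s' => by
    split_ifs
    · exact hX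
    · rw [IsSo]; simp) (fun _ _ => 0) (fun _ _ => by simp)
  have h := first_order hΩ hD hη ht hr
  simp only [zero_mul, Finset.sum_const_zero, zero_add] at h
  rw [← Finset.sum_sub_distrib] at h
  rw [← h, Finset.sum_filter]
  refine Finset.sum_congr rfl fun l _ => ?_
  by_cases hl : arm l = s
  · rw [if_pos hl, if_pos hl]
  · have hz : ∀ v : Fin n ⊕ Fin n → L, qf 0 v = 0 := fun v => by
      rw [← qB_apply, map_zero, LinearMap.zero_apply]
    rw [if_neg hl, if_neg hl, Matrix.zero_mulVec, Matrix.zero_mulVec, hz, hz, sub_zero]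

end config

end Vale.Agent.P182
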