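import Vale.Agent.P182.H163.Words

/-!
# Coordinates on `so(2n)` over a `ℂ`-algebra
-/

namespace Vale.Agent.P182

open LieAlgebra.Orthogonal

attribute [local instance 100] LieRing.ofAssociativeRing

section coord

section

variable {n : ℕ} {A : Type*} [CommRing A]

/-- skew-adjoint matrices over `A` -/
def IsSo (X : Matrix (Fin n ⊕ Fin n) (Fin n ⊕ Fin n) A) : Prop :=
  X.transpose * JD (Fin n) A = - (JD (Fin n) A * X)

theorem isSo_iff (X : Matrix (Fin n ⊕ Fin n) (Fin n ⊕ Fin n) A) :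
    IsSo X ↔ ∀ i j : Fin n,
      X (Sum.inr j) (Sum.inr i) = - X (Sum.inl i) (Sum.inl j) ∧
      X (Sum.inl j) (Sum.inr i) = - X (Sum.inl i) (Sum.inr j) ∧
      X (Sum.inr j) (Sum.inl i) = - X (Sum.inr i) (Sum.inl j) := by
  rw [IsSo]
  constructor
  · intro h i j
    have e := fun p q => congrFun (congrFun h p) q
    have h1 := e (Sum.inl i) (Sum.inl j)
    have h2 := e (Sum.inl i) (Sum.inr j)
    have h3 := e (Sum.inr i) (Sum.inl j)
    have h4 := e (Sum.inr i) (Sum.inr j)
    simp [JD, Matrix.mul_apply, Fintype.sum_sum_type, Matrix.one_apply] at h1 h2 h3 h4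
    exact ⟨h3, h4, h1⟩
  · intro h
    ext p q
    rcases p with i | i <;> rcases q with j | j
    · simp [JD, Matrix.mul_apply, Fintype.sum_sum_type, Matrix.one_apply]
      exact (h i j).2.2
    · simp [JD, Matrix.mul_apply, Fintype.sum_sum_type, Matrix.one_apply]
      rw [(h j i).1, neg_neg]
    · simp [JD, Matrix.mul_apply, Fintype.sum_sum_type, Matrix.one_apply]
      exact (h i j).1
    · simp [JD, Matrix.mul_apply, Fintype.sum_sum_type, Matrix.one_apply]
      exact (h i j).2.1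

theorem IsSo.conj {T P Q : Matrix (Fin n ⊕ Fin n) (Fin n ⊕ Fin n) A} (hT : IsSo T)
    (hP : P.transpose * JD (Fin n) A = JD (Fin n) A * Q)
    (hQ : Q.transpose * JD (Fin n) A = JD (Fin n) A * P) : IsSo (P * T * Q) := by
  rw [IsSo, Matrix.transpose_mul, Matrix.transpose_mul, Matrix.mul_assoc, Matrix.mul_assoc, hP,
    ← Matrix.mul_assoc T.transpose, hT, Matrix.neg_mul, Matrix.mul_neg, Matrix.mul_assoc,
    ← Matrix.mul_assoc Q.transpose, hQ]
  simp only [Matrix.mul_assoc]

end

variable {n : ℕ} {A : Type*} [CommRing A] [Algebra ℂ A]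

theorem isSo_mp (x : so n) : IsSo (mp A x) := by
  rw [isSo_iff]
  intro i j
  have h := (mem_so_iff x.1).mp x.2 i j
  simp only [mp, Matrix.map_apply]
  rw [h.1, h.2.1, h.2.2, map_neg, map_neg, map_neg]
  exact ⟨rfl, rfl, rfl⟩

theorem transpose_add_JD {x : so n} (c : A) :
    (1 + c • mp A x).transpose * JD (Fin n) A = JD (Fin n) A * (1 - c • mp A x) := by
  rw [Matrix.transpose_add, Matrix.transpose_one, Matrix.transpose_smul, add_mul, one_mul,
    Matrix.smul_mul, isSo_mp x, mul_sub, mul_one, Matrix.mul_smul, smul_neg, sub_eq_add_neg]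

theorem transpose_sub_JD {x : so n} (c : A) :
    (1 - c • mp A x).transpose * JD (Fin n) A = JD (Fin n) A * (1 + c • mp A x) := by
  rw [Matrix.transpose_sub, Matrix.transpose_one, Matrix.transpose_smul, sub_mul, one_mul,
    Matrix.smul_mul, isSo_mp x, mul_add, mul_one, Matrix.mul_smul, smul_neg, sub_neg_eq_add]

theorem isSo_tv (l : List (so n)) (y : ℕ → A) (k : ℕ) : IsSo (tv l y k) := by
  induction l generalizing y k with
  | nil =>
    rw [tv, IsSo]
    simp
  | cons x l ih =>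
    cases k with
    | zero => exact isSo_mp x
    | succ k => exact (ih _ _).conj (transpose_add_JD _) (transpose_sub_JD _)

theorem wp_orth {l : List (so n)} (hl : ∀ x ∈ l, x ∈ rootSet n) (y : ℕ → A) :
    (wp l y).transpose * JD (Fin n) A * wp l y = JD (Fin n) A := by
  induction l generalizing y with
  | nil => simp [wp]
  | cons x l ih =>
    rw [wp, Matrix.transpose_mul, Matrix.mul_assoc, Matrix.mul_assoc, ← Matrix.mul_assoc (JD _ _),
      ← Matrix.mul_assoc (_ : Matrix _ _ A).transpose (JD _ _ * _), ← Matrix.mul_assoc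
      (_ : Matrix _ _ A).transpose (JD _ _), transpose_add_JD, Matrix.mul_assoc (JD _ _),
      sub_mul_add (hl x List.mem_cons_self), Matrix.mul_one, ← Matrix.mul_assoc]
    exact ih (fun z hz => hl z (List.mem_cons_of_mem _ hz)) _

theorem mp_eA (i j : Fin n) : mp A (eA i j) =
    Matrix.single (Sum.inl i) (Sum.inl j) 1 - Matrix.single (Sum.inr j) (Sum.inr i) 1 := by
  ext p q
  simp [mp, eA, Matrix.single_apply]

theorem mp_eB (i j : Fin n) : mp A (eB i j) =
    Matrix.single (Sum.inl i) (Sum.inr j) 1 - Matrix.single (Sum.inl j) (Sum.inr i) 1 := by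
  ext p q
  simp [mp, eB, Matrix.single_apply]

theorem mp_eC (i j : Fin n) : mp A (eC i j) =
    Matrix.single (Sum.inr i) (Sum.inl j) 1 - Matrix.single (Sum.inr j) (Sum.inl i) 1 := by
  ext p q
  simp [mp, eC, Matrix.single_apply]

theorem half_add_half : algebraMap ℂ A 2⁻¹ + algebraMap ℂ A 2⁻¹ = 1 := by
  rw [← map_add, ← map_one (algebraMap ℂ A)]
  congr 1
  norm_num

theorem isSo_expand {X : Matrix (Fin n ⊕ Fin n) (Fin n ⊕ Fin n) A} (hX : IsSo X) :
    X = ∑ i, ∑ j, X (Sum.inl i) (Sum.inl j) • mp A (eA i j) +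
      algebraMap ℂ A 2⁻¹ • (∑ i, ∑ j, X (Sum.inl i) (Sum.inr j) • mp A (eB i j)) +
      algebraMap ℂ A 2⁻¹ • (∑ i, ∑ j, X (Sum.inr i) (Sum.inl j) • mp A (eC i j)) := by
  have hx := (isSo_iff X).mp hX
  have hh := half_add_half (A := A)
  simp only [mp_eA, mp_eB, mp_eC]
  generalize algebraMap ℂ A 2⁻¹ = h at hh ⊢
  ext p q
  rcases p with p | p <;> rcases q with q | q
  · simp [Matrix.sum_apply, Matrix.single_apply, ite_and]
  · simp [Matrix.sum_apply, Matrix.single_apply, ite_and, mul_sub, Finset.sum_sub_distrib]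
    rw [(hx p q).2.1]
    linear_combination (- X (Sum.inl p) (Sum.inr q)) * hh
  · simp [Matrix.sum_apply, Matrix.single_apply, ite_and, mul_sub, Finset.sum_sub_distrib]
    rw [(hx p q).2.2]
    linear_combination (- X (Sum.inr p) (Sum.inl q)) * hh
  · simp [Matrix.sum_apply, Matrix.single_apply, ite_and]
    rw [(hx q p).1]

/-- a basis of `so(2n)` -/
noncomputable def bso (n : ℕ) : Module.Basis (Fin (Module.finrank ℂ (so n))) ℂ (so n) :=
  Module.finBasis ℂ (so n)

/-- coordinates over `A` -/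
noncomputable def cf (X : Matrix (Fin n ⊕ Fin n) (Fin n ⊕ Fin n) A)
    (i : Fin (Module.finrank ℂ (so n))) : A :=
  ∑ p, ∑ q, X (Sum.inl p) (Sum.inl q) * algebraMap ℂ A ((bso n).repr (eA p q) i) +
  algebraMap ℂ A 2⁻¹ * (∑ p, ∑ q, X (Sum.inl p) (Sum.inr q) *
    algebraMap ℂ A ((bso n).repr (eB p q) i)) +
  algebraMap ℂ A 2⁻¹ * (∑ p, ∑ q, X (Sum.inr p) (Sum.inl q) *
    algebraMap ℂ A ((bso n).repr (eC p q) i))

theorem mp_repr (x : so n) : mp A x = ∑ i, algebraMap ℂ A ((bso n).repr x i) • mp A (bso n i) := by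
  conv_lhs => rw [← (bso n).sum_repr x]
  ext b b'
  rw [mp, Matrix.map_apply, Matrix.sum_apply]
  have h1 : (∑ i, (bso n).repr x i • bso n i : so n).1 = ∑ i, (bso n).repr x i • (bso n i).1 :=
    map_sum (so n).toSubmodule.subtype (fun i => (bso n).repr x i • bso n i) Finset.univ
  rw [h1, Matrix.sum_apply, map_sum]
  refine Finset.sum_congr rfl fun i _ => ?_
  rw [Matrix.smul_apply, Matrix.smul_apply, smul_eq_mul, smul_eq_mul, map_mul, mp,
    Matrix.map_apply]

theorem expand_aux (a : Fin n → Fin n → A) (e : Fin n → Fin n → so n) :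
    ∑ i, (∑ p, ∑ q, a p q * algebraMap ℂ A ((bso n).repr (e p q) i)) • mp A (bso n i) =
      ∑ p, ∑ q, a p q • mp A (e p q) := by
  simp only [Finset.sum_smul]
  rw [Finset.sum_comm]
  refine Finset.sum_congr rfl fun p _ => ?_
  rw [Finset.sum_comm]
  refine Finset.sum_congr rfl fun q _ => ?_
  rw [mp_repr (e p q), Finset.smul_sum]
  refine Finset.sum_congr rfl fun i _ => ?_
  rw [mul_smul]

theorem expand_cf {X : Matrix (Fin n ⊕ Fin n) (Fin n ⊕ Fin n) A} (hX : IsSo X) :
    X = ∑ i, cf X i • mp A (bso n i) := by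
  conv_lhs => rw [isSo_expand hX]
  simp only [cf, add_smul, Finset.sum_add_distrib, mul_smul]
  rw [expand_aux, ← Finset.smul_sum, expand_aux, ← Finset.smul_sum, expand_aux]

theorem cf_map {A' : Type*} [CommRing A'] [Algebra ℂ A'] (φ : A →ₐ[ℂ] A')
    (X : Matrix (Fin n ⊕ Fin n) (Fin n ⊕ Fin n) A) (i : Fin (Module.finrank ℂ (so n))) :
    φ (cf X i) = cf (X.map φ) i := by
  simp only [cf, map_add, map_mul, map_sum, Matrix.map_apply, AlgHom.commutes]

theorem cf_sum {ι : Type*} (s : Finset ι) (c : ι → A)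
    (X : ι → Matrix (Fin n ⊕ Fin n) (Fin n ⊕ Fin n) A) (i : Fin (Module.finrank ℂ (so n))) :
    cf (∑ k ∈ s, c k • X k) i = ∑ k ∈ s, c k * cf (X k) i := by
  have hadd : ∀ X Y : Matrix (Fin n ⊕ Fin n) (Fin n ⊕ Fin n) A, cf (X + Y) i = cf X i + cf Y i := by
    intro X Y
    simp only [cf, Matrix.add_apply, add_mul, Finset.sum_add_distrib, mul_add]
    ring
  have hsmul : ∀ (c : A) (X : Matrix (Fin n ⊕ Fin n) (Fin n ⊕ Fin n) A),
      cf (c • X) i = c * cf X i := by
    intro c X
    simp only [cf, Matrix.smul_apply, smul_eq_mul, mul_assoc, ← Finset.mul_sum, mul_add]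
    ring
  classical
  induction s using Finset.induction_on with
  | empty => 
    have := hsmul 0 0
    simpa using this
  | insert a s ha ih => rw [Finset.sum_insert ha, Finset.sum_insert ha, hadd, hsmul, ih]

theorem cf_complex (x : so n) (i : Fin (Module.finrank ℂ (so n))) :
    cf x.1 i = (bso n).repr x i := by
  have h : (bso n).repr x i = (bso n).coord i x := rfl
  rw [h]
  conv_rhs => rw [so_expand x]
  simp only [map_add, map_sum, map_smul, smul_eq_mul]
  rfl

/-- Spanning specialises upwards. -/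
theorem lift_span {R L : Type*} [CommRing R] [IsDomain R] [Algebra ℂ R] [Field L] [Algebra ℂ L]
    (ι : R →ₐ[ℂ] L) (hι : Function.Injective ι) (ev : R →ₐ[ℂ] ℂ) {N : ℕ}
    (v : Fin N → Matrix (Fin n ⊕ Fin n) (Fin n ⊕ Fin n) R) (hv : ∀ k, IsSo (v k))
    (hspan : ∀ x : so n, ∃ a : Fin N → ℂ, x.1 = ∑ k, a k • (v k).map ev)
    {Y : Matrix (Fin n ⊕ Fin n) (Fin n ⊕ Fin n) L} (hY : IsSo Y) :
    ∃ a : Fin N → L, Y = ∑ k, a k • (v k).map ι := by
  choose Q hQ using fun j => hspan (bso n j)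
  let M : Matrix (Fin (Module.finrank ℂ (so n))) (Fin (Module.finrank ℂ (so n))) R :=
    Matrix.of fun j i => ∑ k, algebraMap ℂ R (Q j k) * cf (v k) i
  have hMv : ∀ j i, M j i = ∑ k, algebraMap ℂ R (Q j k) * cf (v k) i := fun j i => rfl
  have hM : M.map ev = 1 := by
    ext j i
    rw [Matrix.map_apply, hMv, map_sum]
    have h1 : ∀ k, ev (algebraMap ℂ R (Q j k) * cf (v k) i) = Q j k * cf ((v k).map ev) i := by
      intro k
      rw [map_mul, AlgHom.commutes, cf_map]
      rfl
    simp only [h1]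
    rw [← cf_sum, ← hQ j, cf_complex, Module.Basis.repr_self, Finsupp.single_apply,
      Matrix.one_apply]
  have hdet : M.det ≠ 0 := by
    intro h0
    have h1 : (M.map ev).det = ev M.det := (AlgHom.map_det ev M).symm
    rw [hM, Matrix.det_one, h0, map_zero] at h1
    exact one_ne_zero h1
  have hdetL : IsUnit (M.map ι).det := by
    have h1 : (M.map ι).det = ι M.det := (AlgHom.map_det ι M).symm
    rw [h1]
    exact isUnit_iff_ne_zero.mpr fun h => hdet (hι (h.trans (map_zero ι).symm))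
  let z : Fin (Module.finrank ℂ (so n)) → L := Matrix.vecMul (cf Y) (M.map ι)⁻¹
  have hz : Matrix.vecMul z (M.map ι) = cf Y := by
    rw [Matrix.vecMul_vecMul, Matrix.nonsing_inv_mul _ hdetL, Matrix.vecMul_one]
  refine ⟨fun k => ∑ j, z j * algebraMap ℂ L (Q j k), ?_⟩
  have hvL : ∀ k, IsSo ((v k).map ι) := by
    intro k
    have h := (isSo_iff (v k)).mp (hv k)
    rw [isSo_iff]
    intro i j
    simp only [Matrix.map_apply]
    rw [(h i j).1, (h i j).2.1, (h i j).2.2, map_neg, map_neg, map_neg]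
    exact ⟨rfl, rfl, rfl⟩
  have hRexp : ∑ k, (∑ j, z j * algebraMap ℂ L (Q j k)) • (v k).map ι =
      ∑ i, (∑ k, (∑ j, z j * algebraMap ℂ L (Q j k)) * cf ((v k).map ι) i) • mp L (bso n i) := by
    have h1 : ∀ k, (∑ j, z j * algebraMap ℂ L (Q j k)) • (v k).map ι =
        ∑ i, ((∑ j, z j * algebraMap ℂ L (Q j k)) * cf ((v k).map ι) i) • mp L (bso n i) := by
      intro k
      conv_lhs => rw [expand_cf (hvL k), Finset.smul_sum]
      exact Finset.sum_congr rfl fun i _ => by rw [mul_smul]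
    simp only [h1]
    rw [Finset.sum_comm]
    exact Finset.sum_congr rfl fun i _ => by rw [Finset.sum_smul]
  rw [hRexp]
  conv_lhs => rw [expand_cf hY]
  refine Finset.sum_congr rfl fun i _ => ?_
  congr 1
  rw [← hz, Matrix.vecMul, dotProduct]
  simp only [Finset.sum_mul]
  rw [Finset.sum_comm]
  refine Finset.sum_congr rfl fun j _ => ?_
  rw [Matrix.map_apply, hMv, map_sum, Finset.mul_sum]
  refine Finset.sum_congr rfl fun k _ => ?_
  rw [map_mul, AlgHom.commutes, cf_map, mul_assoc]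

end coord

end Vale.Agent.P182
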