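import Mathlib.Algebra.Lie.Classical
import Mathlib.Algebra.Lie.TensorProduct
import Mathlib.Algebra.Lie.Semisimple.Defs
import Mathlib.Algebra.Lie.Abelian
import Mathlib.Data.Complex.Basic
import Mathlib.LinearAlgebra.FiniteDimensional.Basic

/-!
# P182: definitions

The Lie algebra `so(2n, ℂ)` of `Spin(2n)`, its irreducible modules with a given highest weight and
the saturation property for tensor invariants.
-/

namespace Vale.Agent.P182

open LieAlgebra.Orthogonal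
open scoped TensorProduct

attribute [local instance 100] LieRing.ofAssociativeRing

/-- The Lie algebra of `Spin(2n)` (type `D_n`): the complex matrices in `n × n` blocks
`[A B; C -Aᵀ]` with `B` and `C` skew-symmetric. -/
abbrev so (n : ℕ) : LieSubalgebra ℂ (Matrix (Fin n ⊕ Fin n) (Fin n ⊕ Fin n) ℂ) :=
  typeD (Fin n) ℂ

theorem mem_so {n : ℕ} (X : Matrix (Fin n ⊕ Fin n) (Fin n ⊕ Fin n) ℂ) :
    X ∈ so n ↔ X.transpose * JD (Fin n) ℂ = - (JD (Fin n) ℂ * X) := by
  have : X ∈ so n ↔ X ∈ skewAdjointMatricesSubmodule (JD (Fin n) ℂ) := Iff.rfl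
  rw [this, mem_skewAdjointMatricesSubmodule]
  show X.transpose * JD (Fin n) ℂ = JD (Fin n) ℂ * (-X) ↔ _
  rw [Matrix.mul_neg]

theorem mem_so_iff {n : ℕ} (X : Matrix (Fin n ⊕ Fin n) (Fin n ⊕ Fin n) ℂ) :
    X ∈ so n ↔ ∀ i j : Fin n,
      X (Sum.inr j) (Sum.inr i) = - X (Sum.inl i) (Sum.inl j) ∧
      X (Sum.inl j) (Sum.inr i) = - X (Sum.inl i) (Sum.inr j) ∧
      X (Sum.inr j) (Sum.inl i) = - X (Sum.inr i) (Sum.inl j) := by
  rw [mem_so]
  constructor
  · intro h i j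
    have e := fun p q => congrFun (congrFun h p) q
    have h1 := e (Sum.inl i) (Sum.inl j)
    have h2 := e (Sum.inl i) (Sum.inr j)
    have h3 := e (Sum.inr i) (Sum.inl j)
    have h4 := e (Sum.inr i) (Sum.inr j)
    simp [JD, Matrix.mul_apply, Fintype.sum_sum_type, Matrix.one_apply] at h1 h2 h3 h4
    exact ⟨h3, h4, h1⟩
  · intro h
    ext p q
    rcases p with i | i <;> rcases q with j | j
    · simp [JD, Matrix.mul_apply, Fintype.sum_sum_type, Matrix.one_apply]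
      exact (h i j).2.2
    · simp [JD, Matrix.mul_apply, Fintype.sum_sum_type, Matrix.one_apply]
      rw [(h j i).1, neg_neg]
    · simp [JD, Matrix.mul_apply, Fintype.sum_sum_type, Matrix.one_apply]
      exact (h i j).1
    · simp [JD, Matrix.mul_apply, Fintype.sum_sum_type, Matrix.one_apply]
      exact (h i j).2.1

/-- The element `diag(a, -a)` of the diagonal Cartan subalgebra. -/
def cartan {n : ℕ} (a : Fin n → ℂ) : so n :=
  ⟨Matrix.diagonal (Sum.elim a (-a)), by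
    rw [mem_so_iff]
    intro i j
    by_cases h : i = j
    · subst h; simp
    · have h' : ¬ j = i := fun e => h e.symm
      simp [h, h']⟩

/-- Membership in the sum of the positive root spaces (roots `ε_i - ε_j` and `ε_i + ε_j`, `i < j`):
the block `A` is strictly upper triangular and `C = 0`. -/
def IsPositive {n : ℕ} (x : so n) : Prop :=
  (∀ i j : Fin n, j ≤ i → x.1 (Sum.inl i) (Sum.inl j) = 0) ∧
    ∀ i j : Fin n, x.1 (Sum.inr i) (Sum.inl j) = 0

/-- `V` has a highest weight vector of weight `lam = Σ lam_i ε_i`. -/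
def HasHighestWeight {n : ℕ} (lam : Fin n → ℚ) (V : Type*) [AddCommGroup V] [Module ℂ V]
    [LieRingModule (so n) V] : Prop :=
  ∃ v : V, v ≠ 0 ∧ (∀ a : Fin n → ℂ, ⁅cartan a, v⁆ = (∑ i, (lam i : ℂ) * a i) • v) ∧
    ∀ x : so n, IsPositive x → ⁅x, v⁆ = 0

/-- Dominant integral weights of `Spin(2n)`. -/
def IsDominant {n : ℕ} (lam : Fin n → ℚ) : Prop :=
  ((∀ i, ∃ k : ℤ, lam i = k) ∨ (∀ i, ∃ k : ℤ, lam i = k + 1 / 2)) ∧
    ∀ i j : Fin n, i < j → |lam j| ≤ lam i

/-- The root lattice of type `D_n`. -/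
def InRootLattice {n : ℕ} (lam : Fin n → ℚ) : Prop :=
  ∃ x : Fin n → ℤ, (∀ i, lam i = x i) ∧ Even (∑ i, x i)

/-- `(V₁ ⊗ V₂ ⊗ V₃)^G ≠ 0`. -/
def HasInvariants {n : ℕ} (V₁ V₂ V₃ : Type*) [AddCommGroup V₁] [Module ℂ V₁]
    [LieRingModule (so n) V₁] [LieModule ℂ (so n) V₁] [AddCommGroup V₂] [Module ℂ V₂]
    [LieRingModule (so n) V₂] [LieModule ℂ (so n) V₂] [AddCommGroup V₃] [Module ℂ V₃]
    [LieRingModule (so n) V₃] [LieModule ℂ (so n) V₃] : Prop :=
  LieModule.maxTrivSubmodule ℂ (so n) (V₁ ⊗[ℂ] (V₂ ⊗[ℂ] V₃)) ≠ ⊥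

end Vale.Agent.P182
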