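import Vale.Agent.P182.H163.Square

/-!
# Doubling the weights (spin weights included)
-/

namespace Vale.Agent.P182

open scoped InnerProductSpace ComplexConjugate TensorProduct

variable {n : ℕ}

/-- Every dominant weight has a unitary module with a highest weight vector. -/
theorem exists_model {lam : Fin n → ℚ} (hl : IsDominant lam) :
    ∃ (E : Type) (_ : NormedAddCommGroup E) (_ : InnerProductSpace ℂ E)
      (_ : FiniteDimensional ℂ E) (_ : LieRingModule (so n) E) (_ : LieModule ℂ (so n) E),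
      IsUnitary (tau (n := n)) E ∧
      (∀ x ∈ rootSet n, IsNilpotent (LieModule.toEnd ℂ (so n) E x)) ∧
      ∃ v : E, v ≠ 0 ∧ IsHW (triD n) (chi lam) v := by
  obtain ⟨h | h, hdom⟩ := hl
  · choose k hk using h
    have hk' : lam = fun i => (k i : ℚ) := funext hk
    have hD : DomZ k := by
      intro i j hij
      have := hdom i j hij
      rw [hk i, hk j] at this
      exact_mod_cast this
    subst hk'
    exact ⟨TF (Cell k) (Fin n ⊕ Fin n), inferInstance, inferInstance, inferInstance,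
      inferInstance, inferInstance, tf_unitary, fun x hx => tf_nilp hx, asymM k 1,
      asymM_one_ne_zero k, asymM_isHW hD⟩
  · choose k hk using h
    let μ : Fin n → ℤ := fun i => if 0 ≤ k i then k i else k i + 1
    let S : Finset (Fin n) := Finset.univ.filter fun i => 0 ≤ k i
    have hS : ∀ i, i ∈ S ↔ 0 ≤ k i := fun i => by simp [S]
    have hpos : ∀ i j : Fin n, i < j → 0 ≤ k i := by
      intro i j hij
      have h1 := (abs_nonneg _).trans (hdom i j hij)
      rw [hk i] at h1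
      by_contra h2
      have h3 : k i ≤ -1 := by omega
      have h4 : (k i : ℚ) ≤ -1 := by exact_mod_cast h3
      linarith
    have hlast : ∀ i, i ∉ S → ∀ j, j ≤ i := by
      intro i hi j
      by_contra h2
      push Not at h2
      exact hi ((hS i).mpr (hpos i j h2))
    have hD : DomZ μ := by
      intro i j hij
      have h1 := hdom i j hij
      have h2 := hpos i j hij
      rw [hk i, hk j] at h1
      show |if 0 ≤ k j then k j else k j + 1| ≤ if 0 ≤ k i then k i else k i + 1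
      rw [if_pos h2]
      have h3 := (abs_le.mp h1).1
      have h4 := (abs_le.mp h1).2
      split_ifs with h5
      · rw [abs_of_nonneg h5]
        have : (k j : ℚ) ≤ k i := by linarith
        exact_mod_cast this
      · rw [abs_of_nonpos (by omega)]
        have : -(k i : ℚ) - 1 ≤ k j := by linarith
        have h6 : -(k i) - 1 ≤ k j := by exact_mod_cast this
        omega
    have hsum : lam = (fun i => (μ i : ℚ)) + spinWt S := by
      funext i
      rw [Pi.add_apply, hk i, spinWt]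
      show _ = ((if 0 ≤ k i then k i else k i + 1 : ℤ) : ℚ) + _
      by_cases h5 : 0 ≤ k i
      · rw [if_pos h5, if_pos ((hS i).mpr h5)]
      · rw [if_neg h5, if_neg (fun h => h5 ((hS i).mp h))]
        push_cast
        ring
    have hchi : chi lam = chi (fun i => (μ i : ℚ)) + chi (spinWt S) := by
      funext x
      rw [hsum, Pi.add_apply, chi, chi, chi, ← Finset.sum_add_distrib]
      refine Finset.sum_congr rfl fun i _ => ?_
      rw [Pi.add_apply]
      push_cast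
      ring
    refine ⟨TF (Cell μ) (Fin n ⊕ Fin n) ⊗[ℂ] Fock n, inferInstance, inferInstance, inferInstance,
      inferInstance, inferInstance, isUnitary_tensor tf_unitary fock_unitary,
      fun x hx => nilp_tensor (tf_nilp hx) (fock_nilp hx), asymM μ 1 ⊗ₜ[ℂ] fv S, ?_, ?_⟩
    · intro h0
      have h1 := congrArg (fun t => ⟪t, t⟫_ℂ) h0
      simp only [TensorProduct.inner_tmul] at h1
      rw [inner_zero_left, mul_eq_zero] at h1
      rcases h1 with h1 | h1
      · exact asymM_one_ne_zero μ (inner_self_eq_zero.mp h1)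
      · exact fv_ne_zero S (inner_self_eq_zero.mp h1)
    · rw [hchi]
      exact isHW_tmul _ (asymM_isHW hD) (fv_isHW hlast)

/-- Invariants for `(λ, μ, ν)` give invariants for `(2λ, 2μ, 2ν)`, spin weights included. -/
theorem hasInvariants_double (hn : 2 ≤ n) {lam : Fin 3 → Fin n → ℚ} (hl : ∀ s, IsDominant (lam s))
    {V₀ V₁ V₂ W₀ W₁ W₂ : Type*} [AddCommGroup V₀] [Module ℂ V₀]
    [LieRingModule (so n) V₀] [LieModule ℂ (so n) V₀] [AddCommGroup V₁] [Module ℂ V₁]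
    [LieRingModule (so n) V₁] [LieModule ℂ (so n) V₁] [AddCommGroup V₂] [Module ℂ V₂]
    [LieRingModule (so n) V₂] [LieModule ℂ (so n) V₂] [AddCommGroup W₀] [Module ℂ W₀]
    [LieRingModule (so n) W₀] [LieModule ℂ (so n) W₀] [AddCommGroup W₁] [Module ℂ W₁]
    [LieRingModule (so n) W₁] [LieModule ℂ (so n) W₁] [AddCommGroup W₂] [Module ℂ W₂]
    [LieRingModule (so n) W₂] [LieModule ℂ (so n) W₂]
    [LieModule.IsIrreducible ℂ (so n) V₀] [LieModule.IsIrreducible ℂ (so n) V₁]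
    [LieModule.IsIrreducible ℂ (so n) V₂] [LieModule.IsIrreducible ℂ (so n) W₀]
    [LieModule.IsIrreducible ℂ (so n) W₁] [LieModule.IsIrreducible ℂ (so n) W₂]
    (v₀ : HasHighestWeight (lam 0) V₀) (v₁ : HasHighestWeight (lam 1) V₁)
    (v₂ : HasHighestWeight (lam 2) V₂)
    (w₀ : HasHighestWeight (fun i => 2 * lam 0 i) W₀)
    (w₁ : HasHighestWeight (fun i => 2 * lam 1 i) W₁)
    (w₂ : HasHighestWeight (fun i => 2 * lam 2 i) W₂)
    (h : HasInvariants (n := n) V₀ V₁ V₂) : HasInvariants (n := n) W₀ W₁ W₂ := by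
  obtain ⟨E₀, i₀, j₀, k₀, l₀, m₀, u₀, n₀, a₀, z₀, H₀⟩ := exists_model (hl 0)
  obtain ⟨E₁, i₁, j₁, k₁, l₁, m₁, u₁, n₁, a₁, z₁, H₁⟩ := exists_model (hl 1)
  obtain ⟨E₂, i₂, j₂, k₂, l₂, m₂, u₂, n₂, a₂, z₂, H₂⟩ := exists_model (hl 2)
  obtain ⟨b₀, y₀, v₀⟩ := v₀
  obtain ⟨b₁, y₁, v₁⟩ := v₁
  obtain ⟨b₂, y₂, v₂⟩ := v₂
  obtain ⟨c₀, x₀, w₀⟩ := w₀
  obtain ⟨c₁, x₁, w₁⟩ := w₁
  obtain ⟨c₂, x₂, w₂⟩ := w₂
  rw [← isHW_iff] at v₀ v₁ v₂ w₀ w₁ w₂
  rw [HasInvariants, maxTriv_ne_bot_iff (τ := tau) u₀ u₁ u₂ tau_tau (triD n) H₀ H₁ H₂ z₀ z₁ z₂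
    v₀ v₁ v₂ y₀ y₁ y₂] at h
  obtain ⟨f, hf, hne⟩ := h
  obtain ⟨p, hp, q, hq, r, hr, hne⟩ := exists_orb_ne (rootSet n) (lieSpan_rootSet hn) n₀ n₁ n₂
    (triD n) H₀ H₁ H₂ f hne
  have hchi : ∀ s, chi (lam s) + chi (lam s) = chi (fun i => 2 * lam s i) := by
    intro s
    funext x
    rw [Pi.add_apply, chi, chi, ← Finset.sum_add_distrib]
    refine Finset.sum_congr rfl fun i _ => ?_
    push_cast
    ring
  have D₀ := isHW_tmul (triD n) H₀ H₀
  have D₁ := isHW_tmul (triD n) H₁ H₁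
  have D₂ := isHW_tmul (triD n) H₂ H₂
  rw [hchi] at D₀ D₁ D₂
  have hne0 : ∀ {E : Type} [NormedAddCommGroup E] [InnerProductSpace ℂ E] (v : E), v ≠ 0 →
      v ⊗ₜ[ℂ] v ≠ 0 := by
    intro E _ _ v hv h0
    have h1 : ⟪v ⊗ₜ[ℂ] v, v ⊗ₜ[ℂ] v⟫_ℂ = 0 := by rw [h0, inner_zero_left]
    rw [TensorProduct.inner_tmul, mul_self_eq_zero] at h1
    exact hv (inner_self_eq_zero.mp h1)
  rw [HasInvariants, maxTriv_ne_bot_iff (τ := tau) (isUnitary_tensor u₀ u₀)
    (isUnitary_tensor u₁ u₁) (isUnitary_tensor u₂ u₂) tau_tau (triD n) D₀ D₁ D₂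
    (hne0 a₀ z₀) (hne0 a₁ z₁) (hne0 a₂ z₂) w₀ w₁ w₂ x₀ x₁ x₂]
  refine ⟨sqF f, sqF_inv f hf, p ⊗ₜ[ℂ] p, ?_, q ⊗ₜ[ℂ] q, ?_, r ⊗ₜ[ℂ] r, ?_, ?_⟩
  · exact Orb.mem (rootSet n) (fun x hx => nilp_tensor (n₀ x hx) (n₀ x hx))
      (orb_sq _ n₀ hp) _ (self_mem_cyc _ _)
  · exact Orb.mem (rootSet n) (fun x hx => nilp_tensor (n₁ x hx) (n₁ x hx))
      (orb_sq _ n₁ hq) _ (self_mem_cyc _ _)
  · exact Orb.mem (rootSet n) (fun x hx => nilp_tensor (n₂ x hx) (n₂ x hx))
      (orb_sq _ n₂ hr) _ (self_mem_cyc _ _)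
  · rw [sqF_apply]
    exact mul_ne_zero hne hne

end Vale.Agent.P182
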