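import Vale.Agent.P182.H163.Base3
import Vale.Agent.P182.H163.Double

/-!
# Saturation factor two from `T` on the class `E'`
-/

namespace Vale.Agent.P182

open Module Matrix LieAlgebra.Orthogonal Vale.Agent.P182.H533

section paired

variable {n : ℕ}

theorem lt_ncol {lam : Fin n → ℤ} {c : ℕ} : c < ncol lam ↔ ∃ i, c < (lam i).natAbs := by
  rw [ncol, Finset.lt_sup_iff]
  simp

/-- the partner of a column number -/
def pn (p c : ℕ) : ℕ := if (c + p) % 2 = 0 then c + 1 else c - 1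

theorem pn_lt_iff {p c a : ℕ} (h : (a + p) % 2 = 0) (hc : p = 1 → 0 < c) (hp : p < 2) :
    pn p c < a ↔ c < a := by
  have h4 : p = 0 ∨ (p = 1 ∧ 0 < c) := by
    by_cases hp1 : p = 1
    · exact Or.inr ⟨hp1, hc hp1⟩
    · exact Or.inl (by omega)
  rw [pn]
  split_ifs <;> omega

/-- the parity classes: all entries even, or two arms with odd entries -/
structure ParE (lam : Fin 3 → Fin n → ℤ) where
  p : Fin 3 → ℕ
  τ : Fin 3 → Fin 3
  hp : ∀ s, p s < 2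
  even : ∀ s i, ((lam s i).natAbs + p s) % 2 = 0
  inv : ∀ s, τ (τ s) = s
  ne : ∀ s, p s = 1 → τ s ≠ s
  odd : ∀ s, p s = 1 → p (τ s) = 1
  two : ∀ s s', p s = 1 → p s' = 1 → s' = s ∨ s' = τ s

variable {lam : Fin 3 → Fin n → ℤ}

/-- the arm of the partner -/
def ParE.f1 (P : ParE lam) (s : Fin 3) (c : ℕ) : Fin 3 := if P.p s = 1 ∧ c = 0 then P.τ s else s

/-- the number of the partner -/
def ParE.f2 (P : ParE lam) (s : Fin 3) (c : ℕ) : ℕ := pn (P.p s) c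

theorem ParE.f_of_eq (P : ParE lam) {s : Fin 3} {c : ℕ} (h : P.p s = 1 ∧ c = 0) :
    P.f1 s c = P.τ s ∧ P.f2 s c = 0 := by
  rw [f1, f2, if_pos h, h.1, h.2, pn]
  exact ⟨rfl, rfl⟩

theorem ParE.f_of_ne (P : ParE lam) {s : Fin 3} {c : ℕ} (h : ¬ (P.p s = 1 ∧ c = 0)) :
    P.f1 s c = s := if_neg h

theorem ParE.ff (P : ParE lam) (s : Fin 3) (c : ℕ) :
    P.f1 (P.f1 s c) (P.f2 s c) = s ∧ P.f2 (P.f1 s c) (P.f2 s c) = c := by
  by_cases h : P.p s = 1 ∧ c = 0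
  · obtain ⟨h1, h2⟩ := P.f_of_eq h
    rw [h1, h2]
    obtain ⟨h3, h4⟩ := P.f_of_eq (s := P.τ s) (c := 0) ⟨P.odd _ h.1, rfl⟩
    rw [h3, h4, P.inv]
    exact ⟨rfl, h.2.symm⟩
  · rw [P.f_of_ne h]
    have hp := P.hp s
    have h4 : P.p s = 0 ∨ (P.p s = 1 ∧ c ≠ 0) := by omega
    have h2 : P.f2 s (P.f2 s c) = c := by
      rw [f2, f2]
      rcases h4 with h4 | ⟨h4, h5⟩
      · rw [h4, pn, pn]
        split_ifs <;> omega
      · rw [h4, pn, pn]
        split_ifs <;> omega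
    refine ⟨P.f_of_ne ?_, h2⟩
    rintro ⟨h5, h6⟩
    rw [h6, f2, h5, pn] at h2
    apply h
    refine ⟨h5, ?_⟩
    simpa using h2.symm

theorem ParE.f_ne (P : ParE lam) (s : Fin 3) (c : ℕ) (h : P.f1 s c = s) : P.f2 s c ≠ c := by
  intro h0
  by_cases h' : P.p s = 1 ∧ c = 0
  · rw [(P.f_of_eq h').1] at h
    exact P.ne _ h'.1 h
  · rw [f2, pn] at h0
    have hp := P.hp s
    split_ifs at h0 <;> omega

/-- the pairing of the columns -/
def ParE.σ (P : ParE lam) (hn : 0 < n) (l : ColT lam) : ColT lam :=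
  ⟨P.f1 l.1 l.2, ⟨P.f2 l.1 l.2, by
    rw [lt_ncol]
    by_cases h : P.p l.1 = 1 ∧ (l.2 : ℕ) = 0
    · obtain ⟨h1, h2⟩ := P.f_of_eq h
      rw [h1, h2]
      refine ⟨⟨0, hn⟩, ?_⟩
      have h3 := P.even (P.τ l.1) ⟨0, hn⟩
      rw [P.odd l.1 h.1] at h3
      omega
    · rw [P.f_of_ne h]
      obtain ⟨i, hi⟩ := lt_ncol.mp l.2.2
      refine ⟨i, (pn_lt_iff (P.even _ _) (fun h1 => ?_) (P.hp _)).mpr hi⟩
      by_contra h2
      exact h ⟨h1, by omega⟩⟩⟩

theorem ColT_ext {l k : ColT lam} (h1 : l.1 = k.1) (h2 : (l.2 : ℕ) = k.2) : l = k := by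
  obtain ⟨s, c, hc⟩ := l
  obtain ⟨s', c', hc'⟩ := k
  simp only at h1 h2
  subst h1
  subst h2
  rfl

theorem ParE.σσ (P : ParE lam) (hn : 0 < n) (l : ColT lam) : P.σ hn (P.σ hn l) = l :=
  ColT_ext (P.ff l.1 l.2).1 (P.ff l.1 l.2).2

theorem ParE.σ_ne (P : ParE lam) (hn : 0 < n) (l : ColT lam) : P.σ hn l ≠ l := by
  intro h0
  have h1 : P.f1 l.1 l.2 = l.1 := congrArg Sigma.fst h0
  have h2 : ((P.σ hn l).2 : ℕ) = l.2 := by
    have : ∀ {x y : ColT lam}, x = y → (x.2 : ℕ) = y.2 := by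
      rintro x y rfl; rfl
    exact this h0
  exact P.f_ne _ _ h1 h2

/-- membership in a column -/
theorem mem_col {l : ColT lam} {i : Fin n} {s : Fin 3} {c : ℕ} (h1 : l.1 = s)
    (h2 : (l.2 : ℕ) = c) : (l.2 : ℕ) < (lam l.1 i).natAbs ↔ c < (lam s i).natAbs := by
  subst h1
  rw [h2]

variable {L : Type*} [Field L]

/-- The configuration of a triple of weights in the class `E'` is paired. -/
theorem wCfg_paired (hn : 0 < n)
    {g : Fin 3 → Matrix (Fin n ⊕ Fin n) (Fin n ⊕ Fin n) L}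
    (hg : ∀ s, (g s).transpose * JD (Fin n) L * g s = JD (Fin n) L)
    (Ω : ColT lam → ColT lam → L) (P : ParE lam) : (wCfg lam g Ω).Paired := by
  have hcr : ∀ l : ColT lam, (P.σ hn l).1 ≠ l.1 → P.p l.1 = 1 ∧ (l.2 : ℕ) = 0 := by
    intro l hl
    by_contra h
    exact hl (P.f_of_ne h)
  refine ⟨P.σ hn, ⟨P.σσ hn, P.σ_ne hn, fun l h1 => ?_, fun l h1 => ?_, fun l k h1 h2 => ?_⟩⟩
  · have h1' : (P.σ hn l).1 = l.1 := h1
    have h : ¬ (P.p l.1 = 1 ∧ (l.2 : ℕ) = 0) := by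
      intro h
      have h2 : (P.σ hn l).1 = P.τ l.1 := (P.f_of_eq h).1
      exact P.ne _ h.1 (h2.symm.trans h1')
    show ht lam (P.σ hn l) = ht lam l
    rw [ht, ht]
    congr 1
    ext i
    rw [Finset.mem_filter, Finset.mem_filter, mem_col h1' rfl]
    refine and_congr_right fun _ => pn_lt_iff (P.even _ _) (fun h3 => ?_) (P.hp _)
    by_contra h2
    exact h ⟨h3, by omega⟩
  · have h := hcr l h1
    have htop : ht lam l = n := by
      rw [ht, h.2, Finset.filter_true_of_mem, Finset.card_univ, Fintype.card_fin]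
      intro i _
      have := P.even l.1 i
      rw [h.1] at this
      omega
    have h5 : perp (qB n L) ((wCfg lam g Ω).C l) = (wCfg lam g Ω).C l :=
      perp_Fl_top (frm_indep hg l.1) (frm_iso hg l.1) htop
    have h6 := H62.finrank_perp (H922.isForm_qB (n := n) (L := L)) ((wCfg lam g Ω).C l)
    rw [h5] at h6
    omega
  · have h3 := hcr l h1
    have h4 := hcr k h2
    rcases P.two _ _ h3.1 h4.1 with h5 | h5
    · exact Or.inl (ColT_ext h5 (h4.2.trans h3.2.symm))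
    · refine Or.inr (ColT_ext ?_ ?_)
      · exact h5.trans (P.f_of_eq h3).1.symm
      · exact h4.2.trans (P.f_of_eq h3).2.symm

end paired

end Vale.Agent.P182
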