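import Vale.Agent.P182.H163.Factor2

/-!
# Saturation factor two from `T`: final assembly
-/

namespace Vale.Agent.P182

open Module Matrix LieAlgebra.Orthogonal Vale.Agent.P182.H533

attribute [local instance 100] LieRing.ofAssociativeRing

/-- The statement `T` on the class `E'`. -/
def TAll : Prop :=
  ∀ (L : Type) [Field L] [IsAlgClosed L] [CharZero L] (J : Type) [Fintype J] [DecidableEq J]
    (V : Type) [AddCommGroup V] [Module L V] [FiniteDimensional L V] (𝒟 : B1.Cfg L V J),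
    𝒟.Good → 𝒟.Versal → 𝒟.Rich → 𝒟.Paired → 𝒟.T

section final

variable {n : ℕ}

/-- Every dominant weight is the highest weight of an irreducible module. -/
theorem exists_irred {lam : Fin n → ℚ} (hl : IsDominant lam) :
    ∃ (E : Type) (_ : AddCommGroup E) (_ : Module ℂ E)
      (_ : LieRingModule (so n) E) (_ : LieModule ℂ (so n) E),
      LieModule.IsIrreducible ℂ (so n) E ∧ HasHighestWeight lam E := by
  obtain ⟨E₀, i₀, j₀, k₀, l₀, m₀, u₀, n₀, a₀, z₀, H₀⟩ := exists_model hl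
  refine ⟨cyc (triD n) H₀, inferInstance, inferInstance, inferInstance, inferInstance,
    cyc_irred u₀ tau_tau (triD n) H₀ z₀, ⟨⟨a₀, self_mem_cyc _ H₀⟩, ?_, ?_, ?_⟩⟩
  · intro h
    exact z₀ (congrArg Subtype.val h)
  · intro a
    apply Subtype.ext
    exact ((isHW_iff lam a₀).mp H₀).1 a
  · intro x hx
    apply Subtype.ext
    exact ((isHW_iff lam a₀).mp H₀).2 x hx

theorem IsDominant.smul {lam : Fin n → ℚ} (hl : IsDominant lam) (N : ℕ) :
    IsDominant fun i => (N : ℚ) * lam i := by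
  obtain ⟨h, hd⟩ := hl
  constructor
  · rcases h with h | h
    · choose k hk using h
      exact Or.inl fun i => ⟨N * k i, by simp only [hk]; push_cast; ring⟩
    · choose k hk using h
      rcases Nat.even_or_odd' N with ⟨m, rfl | rfl⟩
      · exact Or.inl fun i => ⟨m * (2 * k i + 1), by simp only [hk]; push_cast; ring⟩
      · exact Or.inr fun i => ⟨(2 * m + 1) * k i + m, by simp only [hk]; push_cast; ring⟩
  · intro i j hij
    rw [abs_mul, Nat.abs_cast]
    exact mul_le_mul_of_nonneg_left (hd i j hij) (Nat.cast_nonneg N)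

/-- **Saturation factor two** for all weights of `Spin(2n)`, from `T` on `E'`. -/
theorem factor_two_of_T (hT : TAll) (hn : 2 ≤ n) {lam : Fin 3 → Fin n → ℚ}
    (hl : ∀ s, IsDominant (lam s)) (hQ : InRootLattice (lam 0 + lam 1 + lam 2))
    {N : ℕ} (hN : 0 < N)
    {V₀ V₁ V₂ W₀ W₁ W₂ : Type*} [AddCommGroup V₀] [Module ℂ V₀]
    [LieRingModule (so n) V₀] [LieModule ℂ (so n) V₀] [AddCommGroup V₁] [Module ℂ V₁]
    [LieRingModule (so n) V₁] [LieModule ℂ (so n) V₁] [AddCommGroup V₂] [Module ℂ V₂]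
    [LieRingModule (so n) V₂] [LieModule ℂ (so n) V₂] [AddCommGroup W₀] [Module ℂ W₀]
    [LieRingModule (so n) W₀] [LieModule ℂ (so n) W₀] [AddCommGroup W₁] [Module ℂ W₁]
    [LieRingModule (so n) W₁] [LieModule ℂ (so n) W₁] [AddCommGroup W₂] [Module ℂ W₂]
    [LieRingModule (so n) W₂] [LieModule ℂ (so n) W₂]
    [LieModule.IsIrreducible ℂ (so n) V₀] [LieModule.IsIrreducible ℂ (so n) V₁]
    [LieModule.IsIrreducible ℂ (so n) V₂] [LieModule.IsIrreducible ℂ (so n) W₀]
    [LieModule.IsIrreducible ℂ (so n) W₁] [LieModule.IsIrreducible ℂ (so n) W₂]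
    (v₀ : HasHighestWeight (fun i => 2 * lam 0 i) V₀)
    (v₁ : HasHighestWeight (fun i => 2 * lam 1 i) V₁)
    (v₂ : HasHighestWeight (fun i => 2 * lam 2 i) V₂)
    (w₀ : HasHighestWeight (fun i => N * lam 0 i) W₀)
    (w₁ : HasHighestWeight (fun i => N * lam 1 i) W₁)
    (w₂ : HasHighestWeight (fun i => N * lam 2 i) W₂)
    (h : HasInvariants (n := n) W₀ W₁ W₂) : HasInvariants (n := n) V₀ V₁ V₂ := by
  classical
  have hn0 : 0 < n := by omega
  -- integral form of the doubled weights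
  have hmu : ∀ s, ∃ p : ℕ, p < 2 ∧ ∃ mu : Fin n → ℤ, (∀ i, 2 * lam s i = mu i) ∧
      ∀ i, ((mu i).natAbs + p) % 2 = 0 := by
    intro s
    rcases (hl s).1 with h | h
    · choose k hk using h
      refine ⟨0, by norm_num, fun i => 2 * k i, fun i => by rw [hk]; push_cast; ring, fun i => ?_⟩
      simp only
      omega
    · choose k hk using h
      refine ⟨1, by norm_num, fun i => 2 * k i + 1, fun i => by rw [hk]; push_cast; ring,
        fun i => ?_⟩
      simp only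
      omega
  choose p hp mu hmu heven using hmu
  have hD : ∀ s, DomZ (mu s) := by
    intro s i j hij
    have h1 := (hl s).2 i j hij
    have h2 := hmu s i
    have h3 := hmu s j
    have h4 : |(mu s j : ℚ)| ≤ mu s i := by
      rw [← h2, ← h3, abs_mul, abs_of_nonneg (by norm_num : (0 : ℚ) ≤ 2)]
      exact mul_le_mul_of_nonneg_left h1 (by norm_num)
    exact_mod_cast h4
  -- parity of the number of half-integral weights
  have hpar : (p 0 + p 1 + p 2) % 2 = 0 := by
    obtain ⟨x, hx, -⟩ := hQ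
    have h1 := hx ⟨0, hn0⟩
    simp only [Pi.add_apply] at h1
    have h2 : (mu 0 ⟨0, hn0⟩ + mu 1 ⟨0, hn0⟩ + mu 2 ⟨0, hn0⟩ : ℤ) = 2 * x ⟨0, hn0⟩ := by
      have : ((mu 0 ⟨0, hn0⟩ + mu 1 ⟨0, hn0⟩ + mu 2 ⟨0, hn0⟩ : ℤ) : ℚ) =
          ((2 * x ⟨0, hn0⟩ : ℤ) : ℚ) := by
        push_cast
        rw [← hmu, ← hmu, ← hmu, ← h1]
        ring
      exact_mod_cast this
    have e0 := heven 0 ⟨0, hn0⟩
    have e1 := heven 1 ⟨0, hn0⟩
    have e2 := heven 2 ⟨0, hn0⟩
    omega
  have hP : Nonempty (ParE mu) := by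
    have h0 := hp 0
    have h1 := hp 1
    have h2 := hp 2
    have h3 : (p 0 = 0 ∧ p 1 = 0 ∧ p 2 = 0) ∨ (p 0 = 1 ∧ p 1 = 1 ∧ p 2 = 0) ∨
        (p 0 = 1 ∧ p 1 = 0 ∧ p 2 = 1) ∨ (p 0 = 0 ∧ p 1 = 1 ∧ p 2 = 1) := by omega
    rcases h3 with ⟨a, b, c⟩ | ⟨a, b, c⟩ | ⟨a, b, c⟩ | ⟨a, b, c⟩
    · exact ⟨⟨p, id, hp, heven, fun _ => rfl, fun s hs => by fin_cases s <;> simp_all,
        fun s hs => hs, fun s s' hs hs' => by fin_cases s <;> simp_all⟩⟩
    · exact ⟨⟨p, ![1, 0, 2], hp, heven, fun s => by fin_cases s <;> rfl,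
        fun s hs => by fin_cases s <;> simp_all, fun s hs => by fin_cases s <;> simp_all,
        fun s s' hs hs' => by fin_cases s <;> fin_cases s' <;> simp_all⟩⟩
    · exact ⟨⟨p, ![2, 1, 0], hp, heven, fun s => by fin_cases s <;> rfl,
        fun s hs => by fin_cases s <;> simp_all, fun s hs => by fin_cases s <;> simp_all,
        fun s s' hs hs' => by fin_cases s <;> fin_cases s' <;> simp_all⟩⟩
    · exact ⟨⟨p, ![0, 2, 1], hp, heven, fun s => by fin_cases s <;> rfl,
        fun s hs => by fin_cases s <;> simp_all, fun s hs => by fin_cases s <;> simp_all,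
        fun s s' hs hs' => by fin_cases s <;> fin_cases s' <;> simp_all⟩⟩
  obtain ⟨P⟩ := hP
  -- modules with the doubled weights
  have hdom2 : ∀ s, IsDominant fun i => ((N : ℤ) * mu s i : ℤ) := by
    intro s
    have h1 : (fun i => (((N : ℤ) * mu s i : ℤ) : ℚ)) = fun i => ((2 * N : ℕ) : ℚ) * lam s i := by
      funext i
      push_cast
      rw [← hmu]
      ring
    rw [h1]
    exact (hl s).smul _
  obtain ⟨U₀, a₀, b₀, c₀, d₀, e₀, f₀⟩ := exists_irred (hdom2 0)
  obtain ⟨U₁, a₁, b₁, c₁, d₁, e₁, f₁⟩ := exists_irred (hdom2 1)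
  obtain ⟨U₂, a₂, b₂, c₂, d₂, e₂, f₂⟩ := exists_irred (hdom2 2)
  have hw : ∀ s, (fun i => 2 * ((N : ℚ) * lam s i)) = fun i => (((N : ℤ) * mu s i : ℤ) : ℚ) := by
    intro s
    funext i
    push_cast
    rw [← hmu]
    ring
  have hU : HasInvariants (n := n) U₀ U₁ U₂ := by
    refine hasInvariants_double hn (lam := fun s i => (N : ℚ) * lam s i)
      (fun s => (hl s).smul N) w₀ w₁ w₂ ?_ ?_ ?_ h
    · show HasHighestWeight (fun i => 2 * ((N : ℚ) * lam 0 i)) U₀
      rw [hw]; exact f₀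
    · show HasHighestWeight (fun i => 2 * ((N : ℚ) * lam 1 i)) U₁
      rw [hw]; exact f₁
    · show HasHighestWeight (fun i => 2 * ((N : ℚ) * lam 2 i)) U₂
      rw [hw]; exact f₂
  have hv : ∀ s, (fun i => 2 * lam s i) = fun i => ((mu s i : ℤ) : ℚ) := fun s =>
    funext fun i => hmu s i
  rw [hv] at v₀ v₁ v₂
  refine hasInvariants_of_T hn hD (fun l hlr => ?_) hN v₀ v₁ v₂ f₀ f₁ f₂ hU
  have hg := fun s => gK_orth (C := ColT mu) (gword_root hlr) s
  exact hT _ _ _ _ (bCfg_good hlr) (bCfg_versal hn hlr) (bCfg_rich hlr)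
    (wCfg_paired hn0 hg ΩK P)

end final

end Vale.Agent.P182
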