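import Vale.Agent.P182.H163.Triple

/-!
# Invariants in terms of coefficient functions
-/

namespace Vale.Agent.P182

open scoped InnerProductSpace ComplexConjugate TensorProduct

section dual

variable {J B : Type*} [Fintype J] [Fintype B] [DecidableEq J]

theorem slot_dl (j : J) (x : Matrix B B ℂ) (γ : J → B) :
    slot j x (dl γ) = ∑ b, x b (γ j) • dl (Function.update γ j b) := by
  apply tf_ext
  intro β
  rw [slot_apply, WithLp.ofLp_sum, Finset.sum_apply]
  by_cases h : ∀ k, k ≠ j → β k = γ k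
  · have h1 : Function.update γ j (β j) = β := by
      funext k
      by_cases hk : k = j
      · subst hk; simp
      · rw [Function.update_of_ne hk, h k hk]
    have h2 : Function.update β j (γ j) = γ := by
      funext k
      by_cases hk : k = j
      · subst hk; simp
      · rw [Function.update_of_ne hk, h k hk]
    rw [Finset.sum_eq_single (γ j), Finset.sum_eq_single (β j)]
    · rw [h1, h2, dl_self, WithLp.ofLp_smul, Pi.smul_apply, dl_self, smul_eq_mul]
    · intro b _ hb
      rw [WithLp.ofLp_smul, Pi.smul_apply, dl_ne, smul_zero]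
      intro e
      apply hb
      rw [e, Function.update_self]
    · intro h; exact absurd (Finset.mem_univ _) h
    · intro b _ hb
      rw [dl_ne, mul_zero]
      intro e
      apply hb
      rw [← e, Function.update_self]
    · intro h; exact absurd (Finset.mem_univ _) h
  · push Not at h
    obtain ⟨k, hk, hk'⟩ := h
    rw [Finset.sum_eq_zero, Finset.sum_eq_zero]
    · intro b _
      rw [WithLp.ofLp_smul, Pi.smul_apply, dl_ne, smul_zero]
      intro e
      apply hk'
      rw [e, Function.update_of_ne hk]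
    · intro b _
      rw [dl_ne, mul_zero]
      intro e
      apply hk'
      rw [← e, Function.update_of_ne hk]

/-- A coefficient function is invariant. -/
def InvF {n : ℕ} {J : Type*} [Fintype J] [DecidableEq J] (f : (J → Fin n ⊕ Fin n) → ℂ) : Prop :=
  ∀ x : so n, ∀ γ : J → Fin n ⊕ Fin n,
    ∑ j, ∑ b, x.1 b (γ j) * f (Function.update γ j b) = 0

/-- functional from coefficients -/
noncomputable def toFun' (f : (J → B) → ℂ) : TF J B →ₗ[ℂ] ℂ where
  toFun h := ∑ β, f β * h β
  map_add' h h' := by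
    rw [← Finset.sum_add_distrib]
    exact Finset.sum_congr rfl fun β _ => by rw [PiLp.add_apply, mul_add]
  map_smul' c h := by
    rw [RingHom.id_apply, smul_eq_mul, Finset.mul_sum]
    exact Finset.sum_congr rfl fun β _ => by rw [PiLp.smul_apply, smul_eq_mul]; ring

theorem toFun'_apply (f : (J → B) → ℂ) (h : TF J B) : toFun' f h = ∑ β, f β * h β := rfl

theorem toFun'_dl (f : (J → B) → ℂ) (β : J → B) : toFun' f (dl β) = f β := by
  rw [toFun'_apply, Finset.sum_eq_single β]
  · rw [dl_self, mul_one]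
  · intro γ _ hγ
    rw [dl_ne hγ, mul_zero]
  · intro h; exact absurd (Finset.mem_univ _) h

theorem eq_toFun' (F : TF J B →ₗ[ℂ] ℂ) : F = toFun' fun β => F (dl β) := by
  refine LinearMap.ext fun h => ?_
  conv_lhs => rw [expand_dl h, map_sum]
  rw [toFun'_apply]
  exact Finset.sum_congr rfl fun β _ => by rw [map_smul, smul_eq_mul, mul_comm]

theorem invF_iff {n : ℕ} {J : Type*} [Fintype J] [DecidableEq J]
    (F : TF J (Fin n ⊕ Fin n) →ₗ[ℂ] ℂ) :
    (∀ (x : so n) h, F (act x.1 h) = 0) ↔ InvF (n := n) fun β => F (dl β) := by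
  have key : ∀ (x : so n) (γ : J → Fin n ⊕ Fin n), F (act x.1 (dl γ)) =
      ∑ j, ∑ b, x.1 b (γ j) * F (dl (Function.update γ j b)) := by
    intro x γ
    rw [act, LinearMap.sum_apply, map_sum]
    refine Finset.sum_congr rfl fun j _ => ?_
    rw [slot_dl, map_sum]
    exact Finset.sum_congr rfl fun b _ => by rw [map_smul, smul_eq_mul]
  constructor
  · intro h x γ
    rw [← key, h]
  · intro h x u
    rw [expand_dl u, map_sum, map_sum]
    refine Finset.sum_eq_zero fun γ _ => ?_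
    rw [map_smul, map_smul, key, h, smul_zero]

end dual

section cells

variable {n : ℕ}

/-- the columns of three weights -/
abbrev ColT (lam : Fin 3 → Fin n → ℤ) := Σ s : Fin 3, Fin (ncol (lam s))

/-- the rows of a column -/
abbrev RowT (lam : Fin 3 → Fin n → ℤ) (l : ColT lam) := Col (lam l.1) l.2

/-- all cells -/
abbrev CellT (lam : Fin 3 → Fin n → ℤ) := Σ l : ColT lam, RowT lam l

/-- splitting the cells -/
def cellEquiv (lam : Fin 3 → Fin n → ℤ) :
    Cell (lam 0) ⊕ (Cell (lam 1) ⊕ Cell (lam 2)) ≃ CellT lam where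
  toFun := fun j => match j with
    | Sum.inl j => ⟨⟨0, j.1⟩, j.2⟩
    | Sum.inr (Sum.inl j) => ⟨⟨1, j.1⟩, j.2⟩
    | Sum.inr (Sum.inr j) => ⟨⟨2, j.1⟩, j.2⟩
  invFun := fun j => match j with
    | ⟨⟨0, c⟩, i⟩ => Sum.inl ⟨c, i⟩
    | ⟨⟨1, c⟩, i⟩ => Sum.inr (Sum.inl ⟨c, i⟩)
    | ⟨⟨2, c⟩, i⟩ => Sum.inr (Sum.inr ⟨c, i⟩)
  left_inv := by
    rintro (j | j | j) <;> rfl
  right_inv := by
    rintro ⟨⟨s, c⟩, i⟩
    fin_cases s <;> rfl

/-- The product of the minors of the frames. -/
noncomputable def asymT {K : Type*} [CommRing K] (lam : Fin 3 → Fin n → ℤ)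
    (g : Fin 3 → Matrix (Fin n ⊕ Fin n) (Fin n ⊕ Fin n) K)
    (β : CellT lam → Fin n ⊕ Fin n) : K :=
  ∏ l : ColT lam, (Matrix.of fun i' i : RowT lam l => g l.1 (β ⟨l, i'⟩) (fr (lam l.1) i.1)).det

theorem asymT_eq (lam : Fin 3 → Fin n → ℤ)
    (g : Fin 3 → Matrix (Fin n ⊕ Fin n) (Fin n ⊕ Fin n) ℂ) (β : CellT lam → Fin n ⊕ Fin n) :
    asymT lam g β = pr3 (asymM (lam 0) (g 0)) (asymM (lam 1) (g 1)) (asymM (lam 2) (g 2))
      (β ∘ cellEquiv lam) := by
  rw [asymT, Fintype.prod_sigma, Fin.prod_univ_three, pr3_apply, ← mul_assoc]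
  rfl

/-- **Bridge 2.** -/
theorem hasInvariants_iff_form (hn : 2 ≤ n) {lam : Fin 3 → Fin n → ℤ} (hl : ∀ s, DomZ (lam s))
    {V₀ V₁ V₂ : Type*} [AddCommGroup V₀] [Module ℂ V₀]
    [LieRingModule (so n) V₀] [LieModule ℂ (so n) V₀] [AddCommGroup V₁] [Module ℂ V₁]
    [LieRingModule (so n) V₁] [LieModule ℂ (so n) V₁] [AddCommGroup V₂] [Module ℂ V₂]
    [LieRingModule (so n) V₂] [LieModule ℂ (so n) V₂]
    [LieModule.IsIrreducible ℂ (so n) V₀] [LieModule.IsIrreducible ℂ (so n) V₁]
    [LieModule.IsIrreducible ℂ (so n) V₂]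
    (w₀ : HasHighestWeight (fun i => (lam 0 i : ℚ)) V₀)
    (w₁ : HasHighestWeight (fun i => (lam 1 i : ℚ)) V₁)
    (w₂ : HasHighestWeight (fun i => (lam 2 i : ℚ)) V₂) :
    HasInvariants (n := n) V₀ V₁ V₂ ↔
      ∃ f : (CellT lam → Fin n ⊕ Fin n) → ℂ, InvF f ∧
        ∃ g : Fin 3 → Matrix (Fin n ⊕ Fin n) (Fin n ⊕ Fin n) ℂ, (∀ s, InE n (g s)) ∧
          ∑ β, f β * asymT lam g β ≠ 0 := by
  rw [hasInvariants_iff hn (hl 0) (hl 1) (hl 2) w₀ w₁ w₂]
  set e := cellEquiv lam with he
  -- transport of invariance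
  have hinv : ∀ F : TF (Cell (lam 0) ⊕ (Cell (lam 1) ⊕ Cell (lam 2))) (Fin n ⊕ Fin n) →ₗ[ℂ] ℂ,
      InvF (n := n) (fun β => F (dl β)) ↔
      InvF (n := n) (fun β : CellT lam → Fin n ⊕ Fin n => F (dl (β ∘ e))) := by
    intro F
    constructor
    · intro h x γ
      rw [← h x (γ ∘ e)]
      refine (Fintype.sum_equiv e _ _ fun j => ?_).symm
      refine Finset.sum_congr rfl fun b _ => ?_
      rw [Function.comp_apply]
      congr 3
      funext k
      by_cases hk : k = j
      · subst hk; simp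
      · rw [Function.update_of_ne hk, Function.comp_apply, Function.comp_apply,
          Function.update_of_ne (fun h => hk (e.injective h))]
    · intro h x γ
      rw [← h x (γ ∘ e.symm)]
      refine Fintype.sum_equiv e _ _ fun j => ?_
      refine Finset.sum_congr rfl fun b _ => ?_
      rw [Function.comp_apply, Equiv.symm_apply_apply]
      congr 3
      funext k
      by_cases hk : k = j
      · subst hk; simp
      · rw [Function.update_of_ne hk, Function.comp_apply,
          Function.update_of_ne (fun h => hk (e.injective h)), Function.comp_apply,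
          Equiv.symm_apply_apply]
  have hval : ∀ (F : TF (Cell (lam 0) ⊕ (Cell (lam 1) ⊕ Cell (lam 2))) (Fin n ⊕ Fin n) →ₗ[ℂ] ℂ)
      (g : Fin 3 → Matrix (Fin n ⊕ Fin n) (Fin n ⊕ Fin n) ℂ),
      F (pr3 (asymM (lam 0) (g 0)) (asymM (lam 1) (g 1)) (asymM (lam 2) (g 2))) =
      ∑ β : CellT lam → Fin n ⊕ Fin n, F (dl (β ∘ e)) * asymT lam g β := by
    intro F g
    conv_lhs => rw [eq_toFun' F, toFun'_apply]
    refine Fintype.sum_equiv (e.arrowCongr (Equiv.refl _)) _ _ fun β => ?_
    rw [asymT_eq]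
    have : (e.arrowCongr (Equiv.refl (Fin n ⊕ Fin n))) β ∘ e = β := by
      funext k
      simp
    rw [← he, this]
  constructor
  · rintro ⟨F, hF, g₀, g₁, g₂, e₀, e₁, e₂, hne⟩
    refine ⟨fun β => F (dl (β ∘ e)), (hinv F).mp ((invF_iff F).mp hF), ![g₀, g₁, g₂], ?_, ?_⟩
    · intro s
      fin_cases s
      · exact e₀
      · exact e₁
      · exact e₂
    · rw [← hval]
      exact hne
  · rintro ⟨f, hf, g, hg, hne⟩
    let F : TF (Cell (lam 0) ⊕ (Cell (lam 1) ⊕ Cell (lam 2))) (Fin n ⊕ Fin n) →ₗ[ℂ] ℂ :=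
      toFun' fun β => f (β ∘ e.symm)
    have hFf : ∀ β : CellT lam → Fin n ⊕ Fin n, F (dl (β ∘ e)) = f β := by
      intro β
      rw [toFun'_dl]
      congr 1
      funext k
      simp
    refine ⟨F, (invF_iff F).mpr ((hinv F).mpr ?_), g 0, g 1, g 2, hg 0, hg 1, hg 2, ?_⟩
    · simp only [hFf]
      exact hf
    · rw [hval]
      simp only [hFf]
      exact hne

end cells

end Vale.Agent.P182
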