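import Mathlib.RingTheory.Derivation.Basic
import Mathlib.Algebra.TrivSqZeroExt.Basic
import Mathlib.RingTheory.Localization.FractionRing
import Mathlib.Algebra.MvPolynomial.Derivation
import Mathlib.Algebra.MvPolynomial.Funext

/-!
# Extension of derivations to fraction fields
-/

namespace Vale.Agent.P182

variable {k R L : Type*} [CommRing k] [CommRing R] [Algebra k R] [Field L]
  [Algebra R L] [Algebra k L] [IsScalarTower k R L] [IsFractionRing R L]

open TrivSqZeroExt

/-- A derivation with values in the fraction field extends to the fraction field. -/
theorem exists_derivation_extend (D : Derivation k R L) :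
    ∃ D' : Derivation k L L, ∀ r : R, D' (algebraMap R L r) = D r := by
  let f : R →+* TrivSqZeroExt L L :=
    { toFun := fun r => inl (algebraMap R L r) + inr (D r)
      map_one' := by
        simp
      map_mul' := fun a b => by
        ext
        · simp
        · simp [Algebra.smul_def]
          ring
      map_zero' := by simp
      map_add' := fun a b => by
        ext
        · simp
        · simp }
  have hf : ∀ r : R, f r = inl (algebraMap R L r) + inr (D r) := fun r => rfl
  have hu : ∀ y : nonZeroDivisors R, IsUnit (f y) := by
    intro y
    rw [TrivSqZeroExt.isUnit_iff_isUnit_fst, hf]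
    simp only [fst_add, fst_inl, fst_inr, add_zero]
    exact IsLocalization.map_units L y
  let F : L →+* TrivSqZeroExt L L := IsLocalization.lift hu
  have hF : ∀ r : R, F (algebraMap R L r) = f r := fun r => IsLocalization.lift_eq hu r
  have hfst : ∀ x : L, (F x).fst = x := by
    have h1 : ((fstHom L L L : TrivSqZeroExt L L →ₐ[L] L) : TrivSqZeroExt L L →+* L).comp F =
        RingHom.id L := by
      refine IsLocalization.ringHom_ext (nonZeroDivisors R) ?_
      ext r
      simp [hF, hf]
    intro x
    exact RingHom.congr_fun h1 x
  let D' : L →ₗ[k] L :=
    { toFun := fun x => (F x).snd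
      map_add' := fun x y => by rw [map_add, snd_add]
      map_smul' := fun c x => by
        rw [Algebra.smul_def, map_mul, snd_mul, hfst, RingHom.id_apply, Algebra.smul_def]
        have h1 : (F (algebraMap k L c)).snd = 0 := by
          rw [IsScalarTower.algebraMap_apply k R L, hF, hf]
          simp
        simp [h1, Algebra.smul_def] }
  refine ⟨Derivation.mk' D' ?_, fun r => ?_⟩
  · intro x y
    show (F (x * y)).snd = x • (F y).snd + y • (F x).snd
    rw [map_mul, snd_mul, hfst, hfst]
    simp [mul_comm]
  · show (F (algebraMap R L r)).snd = D r
    rw [hF, hf]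
    simp

/-- Derivations of the fraction field of a polynomial ring with prescribed values. -/
theorem exists_derivation_mv {k σ L : Type*} [Field k] [Field L] [Algebra (MvPolynomial σ k) L]
    [Algebra k L] [IsScalarTower k (MvPolynomial σ k) L] [IsFractionRing (MvPolynomial σ k) L]
    (a : σ → L) :
    ∃ D : Derivation k L L, ∀ i, D (algebraMap (MvPolynomial σ k) L (MvPolynomial.X i)) = a i := by
  obtain ⟨D, hD⟩ := exists_derivation_extend (L := L) (MvPolynomial.mkDerivation k a)
  exact ⟨D, fun i => by rw [hD, MvPolynomial.mkDerivation_X]⟩

end Vale.Agent.P182
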