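import Vale.Agent.P182.H163.Asym

/-!
# The model of the irreducible module with an integral dominant highest weight
-/

namespace Vale.Agent.P182

open scoped InnerProductSpace ComplexConjugate TensorProduct

variable {n : ℕ}

/-- dominance for integral weights -/
def DomZ (lam : Fin n → ℤ) : Prop := ∀ i j : Fin n, i < j → |lam j| ≤ lam i

/-- number of columns -/
def ncol (lam : Fin n → ℤ) : ℕ := Finset.univ.sup fun i => (lam i).natAbs

/-- the rows of column `c` -/
abbrev Col (lam : Fin n → ℤ) (c : Fin (ncol lam)) := {i : Fin n // (c : ℕ) < (lam i).natAbs}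

/-- the cells -/
abbrev Cell (lam : Fin n → ℤ) := Σ c : Fin (ncol lam), Col lam c

/-- the basis index in row `i` -/
def fr (lam : Fin n → ℤ) (i : Fin n) : Fin n ⊕ Fin n := if lam i < 0 then Sum.inr i else Sum.inl i

/-- the tensor attached to a matrix -/
noncomputable def asymM (lam : Fin n → ℤ) (g : Matrix (Fin n ⊕ Fin n) (Fin n ⊕ Fin n) ℂ) :
    TF (Cell lam) (Fin n ⊕ Fin n) :=
  asym (fun j b => g b (fr lam j.2.1))

theorem grp_asymM (lam : Fin n → ℤ) (h g : Matrix (Fin n ⊕ Fin n) (Fin n ⊕ Fin n) ℂ) :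
    grp Finset.univ h (asymM lam g) = asymM lam (h * g) := by
  rw [asymM, grp_asym]
  rfl

theorem asymM_one_ne_zero (lam : Fin n → ℤ) : asymM lam 1 ≠ 0 := by
  intro h
  have h1 : asymM lam 1 (fun j => fr lam j.2.1) = 0 := by rw [h]; rfl
  rw [asymM, asym_apply] at h1
  have h2 : ∀ c, (Matrix.of fun i' i : Col lam c =>
      (1 : Matrix (Fin n ⊕ Fin n) (Fin n ⊕ Fin n) ℂ) (fr lam i'.1) (fr lam i.1)) = 1 := by
    intro c
    ext i' i
    rw [Matrix.of_apply]
    by_cases hi : i' = i
    · subst hi; simp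
    · rw [Matrix.one_apply_ne, Matrix.one_apply_ne hi]
      intro e
      apply hi
      apply Subtype.ext
      unfold fr at e
      split_ifs at e with h1 h2 h2
      · exact Sum.inr.inj e
      · exact Sum.inl.inj e
  have h3 : ∏ c, (Matrix.of fun i' i : Col lam c =>
      (1 : Matrix (Fin n ⊕ Fin n) (Fin n ⊕ Fin n) ℂ) (fr lam i'.1) (fr lam i.1)).det = 1 := by
    refine Finset.prod_eq_one fun c _ => ?_
    rw [h2, Matrix.det_one]
  exact one_ne_zero (h3.symm.trans h1)

theorem DomZ.nonneg {lam : Fin n → ℤ} (hl : DomZ lam) {i j : Fin n} (h : i < j) : 0 ≤ lam i :=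
  (abs_nonneg _).trans (hl i j h)

theorem DomZ.natAbs_le {lam : Fin n → ℤ} (hl : DomZ lam) {i j : Fin n} (h : i < j) :
    (lam j).natAbs ≤ (lam i).natAbs := by
  have h1 := hl i j h
  have h2 := hl.nonneg h
  rw [← Int.natCast_natAbs] at h1
  omega

/-- expansion of `x e_b` -/
theorem mulVec_single' (x : Matrix (Fin n ⊕ Fin n) (Fin n ⊕ Fin n) ℂ) (b : Fin n ⊕ Fin n) :
    x.mulVec (fun b' => (1 : Matrix (Fin n ⊕ Fin n) (Fin n ⊕ Fin n) ℂ) b' b) =
      ∑ b' : Fin n ⊕ Fin n, x b' b • fun b'' => (1 : Matrix (Fin n ⊕ Fin n) (Fin n ⊕ Fin n) ℂ) b'' b' := by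
  funext b0
  rw [Finset.sum_apply]
  simp only [Matrix.mulVec, dotProduct, Pi.smul_apply, smul_eq_mul, Matrix.one_apply]
  simp

theorem act_asymM_one (lam : Fin n → ℤ) (x : Matrix (Fin n ⊕ Fin n) (Fin n ⊕ Fin n) ℂ) :
    act x (asymM lam 1) = ∑ j : Cell lam, ∑ b, x b (fr lam j.2.1) •
      asym (Function.update (fun j b => (1 : Matrix (Fin n ⊕ Fin n) (Fin n ⊕ Fin n) ℂ) b
        (fr lam j.2.1)) j (fun b'' => (1 : Matrix (Fin n ⊕ Fin n) (Fin n ⊕ Fin n) ℂ) b'' b)) := by
  rw [asymM, act_asym]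
  refine Finset.sum_congr rfl fun j _ => ?_
  rw [mulVec_single', asym_sum]

theorem upd_zero (lam : Fin n → ℤ) (j : Cell lam) (b : Fin n ⊕ Fin n) (k : Fin n)
    (hk : (j.1 : ℕ) < (lam k).natAbs) (hkj : k ≠ j.2.1) (hb : b = fr lam k) :
    asym (Function.update (fun j b => (1 : Matrix (Fin n ⊕ Fin n) (Fin n ⊕ Fin n) ℂ) b
        (fr lam j.2.1)) j (fun b'' => (1 : Matrix (Fin n ⊕ Fin n) (Fin n ⊕ Fin n) ℂ) b'' b)) = 0 := by
  obtain ⟨c, i⟩ := j
  refine asym_eq_zero _ c (i := i) (i' := ⟨k, hk⟩) ?_ ?_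
  · intro e
    apply hkj
    rw [e]
  · rw [Function.update_self, Function.update_of_ne]
    · rw [hb]
    · intro e
      apply hkj
      have := congrArg (fun p : Cell lam => p.2.1) e
      exact this

theorem sum_cols (lam : Fin n → ℤ) (f : Fin n → ℂ) :
    ∑ j : Cell lam, f j.2.1 = ∑ i, ((lam i).natAbs : ℂ) * f i := by
  rw [Fintype.sum_sigma]
  have h1 : ∀ c : Fin (ncol lam), ∑ i : Col lam c, f i.1 =
      ∑ i : Fin n, if (c : ℕ) < (lam i).natAbs then f i else 0 := by
    intro c
    rw [← Finset.sum_filter, ← Finset.sum_subtype_eq_sum_filter, Finset.subtype_univ]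
  simp only [h1]
  rw [Finset.sum_comm]
  refine Finset.sum_congr rfl fun i _ => ?_
  rw [← Finset.sum_filter, Finset.sum_const, nsmul_eq_mul]
  congr 2
  have hle : (lam i).natAbs ≤ ncol lam := Finset.le_sup (f := fun i => (lam i).natAbs)
    (Finset.mem_univ i)
  have : (Finset.univ.filter fun c : Fin (ncol lam) => (c : ℕ) < (lam i).natAbs) =
      Finset.univ.map (Fin.castLEEmb hle) := by
    ext c
    simp only [Finset.mem_filter, Finset.mem_univ, true_and, Finset.mem_map]
    constructor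
    · intro h
      exact ⟨⟨c, h⟩, by ext; simp⟩
    · rintro ⟨d, rfl⟩
      exact d.2
  rw [this, Finset.card_map, Finset.card_univ, Fintype.card_fin]

/-- The standard tensor is a highest weight vector. -/
theorem asymM_isHW {lam : Fin n → ℤ} (hl : DomZ lam) :
    IsHW (triD n) (chi fun i => (lam i : ℚ)) (asymM lam 1) := by
  rw [isHW_iff]
  constructor
  · intro a
    rw [tf_lie, act_asymM_one]
    have h1 : ∀ j : Cell lam, (∑ b, (cartan a).1 b (fr lam j.2.1) •
      asym (Function.update (fun j b => (1 : Matrix (Fin n ⊕ Fin n) (Fin n ⊕ Fin n) ℂ) b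
        (fr lam j.2.1)) j (fun b'' => (1 : Matrix (Fin n ⊕ Fin n) (Fin n ⊕ Fin n) ℂ) b'' b))) =
        ((if lam j.2.1 < 0 then -a j.2.1 else a j.2.1) : ℂ) • asymM lam 1 := by
      intro j
      rw [Finset.sum_eq_single (fr lam j.2.1)]
      · rw [cartan_val, Matrix.diagonal_apply_eq, Function.update_eq_self, asymM]
        congr 1
        unfold fr
        split_ifs <;> simp
      · intro b _ hb
        rw [cartan_val, Matrix.diagonal_apply_ne _ hb, zero_smul]
      · intro h
        exact absurd (Finset.mem_univ _) h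
    simp only [h1]
    rw [← Finset.sum_smul, sum_cols lam fun i => if lam i < 0 then -a i else a i]
    congr 1
    refine Finset.sum_congr rfl fun i _ => ?_
    split_ifs with h
    · have : ((lam i).natAbs : ℂ) = -((lam i : ℚ) : ℂ) := by
        have h2 : ((lam i).natAbs : ℤ) = - lam i := by omega
        have h3 : (((lam i).natAbs : ℤ) : ℂ) = ((- lam i : ℤ) : ℂ) := by rw [h2]
        rw [Int.cast_natCast] at h3
        rw [h3]
        push_cast
        rfl
      rw [this]; ring
    · have : ((lam i).natAbs : ℂ) = ((lam i : ℚ) : ℂ) := by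
        have h2 : ((lam i).natAbs : ℤ) = lam i := by omega
        have h3 : (((lam i).natAbs : ℤ) : ℂ) = ((lam i : ℤ) : ℂ) := by rw [h2]
        rw [Int.cast_natCast] at h3
        rw [h3]
        push_cast
        rfl
      rw [this]
  · intro x hx
    have hm := (mem_so_iff x.1).mp x.2
    rw [tf_lie, act_asymM_one]
    refine Finset.sum_eq_zero fun j _ => Finset.sum_eq_zero fun b _ => ?_
    have hj := j.2.2
    by_cases hneg : lam j.2.1 < 0
    · -- last row, negative
      have hfr : fr lam j.2.1 = Sum.inr j.2.1 := by rw [fr, if_pos hneg]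
      have hlast : ∀ k : Fin n, ¬ j.2.1 < k := fun k hk => absurd (hl.nonneg hk) (by omega)
      rcases b with k | k
      · rcases lt_trichotomy k j.2.1 with h | h | h
        · rw [upd_zero lam j _ k (lt_of_lt_of_le hj (hl.natAbs_le h)) h.ne ?_, smul_zero]
          rw [fr, if_neg (not_lt.mpr (hl.nonneg h))]
        · have h1 : x.1 (Sum.inl k) (Sum.inr j.2.1) = 0 := by
            rw [h]
            have := (hm j.2.1 j.2.1).2.1
            have h2 : (2 : ℂ) * x.1 (Sum.inl j.2.1) (Sum.inr j.2.1) = 0 := by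
              linear_combination this
            exact (mul_eq_zero.mp h2).resolve_left two_ne_zero
          rw [hfr, h1, zero_smul]
        · exact absurd h (hlast k)
      · have h1 : x.1 (Sum.inr k) (Sum.inr j.2.1) = 0 := by
          rw [(hm j.2.1 k).1, hx.1 _ _ (not_lt.mp (hlast k)), neg_zero]
        rw [hfr, h1, zero_smul]
    · have hfr : fr lam j.2.1 = Sum.inl j.2.1 := by rw [fr, if_neg hneg]
      rcases b with k | k
      · by_cases h : k < j.2.1
        · rw [upd_zero lam j _ k (lt_of_lt_of_le hj (hl.natAbs_le h)) h.ne ?_, smul_zero]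
          rw [fr, if_neg (not_lt.mpr (hl.nonneg h))]
        · rw [hfr, hx.1 _ _ (not_lt.mp h), zero_smul]
      · rw [hfr, hx.2, zero_smul]

/-- The group generated by the root subgroups. -/
inductive InE (n : ℕ) : Matrix (Fin n ⊕ Fin n) (Fin n ⊕ Fin n) ℂ → Prop
  | one : InE n 1
  | mul (x : so n) (hx : x ∈ rootSet n) (s : ℂ) (g : Matrix (Fin n ⊕ Fin n) (Fin n ⊕ Fin n) ℂ)
      (hg : InE n g) : InE n ((1 + s • x.1) * g)

theorem ex_asymM (lam : Fin n → ℤ) {x : so n} (hx : x ∈ rootSet n) (s : ℂ)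
    (g : Matrix (Fin n ⊕ Fin n) (Fin n ⊕ Fin n) ℂ) :
    ex (s • LieModule.toEnd ℂ (so n) (TF (Cell lam) (Fin n ⊕ Fin n)) x) (asymM lam g) =
      asymM lam ((1 + s • x.1) * g) := by
  rw [← grp_asymM, toEnd_tf, ← act_smul, grp_univ_eq_ex]
  rw [smul_mul_smul_comm, rootSet_sq hx, smul_zero]

theorem orb_iff (lam : Fin n → ℤ) (w : TF (Cell lam) (Fin n ⊕ Fin n)) :
    Orb (rootSet n) (asymM lam 1) w ↔ ∃ g, InE n g ∧ w = asymM lam g := by
  constructor
  · intro h
    induction h with
    | base => exact ⟨1, InE.one, rfl⟩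
    | step x hx s w _ ih =>
      obtain ⟨g, hg, rfl⟩ := ih
      exact ⟨_, InE.mul x hx s g hg, ex_asymM lam hx s g⟩
  · rintro ⟨g, hg, rfl⟩
    induction hg with
    | one => exact Orb.base
    | mul x hx s g _ ih =>
      rw [← ex_asymM lam hx]
      exact Orb.step x hx s _ ih

/-- The model is spanned by the tensors `asymM lam g`. -/
theorem cyc_eq_span (hn : 2 ≤ n) {lam : Fin n → ℤ} (hl : DomZ lam) :
    (cyc (triD n) (asymM_isHW hl)).toSubmodule =
      Submodule.span ℂ {w | ∃ g, InE n g ∧ w = asymM lam g} := by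
  rw [cyc_eq_span_orb (rootSet n) (fun x hx => tf_nilp hx) (lieSpan_rootSet hn) (triD n)
    (asymM_isHW hl)]
  congr 1
  ext w
  exact orb_iff lam w

end Vale.Agent.P182
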