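import Vale.Agent.P182.H163.HW
import Mathlib.RingTheory.Nilpotent.Exp
import Mathlib.LinearAlgebra.Dual.Lemmas
import Mathlib.Algebra.Polynomial.Roots
import Mathlib.Algebra.Polynomial.Module.Basic
import Mathlib.LinearAlgebra.Vandermonde
import Mathlib.Analysis.Complex.Basic

/-!
# Exponentials of nilpotent operators and orbits
-/

namespace Vale.Agent.P182

/-- Rational scalars act on complex algebras. -/
@[reducible] noncomputable def ratMod (A : Type*) [AddCommGroup A] [Module ℂ A] : Module ℚ A :=
  Module.compHom A (algebraMap ℚ ℂ)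

attribute [local instance] ratMod

section exp

variable {E : Type*} [AddCommGroup E] [Module ℂ E]

/-- The exponential of a nilpotent operator. -/
noncomputable def ex (X : Module.End ℂ E) : Module.End ℂ E := IsNilpotent.exp X

theorem rat_smul {A : Type*} [AddCommGroup A] [Module ℂ A] (q : ℚ) (a : A) :
    q • a = (q : ℂ) • a := rfl

theorem ex_eq_sum {X : Module.End ℂ E} {k : ℕ} (h : X ^ k = 0) :
    ex X = ∑ i ∈ Finset.range k, ((i.factorial : ℂ)⁻¹) • X ^ i := by
  rw [ex, IsNilpotent.exp_eq_sum h]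
  refine Finset.sum_congr rfl fun i _ => ?_
  rw [rat_smul]
  congr 1
  push_cast
  rfl

theorem ex_zero : ex (0 : Module.End ℂ E) = 1 := IsNilpotent.exp_zero

theorem ex_add {X Y : Module.End ℂ E} (h : Commute X Y) (hX : IsNilpotent X)
    (hY : IsNilpotent Y) : ex (X + Y) = ex X * ex Y :=
  IsNilpotent.exp_add_of_commute h hX hY

theorem isNilpotent_smul' (X : Module.End ℂ E) (hX : IsNilpotent X) (s : ℂ) :
    IsNilpotent (s • X) := by
  obtain ⟨k, hk⟩ := hX
  exact ⟨k, by rw [smul_pow, hk, smul_zero]⟩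

theorem stable_pow (X : Module.End ℂ E) (K : Submodule ℂ E) (h : ∀ v ∈ K, X v ∈ K) (k : ℕ) :
    ∀ v ∈ K, (X ^ k) v ∈ K := by
  induction k with
  | zero => intro v hv; simpa using hv
  | succ k ih =>
    intro v hv
    rw [pow_succ', Module.End.mul_apply]
    exact h _ (ih v hv)

/-- Submodules stable under `X` are stable under `exp (s X)`. -/
theorem stable_ex (X : Module.End ℂ E) (hX : IsNilpotent X) (K : Submodule ℂ E)
    (h : ∀ v ∈ K, X v ∈ K) (s : ℂ) : ∀ v ∈ K, ex (s • X) v ∈ K := by
  intro v hv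
  obtain ⟨k, hk⟩ := isNilpotent_smul' X hX s
  rw [ex_eq_sum hk, LinearMap.sum_apply]
  refine Submodule.sum_mem _ fun i _ => ?_
  rw [LinearMap.smul_apply, smul_pow, LinearMap.smul_apply]
  exact K.smul_mem _ (K.smul_mem _ (stable_pow X K h i v hv))

/-- If `∑ sᵏ wₖ ∈ K` for all `s` then every `wₖ ∈ K`. -/
theorem coeff_mem (K : Submodule ℂ E) (N : ℕ) (w : ℕ → E)
    (h : ∀ s : ℂ, ∑ k ∈ Finset.range N, s ^ k • w k ∈ K) : ∀ k < N, w k ∈ K := by
  intro k hk
  by_contra hcon
  obtain ⟨f, hf, hfK⟩ := Submodule.exists_dual_map_eq_bot_of_notMem hcon inferInstance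
  have hf0 : ∀ u ∈ K, f u = 0 := by
    intro u hu
    have : f u ∈ K.map f := ⟨u, hu, rfl⟩
    rw [hfK] at this
    exact (Submodule.mem_bot ℂ).mp this
  let p : Polynomial ℂ := ∑ i ∈ Finset.range N, Polynomial.C (f (w i)) * Polynomial.X ^ i
  have hp : p = 0 := by
    apply Polynomial.funext
    intro s
    rw [Polynomial.eval_zero]
    have h1 := hf0 _ (h s)
    rw [map_sum] at h1
    rw [Polynomial.eval_finset_sum, ← h1]
    refine Finset.sum_congr rfl fun i _ => ?_
    rw [map_smul, Polynomial.eval_mul, Polynomial.eval_C, Polynomial.eval_pow, Polynomial.eval_X,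
      smul_eq_mul, mul_comm]
  have h2 : p.coeff k = f (w k) := by
    rw [Polynomial.finsetSum_coeff]
    simp only [Polynomial.coeff_C_mul, Polynomial.coeff_X_pow]
    rw [Finset.sum_eq_single k]
    · simp
    · intro b _ hb
      simp [Ne.symm hb]
    · intro hk'
      exact absurd (Finset.mem_range.mpr hk) hk'
  rw [hp, Polynomial.coeff_zero] at h2
  exact hf h2.symm

/-- Submodules stable under all `exp (s X)` are stable under `X`. -/
theorem stable_of_ex (X : Module.End ℂ E) (hX : IsNilpotent X) (K : Submodule ℂ E)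
    (h : ∀ s : ℂ, ∀ v ∈ K, ex (s • X) v ∈ K) : ∀ v ∈ K, X v ∈ K := by
  intro v hv
  obtain ⟨k, hk⟩ := hX
  have hk' : X ^ (k + 2) = 0 := by rw [pow_add, hk, zero_mul]
  have h1 := coeff_mem K (k + 2) (fun i => ((i.factorial : ℂ)⁻¹) • (X ^ i) v) (by
    intro s
    have h2 := h s v hv
    rw [ex_eq_sum (k := k + 2) (by rw [smul_pow, hk', smul_zero]), LinearMap.sum_apply] at h2
    convert h2 using 1
    refine Finset.sum_congr rfl fun i _ => ?_
    rw [LinearMap.smul_apply, smul_pow, LinearMap.smul_apply, smul_comm]) 1 (by omega)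
  simpa using h1

end exp

section orbit

variable {L : Type*} [LieRing L] [LieAlgebra ℂ L]
variable {E : Type*} [AddCommGroup E] [Module ℂ E] [LieRingModule L E] [LieModule ℂ L E]

/-- The orbit of `v` under the group generated by `exp (s x)`, `x ∈ R`. -/
inductive Orb (R : Set L) (v : E) : E → Prop
  | base : Orb R v v
  | step (x : L) (hx : x ∈ R) (s : ℂ) (w : E) (hw : Orb R v w) :
      Orb R v (ex (s • LieModule.toEnd ℂ L E x) w)

/-- Every submodule containing `v` contains the orbit. -/
theorem Orb.mem (R : Set L) (hR : ∀ x ∈ R, IsNilpotent (LieModule.toEnd ℂ L E x)) {v w : E}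
    (hw : Orb R v w) (K : LieSubmodule ℂ L E) (hv : v ∈ K) : w ∈ K := by
  induction hw with
  | base => exact hv
  | step x hx s w _ ih =>
    exact stable_ex _ (hR x hx) K.toSubmodule (fun u hu => K.lie_mem hu) s w ih

/-- The span of the orbit is a submodule. -/
theorem span_orb (R : Set L) (hR : ∀ x ∈ R, IsNilpotent (LieModule.toEnd ℂ L E x))
    (hgen : LieSubalgebra.lieSpan ℂ L R = ⊤) (v : E) (x : L) :
    ∀ w ∈ Submodule.span ℂ {w | Orb R v w}, ⁅x, w⁆ ∈ Submodule.span ℂ {w | Orb R v w} := by
  let S : LieSubalgebra ℂ L :=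
    { carrier := {x | ∀ w ∈ Submodule.span ℂ {w | Orb R v w},
        ⁅x, w⁆ ∈ Submodule.span ℂ {w | Orb R v w}}
      add_mem' := by
        intro a b ha hb w hw
        rw [add_lie]
        exact add_mem (ha w hw) (hb w hw)
      zero_mem' := by
        intro w _
        rw [zero_lie]
        exact zero_mem _
      smul_mem' := by
        intro c a ha w hw
        rw [smul_lie]
        exact Submodule.smul_mem _ _ (ha w hw)
      lie_mem' := by
        intro a b ha hb w hw
        rw [lie_lie]
        exact sub_mem (ha _ (hb w hw)) (hb _ (ha w hw)) }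
  have hS : S = ⊤ := by
    rw [eq_top_iff, ← hgen, LieSubalgebra.lieSpan_le]
    intro y hy w hw
    refine stable_of_ex (LieModule.toEnd ℂ L E y) (hR y hy) _ ?_ w hw
    intro s u hu
    induction hu using Submodule.span_induction with
    | mem u hu => exact Submodule.subset_span (Orb.step y hy s u hu)
    | zero => rw [map_zero]; exact zero_mem _
    | add a b _ _ ha hb => rw [map_add]; exact add_mem ha hb
    | smul c a _ ha => rw [map_smul]; exact Submodule.smul_mem _ _ ha
  have : x ∈ S := by rw [hS]; trivial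
  exact this

/-- `cyc v` is spanned by the orbit of `v`. -/
theorem cyc_eq_span_orb (R : Set L) (hR : ∀ x ∈ R, IsNilpotent (LieModule.toEnd ℂ L E x))
    (hgen : LieSubalgebra.lieSpan ℂ L R = ⊤) (T : Tri L) {χ : L → ℂ} {v : E}
    (hv : IsHW T χ v) :
    (cyc T hv).toSubmodule = Submodule.span ℂ {w | Orb R v w} := by
  apply le_antisymm
  · let K : LieSubmodule ℂ L E :=
      { Submodule.span ℂ {w | Orb R v w} with
        lie_mem := fun {x w} hw => span_orb R hR hgen v x w hw }
    exact cyc_le T hv K (Submodule.subset_span Orb.base)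
  · rw [Submodule.span_le]
    intro w hw
    exact Orb.mem R hR hw (cyc T hv) (self_mem_cyc T hv)

end orbit

end Vale.Agent.P182
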