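import Vale.Agent.P182.H163.BridgeA2

/-!
# The isotropic inequalities and scaling of the weights
-/

namespace Vale.Agent.P182

open LieAlgebra.Orthogonal

variable {n : ℕ} {L : Type*} [Field L]

/-- The space spanned by the vectors of the frame `g` in the rows `i` with `c < |lam i|`. -/
def fspan (lam : Fin n → ℤ) (g : Matrix (Fin n ⊕ Fin n) (Fin n ⊕ Fin n) L) (c : ℕ) :
    Submodule L (Fin n ⊕ Fin n → L) :=
  Submodule.span L {v | ∃ i, c < (lam i).natAbs ∧ v = fun b => g b (fr lam i)}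

/-- the contribution of the column `c` to the slope -/
noncomputable def colTheta (lam : Fin n → ℤ) (g : Matrix (Fin n ⊕ Fin n) (Fin n ⊕ Fin n) L)
    (S : Submodule L (Fin n ⊕ Fin n → L)) (c : ℕ) : ℤ :=
  (Module.finrank L (fspan lam g c ⊓ S : Submodule L _) : ℤ) +
    Module.finrank L (fspan lam g c ⊓ qperp S : Submodule L _) -
    (Finset.univ.filter fun i : Fin n => c < (lam i).natAbs).card

/-- The slope of `S`. -/
noncomputable def theta (lam : Fin 3 → Fin n → ℤ)
    (g : Fin 3 → Matrix (Fin n ⊕ Fin n) (Fin n ⊕ Fin n) L)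
    (S : Submodule L (Fin n ⊕ Fin n → L)) : ℤ :=
  ∑ s, ∑ c ∈ Finset.range (ncol (lam s)), colTheta (lam s) (g s) S c

theorem span_cv (lam : Fin 3 → Fin n → ℤ) (g : Fin 3 → Matrix (Fin n ⊕ Fin n) (Fin n ⊕ Fin n) L)
    (l : ColT lam) :
    Submodule.span L (Set.range fun i : RowT lam l => cv lam g ⟨l, i⟩) =
      fspan (lam l.1) (g l.1) l.2 := by
  rw [fspan]
  congr 1
  ext v
  constructor
  · rintro ⟨i, rfl⟩
    exact ⟨i.1, i.2, rfl⟩
  · rintro ⟨i, hi, rfl⟩
    exact ⟨⟨i, hi⟩, rfl⟩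

theorem psi_cv [Algebra ℂ L] (lam : Fin 3 → Fin n → ℤ)
    (g : Fin 3 → Matrix (Fin n ⊕ Fin n) (Fin n ⊕ Fin n) L)
    (f : (CellT lam → Fin n ⊕ Fin n) → ℂ) :
    psi L f (cv lam g) = ∑ β, algebraMap ℂ L (f β) * asymT lam g β := by
  rw [psi_eq]
  rfl

/-- **Bridge A**, for frames. -/
theorem theta_nonpos [Algebra ℂ L] {lam : Fin 3 → Fin n → ℤ}
    {g : Fin 3 → Matrix (Fin n ⊕ Fin n) (Fin n ⊕ Fin n) L}
    {f : (CellT lam → Fin n ⊕ Fin n) → ℂ} (hf : InvF f)
    (hne : ∑ β, algebraMap ℂ L (f β) * asymT lam g β ≠ 0)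
    {S : Submodule L (Fin n ⊕ Fin n → L)} (hS : ∀ u ∈ S, ∀ v ∈ S, qf u v = 0) :
    theta lam g S ≤ 0 := by
  rw [← psi_cv] at hne
  have h := theta_le hf hne hS
  refine le_trans (le_of_eq ?_) h
  rw [theta, Fintype.sum_sigma]
  refine Finset.sum_congr rfl fun s _ => ?_
  rw [Finset.sum_range]
  refine Finset.sum_congr rfl fun c _ => ?_
  rw [colTheta, span_cv, Fintype.card_subtype]

theorem sum_range_div (N m : ℕ) (hN : 0 < N) (h : ℕ → ℤ) :
    ∑ c ∈ Finset.range (N * m), h (c / N) = N * ∑ c ∈ Finset.range m, h c := by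
  induction m with
  | zero => simp
  | succ m ih =>
    rw [Nat.mul_succ, Finset.sum_range_add, ih, Finset.sum_range_succ, mul_add]
    congr 1
    have : ∀ x ∈ Finset.range N, h ((N * m + x) / N) = h m := by
      intro x hx
      rw [Nat.mul_add_div hN, Nat.div_eq_of_lt (Finset.mem_range.mp hx), add_zero]
    rw [Finset.sum_congr rfl this, Finset.sum_const, Finset.card_range, nsmul_eq_mul]

theorem ncol_smul (N : ℕ) (lam : Fin n → ℤ) : ncol (fun i => (N : ℤ) * lam i) = N * ncol lam := by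
  rcases Nat.eq_zero_or_pos N with h | h
  · subst h
    rw [zero_mul]
    refine Nat.le_zero.mp (Finset.sup_le fun i _ => ?_)
    simp
  · refine le_antisymm (Finset.sup_le fun i _ => ?_) ?_
    · rw [Int.natAbs_mul, Int.natAbs_natCast]
      exact Nat.mul_le_mul_left N (Finset.le_sup (f := fun i => (lam i).natAbs) (Finset.mem_univ i))
    · rw [mul_comm, ← Nat.le_div_iff_mul_le h]
      refine Finset.sup_le fun i _ => ?_
      rw [Nat.le_div_iff_mul_le h, mul_comm]
      have := Finset.le_sup (f := fun i => ((N : ℤ) * lam i).natAbs) (Finset.mem_univ i)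
      simp only [Int.natAbs_mul, Int.natAbs_natCast] at this
      refine this.trans (le_of_eq ?_)
      rw [ncol]
      simp only [Int.natAbs_mul, Int.natAbs_natCast]

theorem theta_smul {N : ℕ} (hN : 0 < N) (lam : Fin 3 → Fin n → ℤ)
    (g : Fin 3 → Matrix (Fin n ⊕ Fin n) (Fin n ⊕ Fin n) L)
    (S : Submodule L (Fin n ⊕ Fin n → L)) :
    theta (fun s i => (N : ℤ) * lam s i) g S = N * theta lam g S := by
  rw [theta, theta, Finset.mul_sum]
  refine Finset.sum_congr rfl fun s _ => ?_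
  rw [← sum_range_div N _ hN, ncol_smul]
  refine Finset.sum_congr rfl fun c _ => ?_
  have hiff : ∀ i, c < ((N : ℤ) * lam s i).natAbs ↔ c / N < (lam s i).natAbs := by
    intro i
    rw [Int.natAbs_mul, Int.natAbs_natCast, Nat.div_lt_iff_lt_mul hN, mul_comm]
  have hfr : ∀ i, fr (fun i => (N : ℤ) * lam s i) i = fr (lam s) i := by
    intro i
    have hN' : (0 : ℤ) < N := by exact_mod_cast hN
    rw [fr, fr]
    have : ((N : ℤ) * lam s i < 0) ↔ (lam s i < 0) := by
      constructor
      · intro h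
        by_contra h'
        have := mul_nonneg hN'.le (not_lt.mp h')
        omega
      · intro h
        exact mul_neg_of_pos_of_neg hN' h
    simp only [this]
  have hsp : fspan (fun i => (N : ℤ) * lam s i) (g s) c = fspan (lam s) (g s) (c / N) := by
    rw [fspan, fspan]
    congr 1
    ext v
    simp only [Set.mem_ofPred_eq, hiff, hfr]
  rw [colTheta, colTheta, hsp]
  simp only [hiff]

end Vale.Agent.P182
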