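import Vale.Agent.P182.H163.HW
import Mathlib.Analysis.InnerProductSpace.TensorProduct
import Mathlib.Analysis.InnerProductSpace.Dual
import Mathlib.Analysis.InnerProductSpace.Projection.FiniteDimensional
import Mathlib.RingTheory.Flat.Basic
import Mathlib.Algebra.Lie.Abelian

/-!
# Unitary modules

A finite-dimensional inner product space with an action of `L` such that the adjoint of `x` is
`τ x`.
-/

namespace Vale.Agent.P182

open scoped TensorProduct InnerProductSpace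

set_option linter.unusedSectionVars false

variable {L : Type*} [LieRing L] [LieAlgebra ℂ L]

/-- The adjoint of `x` is `τ x`. -/
def IsUnitary (τ : L → L) (E : Type*) [NormedAddCommGroup E] [InnerProductSpace ℂ E]
    [LieRingModule L E] : Prop :=
  ∀ (x : L) (u v : E), ⟪⁅x, u⁆, v⟫_ℂ = ⟪u, ⁅τ x, v⁆⟫_ℂ

section one

variable {E : Type*} [NormedAddCommGroup E] [InnerProductSpace ℂ E] [FiniteDimensional ℂ E]
  [LieRingModule L E] [LieModule ℂ L E] {τ : L → L}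

/-- The orthogonal complement of a submodule. -/
noncomputable def orthL (hE : IsUnitary τ E) (hτ : ∀ x, τ (τ x) = x) (K : LieSubmodule ℂ L E) :
    LieSubmodule ℂ L E where
  toSubmodule := K.toSubmoduleᗮ
  lie_mem := by
    intro x m hm
    have hm' : m ∈ K.toSubmoduleᗮ := hm
    show ⁅x, m⁆ ∈ K.toSubmoduleᗮ
    rw [Submodule.mem_orthogonal] at hm' ⊢
    intro u hu
    have h1 := hE (τ x) u m
    rw [hτ] at h1
    rw [← h1]
    exact hm' _ (K.lie_mem hu)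

/-- A cyclic highest weight module in a unitary module is irreducible. -/
theorem cyc_irred (hE : IsUnitary τ E) (hτ : ∀ x, τ (τ x) = x) (T : Tri L) {χ : L → ℂ} {v : E}
    (hv : IsHW T χ v) (hv0 : v ≠ 0) : LieModule.IsIrreducible ℂ L (cyc T hv) := by
  have hne : (⟨v, self_mem_cyc T hv⟩ : cyc T hv) ≠ 0 := by
    intro h
    exact hv0 (congrArg Subtype.val h)
  haveI : Nontrivial (cyc T hv) := ⟨⟨_, _, hne⟩⟩
  refine LieModule.IsIrreducible.mk fun K hK => ?_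
  -- view `K` in `E`
  let K' : LieSubmodule ℂ L E := K.map (cyc T hv).incl
  have hK' : ∀ m, m ∈ K' ↔ ∃ h : m ∈ cyc T hv, (⟨m, h⟩ : cyc T hv) ∈ K := by
    intro m
    rw [LieSubmodule.mem_map]
    constructor
    · rintro ⟨a, ha, rfl⟩
      exact ⟨a.2, ha⟩
    · rintro ⟨h, hm⟩
      exact ⟨⟨m, h⟩, hm, rfl⟩
  have hle : K' ≤ cyc T hv := by
    intro m hm
    exact ((hK' m).mp hm).1
  obtain ⟨k, hk, k', hk', e⟩ := (K'.toSubmodule).exists_add_mem_mem_orthogonal v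
  have hkc : k ∈ cyc T hv := hle hk
  have hkh : ⁅T.h, k⁆ = χ T.h • k := by
    have h1 := hv T.h T.hmem
    rw [e, lie_add, smul_add] at h1
    have h2 : ⁅T.h, k⁆ - χ T.h • k = χ T.h • k' - ⁅T.h, k'⁆ := by
      rw [sub_eq_sub_iff_add_eq_add, h1, add_comm]
    have h3 : ⁅T.h, k⁆ - χ T.h • k ∈ K'.toSubmodule :=
      sub_mem (K'.lie_mem hk) (K'.toSubmodule.smul_mem _ hk)
    have h4 : ⁅T.h, k⁆ - χ T.h • k ∈ K'.toSubmoduleᗮ := by
      rw [h2]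
      exact sub_mem (Submodule.smul_mem _ _ hk') ((orthL hE hτ K').lie_mem hk')
    have h5 : ⁅T.h, k⁆ - χ T.h • k = 0 := by
      have := Submodule.inner_right_of_mem_orthogonal h3 h4
      exact inner_self_eq_zero.mp this
    exact sub_eq_zero.mp h5
  obtain ⟨a, ha⟩ := Submodule.mem_span_singleton.mp (hw_unique T hv hkc hkh)
  by_cases ha0 : a = 0
  · exfalso
    apply hK
    have hvk : v ∈ orthL hE hτ K' := by
      rw [ha0, zero_smul] at ha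
      rw [e, ← ha, zero_add]
      exact hk'
    have h1 := cyc_le T hv _ hvk
    rw [LieSubmodule.eq_bot_iff]
    intro m hm
    have h2 : (m : E) ∈ K'.toSubmodule := (hK' m).mpr ⟨m.2, hm⟩
    have h3 : (m : E) ∈ K'.toSubmoduleᗮ := h1 m.2
    have := Submodule.inner_right_of_mem_orthogonal h2 h3
    exact Subtype.ext (inner_self_eq_zero.mp this)
  · have hvK : v ∈ K' := by
      have : v = a⁻¹ • k := by rw [← ha, smul_smul, inv_mul_cancel₀ ha0, one_smul]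
      rw [this]
      exact K'.smul_mem _ hk
    have h1 := cyc_le T hv K' hvK
    rw [eq_top_iff]
    intro m _
    exact ((hK' m).mp (h1 m.2)).2

/-- Invariant vectors from invariant functionals. -/
theorem invariant_of_functional (hE : IsUnitary τ E) (hτ : ∀ x, τ (τ x) = x)
    (I : LieSubmodule ℂ L E)
    (f : E →ₗ[ℂ] ℂ) (hf : ∀ (x : L) (u : E), f ⁅x, u⁆ = 0) (hf0 : ∃ u ∈ I, f u ≠ 0) :
    ∃ t ∈ I, t ≠ 0 ∧ ∀ x : L, ⁅x, t⁆ = 0 := by
  haveI : CompleteSpace E := FiniteDimensional.complete ℂ E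
  let t0 : E := (InnerProductSpace.toDual ℂ E).symm (LinearMap.toContinuousLinearMap f)
  have ht0 : ∀ u, ⟪t0, u⟫_ℂ = f u := by
    intro u
    rw [InnerProductSpace.toDual_symm_apply]
    rfl
  obtain ⟨t, ht, t', ht', e⟩ := (I.toSubmodule).exists_add_mem_mem_orthogonal t0
  have htu : ∀ u ∈ I, ⟪t, u⟫_ℂ = f u := by
    intro u hu
    rw [← ht0 u, e, inner_add_left, Submodule.inner_left_of_mem_orthogonal hu ht', add_zero]
  refine ⟨t, ht, ?_, ?_⟩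
  · rintro rfl
    obtain ⟨u, hu, hu0⟩ := hf0
    apply hu0
    rw [← htu u hu, inner_zero_left]
  · intro x
    have h1 : ⟪⁅x, t⁆, ⁅x, t⁆⟫_ℂ = 0 := by
      rw [hE, htu _ (I.lie_mem (I.lie_mem ht)), hf]
    exact inner_self_eq_zero.mp h1

/-- Invariant functionals from invariant vectors. -/
theorem functional_of_invariant (hE : IsUnitary τ E) (t : E) (ht : ∀ x : L, ⁅x, t⁆ = 0)
    (hτ : ∀ x, τ (τ x) = x) (ht0 : t ≠ 0) :
    ∃ f : E →ₗ[ℂ] ℂ, (∀ (x : L) (u : E), f ⁅x, u⁆ = 0) ∧ f t ≠ 0 := by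
  refine ⟨(innerSL ℂ t).toLinearMap, ?_, ?_⟩
  · intro x u
    have h1 := hE (τ x) t u
    rw [hτ, ht, inner_zero_left] at h1
    exact h1.symm
  · intro h
    exact ht0 (inner_self_eq_zero.mp h)

end one

section two

variable {E F : Type*} [NormedAddCommGroup E] [InnerProductSpace ℂ E]
  [LieRingModule L E] [LieModule ℂ L E] [NormedAddCommGroup F] [InnerProductSpace ℂ F]
  [LieRingModule L F] [LieModule ℂ L F] {τ : L → L}

theorem isUnitary_tensor (hE : IsUnitary τ E) (hF : IsUnitary τ F) : IsUnitary τ (E ⊗[ℂ] F) := by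
  intro x u v
  induction u using TensorProduct.induction_on with
  | zero => simp
  | add a b ha hb => rw [lie_add, inner_add_left, inner_add_left, ha, hb]
  | tmul a b =>
    induction v using TensorProduct.induction_on with
    | zero => simp
    | add c d hc hd => rw [lie_add, inner_add_right, inner_add_right, hc, hd]
    | tmul c d =>
      rw [TensorProduct.LieModule.lie_tmul_right, TensorProduct.LieModule.lie_tmul_right,
        inner_add_left, inner_add_right, TensorProduct.inner_tmul, TensorProduct.inner_tmul,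
        TensorProduct.inner_tmul, TensorProduct.inner_tmul, hE, hF]

end two

section three

/-! ### Three modules -/

variable {E₁ E₂ E₃ : Type*}
  [NormedAddCommGroup E₁] [InnerProductSpace ℂ E₁] [FiniteDimensional ℂ E₁]
  [LieRingModule L E₁] [LieModule ℂ L E₁]
  [NormedAddCommGroup E₂] [InnerProductSpace ℂ E₂] [FiniteDimensional ℂ E₂]
  [LieRingModule L E₂] [LieModule ℂ L E₂]
  [NormedAddCommGroup E₃] [InnerProductSpace ℂ E₃] [FiniteDimensional ℂ E₃]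
  [LieRingModule L E₃] [LieModule ℂ L E₃] {τ : L → L}
  {V₁ V₂ V₃ : Type*}
  [AddCommGroup V₁] [Module ℂ V₁] [LieRingModule L V₁] [LieModule ℂ L V₁]
  [AddCommGroup V₂] [Module ℂ V₂] [LieRingModule L V₂] [LieModule ℂ L V₂]
  [AddCommGroup V₃] [Module ℂ V₃] [LieRingModule L V₃] [LieModule ℂ L V₃]

/-- An injective equivariant map `V → E` with image `cyc v`. -/
theorem exists_embed {E V : Type*} [NormedAddCommGroup E] [InnerProductSpace ℂ E]
    [FiniteDimensional ℂ E]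
    [LieRingModule L E] [LieModule ℂ L E] [AddCommGroup V] [Module ℂ V] [LieRingModule L V]
    [LieModule ℂ L V] [LieModule.IsIrreducible ℂ L V]
    (hE : IsUnitary τ E) (hτ : ∀ x, τ (τ x) = x) (T : Tri L) {χ : L → ℂ} {v : E}
    (hv : IsHW T χ v) (hv0 : v ≠ 0) {w : V} (hw : IsHW T χ w) (hw0 : w ≠ 0) :
    ∃ j : V →ₗ⁅ℂ,L⁆ E, Function.Injective j ∧ ∀ m : E, m ∈ cyc T hv ↔ ∃ u, j u = m := by
  haveI := cyc_irred hE hτ T hv hv0
  have hv' : IsHW T χ (⟨v, self_mem_cyc T hv⟩ : cyc T hv) := by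
    intro b hb
    apply Subtype.ext
    exact hv b hb
  have hv0' : (⟨v, self_mem_cyc T hv⟩ : cyc T hv) ≠ 0 := by
    intro h
    exact hv0 (congrArg Subtype.val h)
  obtain ⟨e⟩ := equiv_of_hw T hw hv' hw0 hv0'
  refine ⟨(cyc T hv).incl.comp (e : V →ₗ⁅ℂ,L⁆ cyc T hv), ?_, ?_⟩
  · intro a b hab
    have h1 : ((e a : cyc T hv) : E) = ((e b : cyc T hv) : E) := hab
    exact e.injective (Subtype.ext h1)
  · intro m
    constructor
    · intro hm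
      exact ⟨e.symm ⟨m, hm⟩, by
        show ((e (e.symm ⟨m, hm⟩) : cyc T hv) : E) = m
        rw [LieModuleEquiv.apply_symm_apply]⟩
    · rintro ⟨u, rfl⟩
      exact (e u).2

theorem map_map_lie (j₁ : V₁ →ₗ⁅ℂ,L⁆ E₁) (j₂ : V₂ →ₗ⁅ℂ,L⁆ E₂) (j₃ : V₃ →ₗ⁅ℂ,L⁆ E₃) (x : L)
    (t : V₁ ⊗[ℂ] (V₂ ⊗[ℂ] V₃)) :
    TensorProduct.map (j₁ : V₁ →ₗ[ℂ] E₁) (TensorProduct.map (j₂ : V₂ →ₗ[ℂ] E₂)
      (j₃ : V₃ →ₗ[ℂ] E₃)) ⁅x, t⁆ =
    ⁅x, TensorProduct.map (j₁ : V₁ →ₗ[ℂ] E₁) (TensorProduct.map (j₂ : V₂ →ₗ[ℂ] E₂)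
      (j₃ : V₃ →ₗ[ℂ] E₃)) t⁆ := by
  induction t using TensorProduct.induction_on with
  | zero => simp
  | add a b ha hb => rw [lie_add, map_add, map_add, lie_add, ha, hb]
  | tmul a b =>
    rw [TensorProduct.LieModule.lie_tmul_right, map_add, TensorProduct.map_tmul,
      TensorProduct.map_tmul, TensorProduct.map_tmul, TensorProduct.LieModule.lie_tmul_right]
    congr 1
    · simp
    · congr 1
      induction b using TensorProduct.induction_on with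
      | zero => simp
      | add a b ha hb => rw [lie_add, map_add, map_add, lie_add, ha, hb]
      | tmul a b =>
        rw [TensorProduct.LieModule.lie_tmul_right, map_add, TensorProduct.map_tmul,
          TensorProduct.map_tmul, TensorProduct.map_tmul, TensorProduct.LieModule.lie_tmul_right]
        simp

theorem map_map_inj (j₁ : V₁ →ₗ⁅ℂ,L⁆ E₁) (j₂ : V₂ →ₗ⁅ℂ,L⁆ E₂) (j₃ : V₃ →ₗ⁅ℂ,L⁆ E₃)
    (h₁ : Function.Injective j₁) (h₂ : Function.Injective j₂) (h₃ : Function.Injective j₃) :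
    Function.Injective (TensorProduct.map (j₁ : V₁ →ₗ[ℂ] E₁)
      (TensorProduct.map (j₂ : V₂ →ₗ[ℂ] E₂) (j₃ : V₃ →ₗ[ℂ] E₃))) := by
  apply TensorProduct.map_injective_of_flat_flat
  · exact h₁
  · apply TensorProduct.map_injective_of_flat_flat
    · exact h₂
    · exact h₃

/-- **Bridge 0.** Existence of invariants in terms of invariant functionals on unitary models. -/
theorem maxTriv_ne_bot_iff [LieModule.IsIrreducible ℂ L V₁] [LieModule.IsIrreducible ℂ L V₂]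
    [LieModule.IsIrreducible ℂ L V₃]
    (h₁ : IsUnitary τ E₁) (h₂ : IsUnitary τ E₂) (h₃ : IsUnitary τ E₃)
    (hτ : ∀ x, τ (τ x) = x) (T : Tri L) {χ₁ χ₂ χ₃ : L → ℂ} {v₁ : E₁} {v₂ : E₂} {v₃ : E₃}
    (hv₁ : IsHW T χ₁ v₁) (hv₂ : IsHW T χ₂ v₂) (hv₃ : IsHW T χ₃ v₃)
    (hv₁0 : v₁ ≠ 0) (hv₂0 : v₂ ≠ 0) (hv₃0 : v₃ ≠ 0)
    {w₁ : V₁} {w₂ : V₂} {w₃ : V₃}
    (hw₁ : IsHW T χ₁ w₁) (hw₂ : IsHW T χ₂ w₂) (hw₃ : IsHW T χ₃ w₃)
    (hw₁0 : w₁ ≠ 0) (hw₂0 : w₂ ≠ 0) (hw₃0 : w₃ ≠ 0) :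
    LieModule.maxTrivSubmodule ℂ L (V₁ ⊗[ℂ] (V₂ ⊗[ℂ] V₃)) ≠ ⊥ ↔
      ∃ f : E₁ ⊗[ℂ] (E₂ ⊗[ℂ] E₃) →ₗ[ℂ] ℂ, (∀ (x : L) u, f ⁅x, u⁆ = 0) ∧
        ∃ a ∈ cyc T hv₁, ∃ b ∈ cyc T hv₂, ∃ c ∈ cyc T hv₃, f (a ⊗ₜ[ℂ] (b ⊗ₜ[ℂ] c)) ≠ 0 := by
  obtain ⟨j₁, i₁, m₁⟩ := exists_embed h₁ hτ T hv₁ hv₁0 hw₁ hw₁0
  obtain ⟨j₂, i₂, m₂⟩ := exists_embed h₂ hτ T hv₂ hv₂0 hw₂ hw₂0
  obtain ⟨j₃, i₃, m₃⟩ := exists_embed h₃ hτ T hv₃ hv₃0 hw₃ hw₃0
  have hinj := map_map_inj j₁ j₂ j₃ i₁ i₂ i₃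
  have hlie := map_map_lie j₁ j₂ j₃
  set J : V₁ ⊗[ℂ] (V₂ ⊗[ℂ] V₃) →ₗ[ℂ] E₁ ⊗[ℂ] (E₂ ⊗[ℂ] E₃) :=
    TensorProduct.map (j₁ : V₁ →ₗ[ℂ] E₁) (TensorProduct.map (j₂ : V₂ →ₗ[ℂ] E₂)
      (j₃ : V₃ →ₗ[ℂ] E₃)) with hJ
  have hU : IsUnitary τ (E₁ ⊗[ℂ] (E₂ ⊗[ℂ] E₃)) := isUnitary_tensor h₁ (isUnitary_tensor h₂ h₃)
  constructor
  · intro h
    have h' : ∃ t : V₁ ⊗[ℂ] (V₂ ⊗[ℂ] V₃), t ≠ 0 ∧ ∀ x : L, ⁅x, t⁆ = 0 := by
      by_contra hcon
      apply h
      rw [LieSubmodule.eq_bot_iff]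
      intro m hm
      by_contra hm0
      exact hcon ⟨m, hm0, fun x => (LieModule.mem_maxTrivSubmodule ℂ L _ m).mp hm x⟩
    obtain ⟨t, ht0, ht⟩ := h'
    have hJt : J t ≠ 0 := by
      intro h0
      exact ht0 (hinj (by rw [h0, map_zero]))
    have hJt' : ∀ x : L, ⁅x, J t⁆ = 0 := by
      intro x
      rw [← hlie, ht, map_zero]
    obtain ⟨f, hf, hft⟩ := functional_of_invariant hU (J t) hJt' hτ hJt
    refine ⟨f, hf, ?_⟩
    by_contra hcon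
    push Not at hcon
    apply hft
    have : f ∘ₗ J = 0 := by
      ext a b c
      have := hcon (j₁ a) ((m₁ _).mpr ⟨a, rfl⟩) (j₂ b) ((m₂ _).mpr ⟨b, rfl⟩) (j₃ c)
        ((m₃ _).mpr ⟨c, rfl⟩)
      simpa [hJ] using this
    have h2 := congrArg (fun g => g t) this
    simpa using h2
  · rintro ⟨f, hf, a, ha, b, hb, c, hc, hne⟩
    let I : LieSubmodule ℂ L (E₁ ⊗[ℂ] (E₂ ⊗[ℂ] E₃)) :=
      { LinearMap.range J with
        lie_mem := by
          rintro x _ ⟨k, rfl⟩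
          exact ⟨⁅x, k⁆, hlie x k⟩ }
    obtain ⟨a', rfl⟩ := (m₁ a).mp ha
    obtain ⟨b', rfl⟩ := (m₂ b).mp hb
    obtain ⟨c', rfl⟩ := (m₃ c).mp hc
    have hI : (j₁ a') ⊗ₜ[ℂ] ((j₂ b') ⊗ₜ[ℂ] (j₃ c')) ∈ I :=
      ⟨a' ⊗ₜ (b' ⊗ₜ c'), by simp [hJ]⟩
    obtain ⟨t, ⟨t', rfl⟩, ht0, ht⟩ := invariant_of_functional hU hτ I f hf ⟨_, hI, hne⟩
    intro hbot
    have h1 : t' ∈ LieModule.maxTrivSubmodule ℂ L (V₁ ⊗[ℂ] (V₂ ⊗[ℂ] V₃)) := by
      rw [LieModule.mem_maxTrivSubmodule]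
      intro x
      apply hinj
      rw [map_zero]
      have := ht x
      rw [← this]
      exact hlie x t'
    rw [hbot, LieSubmodule.mem_bot] at h1
    apply ht0
    rw [h1]
    exact map_zero J

end three

end Vale.Agent.P182
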