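import Vale.Agent.P182.H163.Cliff
import Vale.Agent.P182.H163.Unit

/-!
# The spin module of `so(2n)`: Fock space model
-/

namespace Vale.Agent.P182

open scoped InnerProductSpace ComplexConjugate

variable {n : ℕ}

/-- The Fock space: functions on the subsets of `Fin n`. -/
abbrev Fock (n : ℕ) := EuclideanSpace ℂ (Finset (Fin n))

theorem fock_ext {f g : Fock n} (h : ∀ S, f S = g S) : f = g := PiLp.ext h

/-- The sign of `i` relative to `S`. -/
def sg (i : Fin n) (S : Finset (Fin n)) : ℂ := ∏ j ∈ S, if j < i then -1 else 1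

theorem sg_insert {i j : Fin n} {S : Finset (Fin n)} (h : j ∉ S) :
    sg i (insert j S) = (if j < i then -1 else 1) * sg i S := Finset.prod_insert h

theorem sg_erase {i j : Fin n} {S : Finset (Fin n)} (h : j ∈ S) :
    sg i (S.erase j) = (if j < i then -1 else 1) * sg i S := by
  have h1 := sg_insert (i := i) (j := j) (S := S.erase j) (Finset.notMem_erase j S)
  rw [Finset.insert_erase h] at h1
  rw [h1, ← mul_assoc]
  split_ifs <;> simp

theorem sg_sq (i : Fin n) (S : Finset (Fin n)) : sg i S * sg i S = 1 := by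
  rw [sg, ← Finset.prod_mul_distrib]
  exact Finset.prod_eq_one fun j _ => by split_ifs <;> simp

theorem sg_conj (i : Fin n) (S : Finset (Fin n)) : conj (sg i S) = sg i S := by
  rw [sg, map_prod]
  exact Finset.prod_congr rfl fun j _ => by split_ifs <;> simp

theorem sg_insert_self {i : Fin n} {S : Finset (Fin n)} (h : i ∉ S) :
    sg i (insert i S) = sg i S := by
  rw [sg_insert h, if_neg (lt_irrefl i), one_mul]

theorem sg_erase_self {i : Fin n} {S : Finset (Fin n)} (h : i ∈ S) :
    sg i (S.erase i) = sg i S := by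
  rw [sg_erase h, if_neg (lt_irrefl i), one_mul]

/-- Creation operator. -/
noncomputable def cr (i : Fin n) : Module.End ℂ (Fock n) where
  toFun f := WithLp.toLp 2 fun S => if i ∈ S then sg i S * f (S.erase i) else 0
  map_add' f g := by
    apply fock_ext
    intro S
    show (if i ∈ S then sg i S * (f + g) (S.erase i) else 0) =
      (if i ∈ S then sg i S * f (S.erase i) else 0) + (if i ∈ S then sg i S * g (S.erase i) else 0)
    split_ifs
    · rw [PiLp.add_apply, mul_add]
    · rw [add_zero]
  map_smul' c f := by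
    apply fock_ext
    intro S
    show (if i ∈ S then sg i S * (c • f) (S.erase i) else 0) =
      c * (if i ∈ S then sg i S * f (S.erase i) else 0)
    split_ifs
    · rw [PiLp.smul_apply, smul_eq_mul]; ring
    · rw [mul_zero]

/-- Annihilation operator. -/
noncomputable def an (i : Fin n) : Module.End ℂ (Fock n) where
  toFun f := WithLp.toLp 2 fun S => if i ∈ S then 0 else sg i S * f (insert i S)
  map_add' f g := by
    apply fock_ext
    intro S
    show (if i ∈ S then 0 else sg i S * (f + g) (insert i S)) =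
      (if i ∈ S then 0 else sg i S * f (insert i S)) + (if i ∈ S then 0 else sg i S * g (insert i S))
    split_ifs
    · rw [add_zero]
    · rw [PiLp.add_apply, mul_add]
  map_smul' c f := by
    apply fock_ext
    intro S
    show (if i ∈ S then 0 else sg i S * (c • f) (insert i S)) =
      c * (if i ∈ S then 0 else sg i S * f (insert i S))
    split_ifs
    · rw [mul_zero]
    · rw [PiLp.smul_apply, smul_eq_mul]; ring

theorem cr_apply (i : Fin n) (f : Fock n) (S : Finset (Fin n)) :
    cr i f S = if i ∈ S then sg i S * f (S.erase i) else 0 := rfl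

theorem an_apply (i : Fin n) (f : Fock n) (S : Finset (Fin n)) :
    an i f S = if i ∈ S then 0 else sg i S * f (insert i S) := rfl

theorem ite_anti {i j : Fin n} (h : i ≠ j) :
    (if i < j then (-1 : ℂ) else 1) = - (if j < i then -1 else 1) := by
  rcases lt_or_gt_of_ne h with h1 | h1
  · rw [if_pos h1, if_neg (not_lt.mpr h1.le)]
  · rw [if_neg (not_lt.mpr h1.le), if_pos h1, neg_neg]

theorem cr_cr (i j : Fin n) : cr i * cr j + cr j * cr i = (0 : Module.End ℂ (Fock n)) := by
  ext f S
  show cr i (cr j f) S + cr j (cr i f) S = 0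
  rw [cr_apply, cr_apply, cr_apply, cr_apply]
  by_cases hij : i = j
  · subst hij
    simp
  · by_cases hi : i ∈ S
    · by_cases hj : j ∈ S
      · have h1 : j ∈ S.erase i := Finset.mem_erase.mpr ⟨Ne.symm hij, hj⟩
        have h2 : i ∈ S.erase j := Finset.mem_erase.mpr ⟨hij, hi⟩
        rw [if_pos hi, if_pos hj, if_pos h1, if_pos h2, sg_erase hi, sg_erase hj,
          Finset.erase_right_comm, ite_anti hij]
        ring
      · have h1 : j ∉ S.erase i := fun h => hj (Finset.mem_of_mem_erase h)
        rw [if_pos hi, if_neg hj, if_neg h1]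
        simp
    · have h2 : i ∉ S.erase j := fun h => hi (Finset.mem_of_mem_erase h)
      rw [if_neg hi, if_neg h2]
      simp

theorem an_an (i j : Fin n) : an i * an j + an j * an i = (0 : Module.End ℂ (Fock n)) := by
  ext f S
  show an i (an j f) S + an j (an i f) S = 0
  rw [an_apply, an_apply, an_apply, an_apply]
  by_cases hij : i = j
  · subst hij
    simp
  · by_cases hi : i ∈ S
    · have h2 : i ∈ insert j S := Finset.mem_insert_of_mem hi
      rw [if_pos hi, if_pos h2]
      simp
    · by_cases hj : j ∈ S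
      · have h1 : j ∈ insert i S := Finset.mem_insert_of_mem hj
        rw [if_neg hi, if_pos hj, if_pos h1]
        simp
      · have h1 : j ∉ insert i S := by simp [Ne.symm hij, hj]
        have h2 : i ∉ insert j S := by simp [hij, hi]
        rw [if_neg hi, if_neg hj, if_neg h1, if_neg h2, sg_insert hi, sg_insert hj,
          Finset.insert_comm, ite_anti hij]
        ring

theorem an_cr (i j : Fin n) : an i * cr j + cr j * an i =
    (if i = j then 1 else 0 : Module.End ℂ (Fock n)) := by
  ext f S
  show an i (cr j f) S + cr j (an i f) S = _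
  rw [an_apply, cr_apply, cr_apply, an_apply]
  by_cases hij : i = j
  · subst hij
    rw [if_pos rfl, Module.End.one_apply]
    by_cases hi : i ∈ S
    · rw [if_pos hi, if_pos hi, if_neg (Finset.notMem_erase i S), sg_erase_self hi,
        Finset.insert_erase hi, zero_add, ← mul_assoc, sg_sq, one_mul]
    · rw [if_neg hi, if_neg hi, if_pos (Finset.mem_insert_self i S), sg_insert_self hi,
        Finset.erase_insert hi, add_zero, ← mul_assoc, sg_sq, one_mul]
  · rw [if_neg hij, LinearMap.zero_apply]
    show _ = (0 : ℂ)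
    by_cases hi : i ∈ S
    · have h1 : i ∈ S.erase j := Finset.mem_erase.mpr ⟨hij, hi⟩
      rw [if_pos hi, if_pos h1]
      simp
    · have h1 : i ∉ S.erase j := fun h => hi (Finset.mem_of_mem_erase h)
      by_cases hj : j ∈ S
      · have h2 : j ∈ insert i S := Finset.mem_insert_of_mem hj
        have h3 : (insert i S).erase j = insert i (S.erase j) :=
          Finset.erase_insert_of_ne hij
        rw [if_neg hi, if_pos h2, if_pos hj, if_neg h1, h3, sg_insert hi, sg_erase hj,
          ite_anti hij]
        ring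
      · have h2 : j ∉ insert i S := by simp [Ne.symm hij, hj]
        rw [if_neg hi, if_neg h2, if_neg hj]
        simp

/-- The Clifford operators. -/
noncomputable def cl : Fin n ⊕ Fin n → Module.End ℂ (Fock n) := Sum.elim cr an

theorem cl_car : IsCAR (A := Module.End ℂ (Fock n)) cl := by
  rintro (i | i) (j | j)
  · rw [if_neg (by simp)]; exact cr_cr i j
  · show cr i * an j + an j * cr i = _
    rw [add_comm, an_cr]
    congr 1
    simp
  · show an i * cr j + cr j * an i = _
    rw [an_cr]
    congr 1
    simp [eq_comm]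
  · rw [if_neg (by simp)]; exact an_an i j

/-! ### unitarity -/

theorem fock_inner (f g : Fock n) : ⟪f, g⟫_ℂ = ∑ S, conj (f S) * g S := by
  rw [PiLp.inner_apply]
  refine Finset.sum_congr rfl fun i _ => ?_
  simp
  rw [mul_comm]

theorem cr_adj (i : Fin n) (f g : Fock n) : ⟪cr i f, g⟫_ℂ = ⟪f, an i g⟫_ℂ := by
  rw [fock_inner, fock_inner]
  simp only [cr_apply, an_apply]
  rw [← Finset.sum_filter_add_sum_filter_not Finset.univ (fun S => i ∈ S)
      (fun S => conj (if i ∈ S then sg i S * f (S.erase i) else 0) * g S),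
    ← Finset.sum_filter_add_sum_filter_not Finset.univ (fun S => i ∉ S)
      (fun S => conj (f S) * (if i ∈ S then 0 else sg i S * g (insert i S)))]
  congr 1
  · refine Finset.sum_nbij' (fun S => S.erase i) (fun S => insert i S) ?_ ?_ ?_ ?_ ?_
    · intro S _; simp
    · intro S _; simp
    · intro S hS
      exact Finset.insert_erase (Finset.mem_filter.mp hS).2
    · intro S hS
      exact Finset.erase_insert (Finset.mem_filter.mp hS).2
    · intro S hS
      have hS' := (Finset.mem_filter.mp hS).2
      rw [if_pos hS', if_neg (Finset.notMem_erase i S), Finset.insert_erase hS',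
        sg_erase_self hS', map_mul, sg_conj]
      ring
  · rw [Finset.sum_eq_zero, Finset.sum_eq_zero]
    · intro S hS
      have hS' : i ∈ S := not_not.mp (Finset.mem_filter.mp hS).2
      rw [if_pos hS', mul_zero]
    · intro S hS
      rw [if_neg (Finset.mem_filter.mp hS).2, map_zero, zero_mul]

theorem an_adj (i : Fin n) (f g : Fock n) : ⟪an i f, g⟫_ℂ = ⟪f, cr i g⟫_ℂ := by
  rw [← inner_conj_symm, ← cr_adj, inner_conj_symm]

theorem cl_adj (b : Fin n ⊕ Fin n) (f g : Fock n) : ⟪cl b f, g⟫_ℂ = ⟪f, cl b.swap g⟫_ℂ := by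
  rcases b with i | i
  · exact cr_adj i f g
  · exact an_adj i f g

theorem rho_adj (M : Matrix (Fin n ⊕ Fin n) (Fin n ⊕ Fin n) ℂ) (f g : Fock n) :
    ⟪rho cl M f, g⟫_ℂ = ⟪f, rho cl M.conjTranspose g⟫_ℂ := by
  simp only [rho, quad, LinearMap.smul_apply, LinearMap.sum_apply, inner_smul_left,
    inner_smul_right, sum_inner, inner_sum, Module.End.mul_apply]
  congr 1
  · rw [map_inv₀, map_ofNat]
  · rw [Finset.sum_comm]
    refine Finset.sum_congr rfl fun b _ => Finset.sum_congr rfl fun b' _ => ?_
    rw [Matrix.conjTranspose_apply, cl_adj, cl_adj, Sum.swap_swap]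
    rfl

/-! ### the module -/

/-- `so(2n)` acts on the Fock space. -/
noncomputable instance fockRM : LieRingModule (so n) (Fock n) where
  bracket x f := rho cl x.1 f
  add_lie x y f := by
    show rho cl (x.1 + y.1) f = _
    rw [rho, quad_add, smul_add]
    rfl
  lie_add x f g := map_add _ _ _
  leibniz_lie x y f := by
    show rho cl x.1 (rho cl y.1 f) = rho cl (x.1 * y.1 - y.1 * x.1) f + rho cl y.1 (rho cl x.1 f)
    rw [cl_car.rho_bracket, LinearMap.sub_apply, Module.End.mul_apply, Module.End.mul_apply,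
      sub_add_cancel]

theorem fock_lie (x : so n) (f : Fock n) : ⁅x, f⁆ = rho cl x.1 f := rfl

noncomputable instance fockLM : LieModule ℂ (so n) (Fock n) where
  smul_lie c x f := by
    show rho cl (c • x.1) f = _
    rw [rho, quad_smul, smul_comm]
    rfl
  lie_smul c x f := map_smul _ _ _

theorem fock_unitary : IsUnitary (tau (n := n)) (Fock n) := fun x f g => rho_adj x.1 f g

theorem toEnd_fock (x : so n) : LieModule.toEnd ℂ (so n) (Fock n) x = rho cl x.1 := rfl

/-! ### root vectors -/

theorem quad_single_sub {A : Type*} [Ring A] [Algebra ℂ A] {c : Fin n ⊕ Fin n → A}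
    (a b a' b' : Fin n ⊕ Fin n) :
    quad c (Matrix.single a b 1 - Matrix.single a' b' 1) =
      c a * c b.swap - c a' * c b'.swap := by
  have h : ∀ a b : Fin n ⊕ Fin n, quad c (Matrix.single a b 1) = c a * c b.swap := by
    intro a b
    rw [quad, Finset.sum_eq_single a, Finset.sum_eq_single b]
    · rw [Matrix.single_apply_same, one_smul]
    · intro e _ he
      rw [Matrix.single_apply_of_ne _ _ _ _ _ (fun h => he h.2.symm), zero_smul]
    · intro h; exact absurd (Finset.mem_univ _) h
    · intro e _ he
      refine Finset.sum_eq_zero fun e' _ => ?_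
      rw [Matrix.single_apply_of_ne _ _ _ _ _ (fun h => he h.1.symm), zero_smul]
    · intro h; exact absurd (Finset.mem_univ _) h
  rw [sub_eq_add_neg, quad_add, h, sub_eq_add_neg]
  congr 1
  have := quad_smul c (-1 : ℂ) (Matrix.single a' b' 1)
  rw [neg_one_smul, h, neg_one_smul] at this
  exact this

theorem rho_root {A : Type*} [Ring A] [Algebra ℂ A] {c : Fin n ⊕ Fin n → A} (hc : IsCAR c)
    {x : so n} (hx : x ∈ rootSet n) : rho c x.1 * rho c x.1 = 0 := by
  have key : ∃ a b : Fin n ⊕ Fin n, b ≠ a.swap ∧ rho c x.1 = c a * c b := by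
    obtain ⟨i, j, hij, rfl | rfl | rfl⟩ := hx
    · refine ⟨Sum.inl i, Sum.inr j, by simpa using hij.symm, ?_⟩
      show (2⁻¹ : ℂ) • quad c (Matrix.single _ _ 1 - Matrix.single _ _ 1) = _
      rw [quad_single_sub]
      show (2⁻¹ : ℂ) • (c (Sum.inl i) * c (Sum.inr j) - c (Sum.inr j) * c (Sum.inl i)) = _
      rw [hc.anti (a := Sum.inr j) (b := Sum.inl i) (by simpa using hij), sub_neg_eq_add,
        ← two_smul ℂ, smul_smul, inv_mul_cancel₀ two_ne_zero, one_smul]
    · refine ⟨Sum.inl i, Sum.inl j, by simp, ?_⟩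
      show (2⁻¹ : ℂ) • quad c (Matrix.single _ _ 1 - Matrix.single _ _ 1) = _
      rw [quad_single_sub]
      show (2⁻¹ : ℂ) • (c (Sum.inl i) * c (Sum.inl j) - c (Sum.inl j) * c (Sum.inl i)) = _
      rw [hc.anti (a := Sum.inl j) (b := Sum.inl i) (by simp), sub_neg_eq_add,
        ← two_smul ℂ, smul_smul, inv_mul_cancel₀ two_ne_zero, one_smul]
    · refine ⟨Sum.inr i, Sum.inr j, by simp, ?_⟩
      show (2⁻¹ : ℂ) • quad c (Matrix.single _ _ 1 - Matrix.single _ _ 1) = _
      rw [quad_single_sub]
      show (2⁻¹ : ℂ) • (c (Sum.inr i) * c (Sum.inr j) - c (Sum.inr j) * c (Sum.inr i)) = _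
      rw [hc.anti (a := Sum.inr j) (b := Sum.inr i) (by simp), sub_neg_eq_add,
        ← two_smul ℂ, smul_smul, inv_mul_cancel₀ two_ne_zero, one_smul]
  obtain ⟨a, b, hab, e⟩ := key
  rw [e]
  exact hc.pair_sq hab

theorem fock_nilp {x : so n} (hx : x ∈ rootSet n) :
    IsNilpotent (LieModule.toEnd ℂ (so n) (Fock n) x) :=
  ⟨2, by rw [toEnd_fock, pow_two, rho_root cl_car hx]⟩

/-! ### highest weight vectors -/

/-- basis vectors -/
noncomputable def fv (S : Finset (Fin n)) : Fock n := WithLp.toLp 2 fun T => if T = S then 1 else 0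

theorem fv_apply (S T : Finset (Fin n)) : fv S T = if T = S then 1 else 0 := rfl

theorem fv_ne_zero (S : Finset (Fin n)) : fv S ≠ 0 := by
  intro h
  have : fv S S = 0 := by rw [h]; rfl
  rw [fv_apply, if_pos rfl] at this
  exact one_ne_zero this

theorem cr_fv_mem {i : Fin n} {S : Finset (Fin n)} (h : i ∈ S) : cr i (fv S) = 0 := by
  apply fock_ext
  intro T
  rw [cr_apply, fv_apply]
  show _ = (0 : ℂ)
  split_ifs with h1 h2
  · exact absurd (h2 ▸ h) (Finset.notMem_erase i T)
  · rw [mul_zero]
  · rfl

theorem cr_fv {i : Fin n} {S : Finset (Fin n)} (h : i ∉ S) :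
    cr i (fv S) = sg i S • fv (insert i S) := by
  apply fock_ext
  intro T
  rw [cr_apply, fv_apply, PiLp.smul_apply, fv_apply, smul_eq_mul]
  by_cases h1 : i ∈ T
  · rw [if_pos h1]
    by_cases h2 : T.erase i = S
    · have h3 : T = insert i S := by rw [← h2, Finset.insert_erase h1]
      rw [if_pos h2, if_pos h3, ← h2, sg_erase_self h1]
    · rw [if_neg h2, if_neg, mul_zero, mul_zero]
      rintro rfl
      exact h2 (Finset.erase_insert h)
  · rw [if_neg h1, if_neg, mul_zero]
    rintro rfl
    exact h1 (Finset.mem_insert_self _ _)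

theorem an_fv_notMem {i : Fin n} {S : Finset (Fin n)} (h : i ∉ S) : an i (fv S) = 0 := by
  apply fock_ext
  intro T
  rw [an_apply, fv_apply]
  show _ = (0 : ℂ)
  split_ifs with h1 h2
  · rfl
  · exact absurd (h2 ▸ Finset.mem_insert_self i T) h
  · rw [mul_zero]

theorem an_fv {i : Fin n} {S : Finset (Fin n)} (h : i ∈ S) :
    an i (fv S) = sg i S • fv (S.erase i) := by
  apply fock_ext
  intro T
  rw [an_apply, fv_apply, PiLp.smul_apply, fv_apply, smul_eq_mul]
  by_cases h1 : i ∈ T
  · rw [if_pos h1, if_neg, mul_zero]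
    rintro rfl
    exact Finset.notMem_erase i S h1
  · rw [if_neg h1]
    by_cases h2 : insert i T = S
    · have h3 : T = S.erase i := by rw [← h2, Finset.erase_insert h1]
      rw [if_pos h2, if_pos h3, ← h2, sg_insert_self h1]
    · rw [if_neg h2, if_neg, mul_zero, mul_zero]
      rintro rfl
      exact h2 (Finset.insert_erase h)

/-- the weight of a basis vector -/
def spinWt (S : Finset (Fin n)) (i : Fin n) : ℚ := if i ∈ S then 1 / 2 else -(1 / 2)

theorem rho_diag (a : Fin n → ℂ) (S : Finset (Fin n)) :
    rho cl (cartan a).1 (fv S) = (∑ i, (spinWt S i : ℂ) * a i) • fv S := by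
  rw [rho, quad, LinearMap.smul_apply, LinearMap.sum_apply]
  have h1 : ∀ b' : Fin n ⊕ Fin n,
      (∑ b, (cartan a).1 b' b • (cl b' * cl b.swap) : Module.End ℂ (Fock n)) (fv S) =
      (cartan a).1 b' b' • cl b' (cl b'.swap (fv S)) := by
    intro b'
    rw [Finset.sum_eq_single b']
    · rfl
    · intro b _ hb
      rw [cartan_val, Matrix.diagonal_apply_ne _ (Ne.symm hb), zero_smul]
    · intro h; exact absurd (Finset.mem_univ _) h
  rw [Finset.sum_congr rfl fun b' _ => h1 b', Fintype.sum_sum_type, ← Finset.sum_add_distrib]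
  rw [Finset.smul_sum, Finset.sum_smul]
  refine Finset.sum_congr rfl fun i _ => ?_
  show (2⁻¹ : ℂ) • ((cartan a).1 (Sum.inl i) (Sum.inl i) • cr i (an i (fv S)) +
    (cartan a).1 (Sum.inr i) (Sum.inr i) • an i (cr i (fv S))) = _
  have e1 : (cartan a).1 (Sum.inl i) (Sum.inl i) = a i := by simp [cartan_val]
  have e2 : (cartan a).1 (Sum.inr i) (Sum.inr i) = - a i := by simp [cartan_val]
  rw [e1, e2, spinWt]
  by_cases hi : i ∈ S
  · rw [cr_fv_mem hi, map_zero, smul_zero, add_zero, an_fv hi, map_smul,
      cr_fv (Finset.notMem_erase i S), Finset.insert_erase hi, sg_erase_self hi, if_pos hi,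
      smul_smul (sg i S), sg_sq, one_smul, smul_smul]
    congr 1
    push_cast
    ring
  · rw [an_fv_notMem hi, map_zero, smul_zero, zero_add, cr_fv hi, map_smul,
      an_fv (Finset.mem_insert_self i S), Finset.erase_insert hi, sg_insert_self hi, if_neg hi,
      smul_smul (sg i S), sg_sq, one_smul, smul_smul]
    congr 1
    push_cast
    ring

/-- `fv S` is a highest weight vector if `S` contains everything but possibly the last element. -/
theorem fv_isHW {S : Finset (Fin n)} (hS : ∀ i, i ∉ S → ∀ j, j ≤ i) :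
    IsHW (triD n) (chi (spinWt S)) (fv S) := by
  rw [isHW_iff]
  refine ⟨fun a => rho_diag a S, fun x hx => ?_⟩
  have hm := (mem_so_iff x.1).mp x.2
  rw [fock_lie, rho, quad, LinearMap.smul_apply, LinearMap.sum_apply]
  rw [Finset.sum_eq_zero, smul_zero]
  intro b' _
  rw [LinearMap.sum_apply]
  refine Finset.sum_eq_zero fun b _ => ?_
  rw [LinearMap.smul_apply, Module.End.mul_apply]
  rcases b' with i | i <;> rcases b with j | j
  · -- `cr i (an j _)`, needs `i < j`
    by_cases hij : j ≤ i
    · rw [hx.1 i j hij, zero_smul]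
    · push Not at hij
      show _ • cr i (an j (fv S)) = 0
      by_cases hj : j ∈ S
      · have hi : i ∈ S := by
          by_contra h
          exact absurd (hS i h j) (not_le.mpr hij)
        rw [an_fv hj, map_smul, cr_fv_mem (Finset.mem_erase.mpr ⟨hij.ne, hi⟩), smul_zero,
          smul_zero]
      · rw [an_fv_notMem hj, map_zero, smul_zero]
  · show _ • cr i (cr j (fv S)) = 0
    by_cases hij : i = j
    · subst hij
      have h1 : x.1 (Sum.inl i) (Sum.inr i) = 0 := by
        have := (hm i i).2.1
        have h2 : (2 : ℂ) * x.1 (Sum.inl i) (Sum.inr i) = 0 := by linear_combination this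
        exact (mul_eq_zero.mp h2).resolve_left two_ne_zero
      rw [h1, zero_smul]
    · by_cases hj : j ∈ S
      · rw [cr_fv_mem hj, map_zero, smul_zero]
      · have hi : i ∈ S := by
          by_contra h
          exact hij (le_antisymm (hS j hj i) (hS i h j))
        rw [cr_fv hj, map_smul, cr_fv_mem (Finset.mem_insert_of_mem hi), smul_zero, smul_zero]
  · rw [hx.2, zero_smul]
  · -- `an i (cr j _)`, needs `j < i`
    show x.1 (Sum.inr i) (Sum.inr j) • an i (cr j (fv S)) = 0
    rw [(hm j i).1]
    by_cases hij : i ≤ j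
    · rw [hx.1 j i hij, neg_zero, zero_smul]
    · push Not at hij
      have hj : j ∈ S := by
        by_contra h
        exact absurd (hS j h i) (not_le.mpr hij)
      rw [cr_fv_mem hj, map_zero, smul_zero]

end Vale.Agent.P182
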