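import Vale.Agent.P182.H163.Spin
import Vale.Agent.P182.H163.Model

/-!
# Models of all irreducible modules; squares
-/

namespace Vale.Agent.P182

open scoped InnerProductSpace ComplexConjugate TensorProduct

section general

variable {L : Type*} [LieRing L] [LieAlgebra ℂ L]
variable {E F : Type*} [AddCommGroup E] [Module ℂ E] [LieRingModule L E] [LieModule ℂ L E]
  [AddCommGroup F] [Module ℂ F] [LieRingModule L F] [LieModule ℂ L F]

theorem isHW_tmul (T : Tri L) {χ χ' : L → ℂ} {v : E} {w : F} (hv : IsHW T χ v)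
    (hw : IsHW T χ' w) : IsHW T (χ + χ') (v ⊗ₜ[ℂ] w) := by
  intro b hb
  rw [TensorProduct.LieModule.lie_tmul_right, hv b hb, hw b hb, TensorProduct.smul_tmul,
    TensorProduct.tmul_smul, TensorProduct.tmul_smul, Pi.add_apply, add_smul]

/-- `A ↦ A ⊗ 1`. -/
noncomputable def tl (A : Module.End ℂ E) : Module.End ℂ (E ⊗[ℂ] F) :=
  TensorProduct.map A LinearMap.id

/-- `A ↦ 1 ⊗ A`. -/
noncomputable def tr (A : Module.End ℂ F) : Module.End ℂ (E ⊗[ℂ] F) :=
  TensorProduct.map LinearMap.id A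

theorem tl_pow (A : Module.End ℂ E) (k : ℕ) :
    (tl (F := F) A) ^ k = tl (A ^ k) := by
  induction k with
  | zero => rw [pow_zero, pow_zero]; exact (TensorProduct.map_id (R := ℂ) (M := E) (N := F)).symm
  | succ k ih =>
    rw [pow_succ, pow_succ, ih]
    ext a b
    rfl

theorem tr_pow (A : Module.End ℂ F) (k : ℕ) :
    (tr (E := E) A) ^ k = tr (A ^ k) := by
  induction k with
  | zero => rw [pow_zero, pow_zero]; exact (TensorProduct.map_id (R := ℂ) (M := E) (N := F)).symm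
  | succ k ih =>
    rw [pow_succ, pow_succ, ih]
    ext a b
    rfl

theorem tl_zero : tl (F := F) (0 : Module.End ℂ E) = 0 := TensorProduct.map_zero_left _

theorem tr_zero : tr (E := E) (0 : Module.End ℂ F) = 0 := TensorProduct.map_zero_right _

theorem tl_smul (c : ℂ) (A : Module.End ℂ E) : tl (F := F) (c • A) = c • tl A :=
  TensorProduct.map_smul_left _ _ _

theorem tr_smul (c : ℂ) (A : Module.End ℂ F) : tr (E := E) (c • A) = c • tr A :=
  TensorProduct.map_smul_right _ _ _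

theorem tl_tr_comm (A : Module.End ℂ E) (B : Module.End ℂ F) : Commute (tl A) (tr B) := by
  ext a b
  rfl

theorem toEnd_tensor (x : L) : LieModule.toEnd ℂ L (E ⊗[ℂ] F) x =
    tl (LieModule.toEnd ℂ L E x) + tr (LieModule.toEnd ℂ L F x) := by
  ext a b
  show ⁅x, a ⊗ₜ[ℂ] b⁆ = _
  rw [TensorProduct.LieModule.lie_tmul_right]
  rfl

theorem tl_nilp {A : Module.End ℂ E} (h : IsNilpotent A) : IsNilpotent (tl (F := F) A) := by
  obtain ⟨k, hk⟩ := h
  exact ⟨k, by rw [tl_pow, hk, tl_zero]⟩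

theorem tr_nilp {A : Module.End ℂ F} (h : IsNilpotent A) : IsNilpotent (tr (E := E) A) := by
  obtain ⟨k, hk⟩ := h
  exact ⟨k, by rw [tr_pow, hk, tr_zero]⟩

theorem nilp_tensor {x : L} (hE : IsNilpotent (LieModule.toEnd ℂ L E x))
    (hF : IsNilpotent (LieModule.toEnd ℂ L F x)) :
    IsNilpotent (LieModule.toEnd ℂ L (E ⊗[ℂ] F) x) := by
  rw [toEnd_tensor]
  exact (tl_tr_comm _ _).isNilpotent_add (tl_nilp hE) (tr_nilp hF)

theorem ex_tl {A : Module.End ℂ E} (h : IsNilpotent A) : ex (tl (F := F) A) = tl (ex A) := by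
  obtain ⟨k, hk⟩ := h
  rw [ex_eq_sum hk, ex_eq_sum (k := k) (by rw [tl_pow, hk, tl_zero])]
  simp only [tl_pow]
  ext a b
  simp only [tl, TensorProduct.AlgebraTensorModule.curry_apply, TensorProduct.curry_apply,
    LinearMap.coe_restrictScalars, LinearMap.sum_apply, LinearMap.smul_apply,
    TensorProduct.map_tmul, LinearMap.id_coe, id_eq, TensorProduct.sum_tmul]
  exact Finset.sum_congr rfl fun i _ => (TensorProduct.smul_tmul' _ _ _)

theorem ex_tr {A : Module.End ℂ F} (h : IsNilpotent A) : ex (tr (E := E) A) = tr (ex A) := by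
  obtain ⟨k, hk⟩ := h
  rw [ex_eq_sum hk, ex_eq_sum (k := k) (by rw [tr_pow, hk, tr_zero])]
  simp only [tr_pow]
  ext a b
  simp only [tr, TensorProduct.AlgebraTensorModule.curry_apply, TensorProduct.curry_apply,
    LinearMap.coe_restrictScalars, LinearMap.sum_apply, LinearMap.smul_apply,
    TensorProduct.map_tmul, LinearMap.id_coe, id_eq, TensorProduct.tmul_sum,
    TensorProduct.tmul_smul]

/-- exponentials act diagonally -/
theorem ex_tensor {x : L} (hE : IsNilpotent (LieModule.toEnd ℂ L E x))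
    (hF : IsNilpotent (LieModule.toEnd ℂ L F x)) (s : ℂ) (a : E) (b : F) :
    ex (s • LieModule.toEnd ℂ L (E ⊗[ℂ] F) x) (a ⊗ₜ[ℂ] b) =
      ex (s • LieModule.toEnd ℂ L E x) a ⊗ₜ[ℂ] ex (s • LieModule.toEnd ℂ L F x) b := by
  have h1 := isNilpotent_smul' _ hE s
  have h2 := isNilpotent_smul' _ hF s
  rw [toEnd_tensor, smul_add, ← tl_smul, ← tr_smul, ex_add (tl_tr_comm _ _) (tl_nilp h1)
    (tr_nilp h2), ex_tl h1, ex_tr h2]
  rfl

theorem orb_sq (R : Set L) (hR : ∀ x ∈ R, IsNilpotent (LieModule.toEnd ℂ L E x)) {v w : E}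
    (hw : Orb R v w) : Orb R (v ⊗ₜ[ℂ] v) (w ⊗ₜ[ℂ] w) := by
  induction hw with
  | base => exact Orb.base
  | step x hx s w _ ih =>
    rw [← ex_tensor (hR x hx) (hR x hx)]
    exact Orb.step x hx s _ ih

/-- The value of an invariant functional at orbit points. -/
theorem exists_orb_ne {E₁ E₂ E₃ : Type*} [AddCommGroup E₁] [Module ℂ E₁] [LieRingModule L E₁]
    [LieModule ℂ L E₁] [AddCommGroup E₂] [Module ℂ E₂] [LieRingModule L E₂] [LieModule ℂ L E₂]
    [AddCommGroup E₃] [Module ℂ E₃] [LieRingModule L E₃] [LieModule ℂ L E₃]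
    (R : Set L) (hgen : LieSubalgebra.lieSpan ℂ L R = ⊤)
    (h₁ : ∀ x ∈ R, IsNilpotent (LieModule.toEnd ℂ L E₁ x))
    (h₂ : ∀ x ∈ R, IsNilpotent (LieModule.toEnd ℂ L E₂ x))
    (h₃ : ∀ x ∈ R, IsNilpotent (LieModule.toEnd ℂ L E₃ x)) (T : Tri L)
    {χ₁ χ₂ χ₃ : L → ℂ} {v₁ : E₁} {v₂ : E₂} {v₃ : E₃}
    (hv₁ : IsHW T χ₁ v₁) (hv₂ : IsHW T χ₂ v₂) (hv₃ : IsHW T χ₃ v₃)
    (f : E₁ ⊗[ℂ] (E₂ ⊗[ℂ] E₃) →ₗ[ℂ] ℂ)
    (h : ∃ a ∈ cyc T hv₁, ∃ b ∈ cyc T hv₂, ∃ c ∈ cyc T hv₃, f (a ⊗ₜ[ℂ] (b ⊗ₜ[ℂ] c)) ≠ 0) :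
    ∃ a, Orb R v₁ a ∧ ∃ b, Orb R v₂ b ∧ ∃ c, Orb R v₃ c ∧ f (a ⊗ₜ[ℂ] (b ⊗ₜ[ℂ] c)) ≠ 0 := by
  by_contra hcon
  push Not at hcon
  obtain ⟨a, ha, b, hb, c, hc, hne⟩ := h
  have ha' : a ∈ Submodule.span ℂ {w | Orb R v₁ w} := by
    rw [← cyc_eq_span_orb R h₁ hgen T hv₁]; exact ha
  have hb' : b ∈ Submodule.span ℂ {w | Orb R v₂ w} := by
    rw [← cyc_eq_span_orb R h₂ hgen T hv₂]; exact hb
  have hc' : c ∈ Submodule.span ℂ {w | Orb R v₃ w} := by
    rw [← cyc_eq_span_orb R h₃ hgen T hv₃]; exact hc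
  apply hne
  clear hne ha hb hc
  induction ha' using Submodule.span_induction with
  | zero => simp
  | add x y _ _ hx hy => rw [TensorProduct.add_tmul, map_add, hx, hy, add_zero]
  | smul t x _ hx => rw [← TensorProduct.smul_tmul', map_smul, hx, smul_zero]
  | mem a ha =>
    induction hb' using Submodule.span_induction with
    | zero => simp
    | add x y _ _ hx hy =>
      rw [TensorProduct.add_tmul, TensorProduct.tmul_add, map_add, hx, hy, add_zero]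
    | smul t x _ hx =>
      rw [← TensorProduct.smul_tmul', TensorProduct.tmul_smul, map_smul, hx, smul_zero]
    | mem b hb =>
      induction hc' using Submodule.span_induction with
      | zero => simp
      | add x y _ _ hx hy =>
        rw [TensorProduct.tmul_add, TensorProduct.tmul_add, map_add, hx, hy, add_zero]
      | smul t x _ hx =>
        rw [TensorProduct.tmul_smul, TensorProduct.tmul_smul, map_smul, hx, smul_zero]
      | mem c hc => exact hcon a ha b hb c hc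

end general

section square

variable {L : Type*} [LieRing L] [LieAlgebra ℂ L]
variable {E₁ E₂ E₃ : Type*}
  [AddCommGroup E₁] [Module ℂ E₁] [LieRingModule L E₁] [LieModule ℂ L E₁]
  [AddCommGroup E₂] [Module ℂ E₂] [LieRingModule L E₂] [LieModule ℂ L E₂]
  [AddCommGroup E₃] [Module ℂ E₃] [LieRingModule L E₃] [LieModule ℂ L E₃]

/-- The square of a functional. -/
noncomputable def sqF (f : E₁ ⊗[ℂ] (E₂ ⊗[ℂ] E₃) →ₗ[ℂ] ℂ) :
    (E₁ ⊗[ℂ] E₁) ⊗[ℂ] ((E₂ ⊗[ℂ] E₂) ⊗[ℂ] (E₃ ⊗[ℂ] E₃)) →ₗ[ℂ] ℂ :=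
  (LinearMap.mul' ℂ ℂ ∘ₗ TensorProduct.map f f) ∘ₗ
    ((TensorProduct.tensorTensorTensorComm ℂ E₁ E₁ (E₂ ⊗[ℂ] E₃) (E₂ ⊗[ℂ] E₃)).toLinearMap ∘ₗ
      TensorProduct.map LinearMap.id
        (TensorProduct.tensorTensorTensorComm ℂ E₂ E₂ E₃ E₃).toLinearMap)

theorem sqF_apply (f : E₁ ⊗[ℂ] (E₂ ⊗[ℂ] E₃) →ₗ[ℂ] ℂ) (a a' : E₁) (b b' : E₂) (c c' : E₃) :
    sqF f ((a ⊗ₜ[ℂ] a') ⊗ₜ[ℂ] ((b ⊗ₜ[ℂ] b') ⊗ₜ[ℂ] (c ⊗ₜ[ℂ] c'))) =
      f (a ⊗ₜ[ℂ] (b ⊗ₜ[ℂ] c)) * f (a' ⊗ₜ[ℂ] (b' ⊗ₜ[ℂ] c')) := by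
  simp [sqF]

theorem sqF_inv (f : E₁ ⊗[ℂ] (E₂ ⊗[ℂ] E₃) →ₗ[ℂ] ℂ) (hf : ∀ (x : L) u, f ⁅x, u⁆ = 0) (x : L)
    (u : (E₁ ⊗[ℂ] E₁) ⊗[ℂ] ((E₂ ⊗[ℂ] E₂) ⊗[ℂ] (E₃ ⊗[ℂ] E₃))) : sqF f ⁅x, u⁆ = 0 := by
  induction u using TensorProduct.induction_on with
  | zero => simp
  | add u v hu hv => rw [lie_add, map_add, hu, hv, add_zero]
  | tmul p q =>
    induction p using TensorProduct.induction_on with
    | zero => simp
    | add p p' hp hp' => rw [TensorProduct.add_tmul, lie_add, map_add, hp, hp', add_zero]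
    | tmul a a' =>
      induction q using TensorProduct.induction_on with
      | zero => simp
      | add q q' hq hq' => rw [TensorProduct.tmul_add, lie_add, map_add, hq, hq', add_zero]
      | tmul r t =>
        induction r using TensorProduct.induction_on with
        | zero => simp
        | add r r' hr hr' =>
          rw [TensorProduct.add_tmul, TensorProduct.tmul_add, lie_add, map_add, hr, hr', add_zero]
        | tmul b b' =>
          induction t using TensorProduct.induction_on with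
          | zero => simp
          | add t t' ht ht' =>
            rw [TensorProduct.tmul_add, TensorProduct.tmul_add, lie_add, map_add, ht, ht',
              add_zero]
          | tmul c c' =>
            have h1 := hf x (a ⊗ₜ[ℂ] (b ⊗ₜ[ℂ] c))
            have h2 := hf x (a' ⊗ₜ[ℂ] (b' ⊗ₜ[ℂ] c'))
            simp only [TensorProduct.LieModule.lie_tmul_right, TensorProduct.tmul_add,
              TensorProduct.add_tmul, map_add] at h1 h2 ⊢
            simp only [sqF_apply]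
            linear_combination (f (a' ⊗ₜ[ℂ] (b' ⊗ₜ[ℂ] c'))) * h1 + (f (a ⊗ₜ[ℂ] (b ⊗ₜ[ℂ] c))) * h2

end square

end Vale.Agent.P182
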