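import Vale.Agent.P182.H163.Unit
import Vale.Agent.P182.H163.Orbit
import Mathlib.LinearAlgebra.Matrix.Determinant.Basic
import Mathlib.LinearAlgebra.Matrix.ConjTranspose
import Mathlib.Data.Finset.NoncommProd
import Mathlib.LinearAlgebra.Multilinear.Basic
import Mathlib.GroupTheory.Perm.Sign
import Mathlib.Analysis.InnerProductSpace.PiL2
import Mathlib.LinearAlgebra.Matrix.ToLin

/-!
# Tensor powers as function spaces
-/

namespace Vale.Agent.P182

open scoped InnerProductSpace ComplexConjugate

/-- The tensor power `(ℂ^B)^{⊗ J}`, as functions on `J → B`. -/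
abbrev TF (J B : Type*) [Fintype J] [Fintype B] [DecidableEq J] := EuclideanSpace ℂ (J → B)

variable {J B : Type*} [Fintype J] [Fintype B] [DecidableEq J]

theorem tf_ext {f g : TF J B} (h : ∀ β, f β = g β) : f = g := PiLp.ext h

theorem tf_inner (f g : TF J B) : ⟪f, g⟫_ℂ = ∑ β, conj (f β) * g β := by
  rw [PiLp.inner_apply]
  refine Finset.sum_congr rfl fun i _ => ?_
  simp
  rw [mul_comm]

/-- `x` acting in the tensor slot `j`. -/
noncomputable def slot (j : J) (x : Matrix B B ℂ) : Module.End ℂ (TF J B) where
  toFun f := WithLp.toLp 2 fun β => ∑ b, x (β j) b * f (Function.update β j b)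
  map_add' f g := by
    apply tf_ext
    intro β
    show ∑ b, x (β j) b * (f + g) (Function.update β j b) =
      ∑ b, x (β j) b * f (Function.update β j b) + ∑ b, x (β j) b * g (Function.update β j b)
    rw [← Finset.sum_add_distrib]
    refine Finset.sum_congr rfl fun b _ => ?_
    rw [PiLp.add_apply, mul_add]
  map_smul' c f := by
    apply tf_ext
    intro β
    show ∑ b, x (β j) b * (c • f) (Function.update β j b) =
      c * ∑ b, x (β j) b * f (Function.update β j b)
    rw [Finset.mul_sum]
    refine Finset.sum_congr rfl fun b _ => ?_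
    rw [PiLp.smul_apply, smul_eq_mul]
    ring

theorem slot_apply (j : J) (x : Matrix B B ℂ) (f : TF J B) (β : J → B) :
    slot j x f β = ∑ b, x (β j) b * f (Function.update β j b) := rfl

theorem slot_add (j : J) (x y : Matrix B B ℂ) :
    (slot j (x + y) : Module.End ℂ (TF J B)) = slot j x + slot j y := by
  ext f β
  rw [slot_apply, LinearMap.add_apply, PiLp.add_apply, slot_apply, slot_apply,
    ← Finset.sum_add_distrib]
  exact Finset.sum_congr rfl fun b _ => by rw [Matrix.add_apply, add_mul]

theorem slot_smul (j : J) (c : ℂ) (x : Matrix B B ℂ) :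
    (slot j (c • x) : Module.End ℂ (TF J B)) = c • slot j x := by
  ext f β
  rw [slot_apply, LinearMap.smul_apply, PiLp.smul_apply, slot_apply, smul_eq_mul, Finset.mul_sum]
  exact Finset.sum_congr rfl fun b _ => by rw [Matrix.smul_apply, smul_eq_mul, mul_assoc]

theorem slot_mul (j : J) (x y : Matrix B B ℂ) :
    (slot j (x * y) : Module.End ℂ (TF J B)) = slot j x * slot j y := by
  ext f β
  rw [Module.End.mul_apply, slot_apply, slot_apply]
  simp only [slot_apply, Function.update_self, Function.update_idem, Finset.mul_sum]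
  rw [Finset.sum_comm]
  refine Finset.sum_congr rfl fun b _ => ?_
  rw [Matrix.mul_apply, Finset.sum_mul]
  exact Finset.sum_congr rfl fun b' _ => by rw [mul_assoc]

theorem slot_zero (j : J) : (slot j 0 : Module.End ℂ (TF J B)) = 0 := by
  have := slot_smul (B := B) j (0 : ℂ) 0
  simpa using this

theorem slot_one [DecidableEq B] (j : J) : (slot j 1 : Module.End ℂ (TF J B)) = 1 := by
  ext f β
  rw [slot_apply, Module.End.one_apply, Finset.sum_eq_single (β j)]
  · rw [Matrix.one_apply_eq, one_mul, Function.update_eq_self]
  · intro b _ hb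
    rw [Matrix.one_apply_ne (Ne.symm hb), zero_mul]
  · intro h
    exact absurd (Finset.mem_univ _) h

theorem slot_comm {j k : J} (h : j ≠ k) (x y : Matrix B B ℂ) :
    Commute (slot j x : Module.End ℂ (TF J B)) (slot k y) := by
  ext f β
  rw [Module.End.mul_apply, Module.End.mul_apply, slot_apply, slot_apply]
  simp only [slot_apply, Function.update_of_ne h.symm, Function.update_of_ne h, Finset.mul_sum]
  rw [Finset.sum_comm]
  refine Finset.sum_congr rfl fun b _ => Finset.sum_congr rfl fun b' _ => ?_
  rw [Function.update_comm h]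
  ring

/-- The action of a matrix on the tensor power (as a derivation). -/
noncomputable def act (x : Matrix B B ℂ) : Module.End ℂ (TF J B) := ∑ j, slot j x

theorem act_add (x y : Matrix B B ℂ) :
    (act (x + y) : Module.End ℂ (TF J B)) = act x + act y := by
  simp only [act, slot_add, Finset.sum_add_distrib]

theorem act_smul (c : ℂ) (x : Matrix B B ℂ) :
    (act (c • x) : Module.End ℂ (TF J B)) = c • act x := by
  simp only [act, slot_smul, Finset.smul_sum]

theorem act_bracket (x y : Matrix B B ℂ) :
    (act (x * y - y * x) : Module.End ℂ (TF J B)) = act x * act y - act y * act x := by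
  simp only [act, Finset.sum_mul_sum]
  rw [Finset.sum_comm (s := Finset.univ) (t := Finset.univ) (f := fun i j => slot i y * slot j x)]
  rw [← Finset.sum_sub_distrib]
  refine Finset.sum_congr rfl fun j _ => ?_
  rw [← Finset.sum_sub_distrib, Finset.sum_eq_single j]
  · rw [← slot_mul, ← slot_mul, sub_eq_add_neg, sub_eq_add_neg, slot_add]
    congr 1
    have := slot_smul (B := B) j (-1 : ℂ) (y * x)
    simpa using this
  · intro k _ hk
    rw [(slot_comm hk.symm x y).eq, sub_self]
  · intro h
    exact absurd (Finset.mem_univ _) h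

/-- Adjoint of a slot. -/
theorem slot_adj (j : J) (x : Matrix B B ℂ) (f g : TF J B) :
    ⟪slot j x f, g⟫_ℂ = ⟪f, slot j x.conjTranspose g⟫_ℂ := by
  rw [tf_inner, tf_inner]
  simp only [slot_apply, map_sum, map_mul, Finset.sum_mul, Finset.mul_sum]
  rw [← Finset.sum_product', ← Finset.sum_product']
  refine Finset.sum_nbij' (fun p => (Function.update p.1 j p.2, p.1 j))
    (fun p => (Function.update p.1 j p.2, p.1 j)) ?_ ?_ ?_ ?_ ?_
  · intro p _; simp
  · intro p _; simp
  · intro p _; simp
  · intro p _; simp
  · intro p _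
    simp only [Function.update_self, Function.update_idem, Function.update_eq_self,
      Matrix.conjTranspose_apply]
    simp
    ring

theorem act_adj (x : Matrix B B ℂ) (f g : TF J B) :
    ⟪act x f, g⟫_ℂ = ⟪f, act x.conjTranspose g⟫_ℂ := by
  rw [act, act, LinearMap.sum_apply, LinearMap.sum_apply, sum_inner, inner_sum]
  exact Finset.sum_congr rfl fun j _ => slot_adj j x f g

theorem slot_nilp (j : J) {x : Matrix B B ℂ} (hx : x * x = 0) :
    IsNilpotent (slot j x : Module.End ℂ (TF J B)) :=
  ⟨2, by rw [pow_two, ← slot_mul, hx, slot_zero]⟩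

theorem isNilpotent_sum_slot {x : Matrix B B ℂ} (hx : x * x = 0) (S : Finset J) :
    IsNilpotent (∑ j ∈ S, (slot j x : Module.End ℂ (TF J B))) := by
  refine Commute.isNilpotent_sum (fun j _ => slot_nilp j hx) ?_
  intro j k _ _
  by_cases h : j = k
  · subst h; exact Commute.refl _
  · exact slot_comm h x x

theorem act_nilp {x : Matrix B B ℂ} (hx : x * x = 0) :
    IsNilpotent (act x : Module.End ℂ (TF J B)) :=
  isNilpotent_sum_slot hx Finset.univ

/-- The group action of a matrix on the tensor power, in the slots `S`. -/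
noncomputable def grp (S : Finset J) (g : Matrix B B ℂ) : Module.End ℂ (TF J B) :=
  S.noncommProd (fun j => slot j g) fun _ _ _ _ h => slot_comm h g g

theorem grp_empty (g : Matrix B B ℂ) : (grp (∅ : Finset J) g : Module.End ℂ (TF J B)) = 1 :=
  Finset.noncommProd_empty _ _

theorem grp_insert {S : Finset J} {a : J} (ha : a ∉ S) (g : Matrix B B ℂ) :
    (grp (insert a S) g : Module.End ℂ (TF J B)) = slot a g * grp S g :=
  Finset.noncommProd_insert_of_notMem _ _ _ _ ha

/-- `1 + x` acts on the tensor power by the exponential, if `x² = 0`. -/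
theorem grp_eq_ex [DecidableEq B] {x : Matrix B B ℂ} (hx : x * x = 0) (S : Finset J) :
    (grp S (1 + x) : Module.End ℂ (TF J B)) = ex (∑ j ∈ S, slot j x) := by
  induction S using Finset.induction_on with
  | empty => rw [grp_empty, Finset.sum_empty, ex_zero]
  | insert a S ha ih =>
    rw [grp_insert ha, ih, Finset.sum_insert ha, ex_add]
    · congr 1
      rw [slot_add, slot_one, ex_eq_sum (k := 2) (by rw [pow_two, ← slot_mul, hx, slot_zero])]
      simp [Finset.sum_range_succ]
    · refine Commute.sum_right _ _ _ fun j hj => slot_comm ?_ x x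
      rintro rfl
      exact ha hj
    · exact slot_nilp a hx
    · exact isNilpotent_sum_slot hx S

theorem grp_univ_eq_ex [DecidableEq B] {x : Matrix B B ℂ} (hx : x * x = 0) :
    (grp Finset.univ (1 + x) : Module.End ℂ (TF J B)) = ex (act x) :=
  grp_eq_ex hx Finset.univ

/-- Pure tensors. -/
noncomputable def pt (v : J → B → ℂ) : TF J B := WithLp.toLp 2 fun β => ∏ j, v j (β j)

theorem pt_apply (v : J → B → ℂ) (β : J → B) : pt v β = ∏ j, v j (β j) := rfl

theorem slot_pt (j : J) (x : Matrix B B ℂ) (v : J → B → ℂ) :
    slot j x (pt v) = pt (Function.update v j (x.mulVec (v j))) := by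
  apply tf_ext
  intro β
  rw [slot_apply, pt_apply, ← Finset.mul_prod_erase Finset.univ _ (Finset.mem_univ j)]
  rw [Function.update_self, Matrix.mulVec, dotProduct, Finset.sum_mul]
  refine Finset.sum_congr rfl fun b _ => ?_
  rw [pt_apply, ← Finset.mul_prod_erase Finset.univ _ (Finset.mem_univ j), Function.update_self,
    mul_assoc]
  congr 2
  refine Finset.prod_congr rfl fun k hk => ?_
  have hk' : k ≠ j := (Finset.mem_erase.mp hk).1
  rw [Function.update_of_ne hk', Function.update_of_ne hk']

theorem grp_pt (S : Finset J) (g : Matrix B B ℂ) (v : J → B → ℂ) :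
    grp S g (pt v) = pt (fun j => if j ∈ S then g.mulVec (v j) else v j) := by
  induction S using Finset.induction_on with
  | empty => rw [grp_empty]; simp
  | insert a S ha ih =>
    rw [grp_insert ha, Module.End.mul_apply, ih, slot_pt]
    congr 1
    funext j
    by_cases hj : j = a
    · subst hj
      rw [Function.update_self, if_neg ha, if_pos (Finset.mem_insert_self _ _)]
    · rw [Function.update_of_ne hj]
      simp [hj]

theorem grp_univ_pt (g : Matrix B B ℂ) (v : J → B → ℂ) :
    grp Finset.univ g (pt v) = pt (fun j => g.mulVec (v j)) := by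
  rw [grp_pt]
  simp

end Vale.Agent.P182
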