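import Vale.Agent.P182.H163.Model

/-!
# Invariants as invariant functionals on a tensor power
-/

namespace Vale.Agent.P182

open scoped InnerProductSpace ComplexConjugate TensorProduct

section triple

variable {J₀ J₁ J₂ B : Type*} [Fintype J₀] [Fintype J₁] [Fintype J₂] [Fintype B]
  [DecidableEq J₀] [DecidableEq J₁] [DecidableEq J₂]

/-- restriction of indices -/
def r0 (β : J₀ ⊕ (J₁ ⊕ J₂) → B) : J₀ → B := fun j => β (Sum.inl j)
/-- restriction of indices -/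
def r1 (β : J₀ ⊕ (J₁ ⊕ J₂) → B) : J₁ → B := fun j => β (Sum.inr (Sum.inl j))
/-- restriction of indices -/
def r2 (β : J₀ ⊕ (J₁ ⊕ J₂) → B) : J₂ → B := fun j => β (Sum.inr (Sum.inr j))

/-- The product of three tensors. -/
noncomputable def pr3 (f₀ : TF J₀ B) (f₁ : TF J₁ B) (f₂ : TF J₂ B) : TF (J₀ ⊕ (J₁ ⊕ J₂)) B :=
  WithLp.toLp 2 fun β => f₀ (r0 β) * (f₁ (r1 β) * f₂ (r2 β))

theorem pr3_apply (f₀ : TF J₀ B) (f₁ : TF J₁ B) (f₂ : TF J₂ B) (β : J₀ ⊕ (J₁ ⊕ J₂) → B) :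
    pr3 f₀ f₁ f₂ β = f₀ (r0 β) * (f₁ (r1 β) * f₂ (r2 β)) := rfl

theorem slot_pr3_0 (j : J₀) (x : Matrix B B ℂ) (f₀ : TF J₀ B) (f₁ : TF J₁ B) (f₂ : TF J₂ B) :
    slot (Sum.inl j) x (pr3 f₀ f₁ f₂) = pr3 (slot j x f₀) f₁ f₂ := by
  apply tf_ext
  intro β
  rw [slot_apply, pr3_apply, slot_apply, Finset.sum_mul]
  refine Finset.sum_congr rfl fun b _ => ?_
  have e0 : r0 (Function.update β (Sum.inl j) b) = Function.update (r0 β) j b := by
    funext k
    by_cases h : k = j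
    · subst h; simp [r0]
    · simp [r0, h]
  have e1 : r1 (Function.update β (Sum.inl j) b) = r1 β := by
    funext k; simp [r1]
  have e2 : r2 (Function.update β (Sum.inl j) b) = r2 β := by
    funext k; simp [r2]
  rw [pr3_apply, e0, e1, e2, mul_assoc]
  rfl

theorem slot_pr3_1 (j : J₁) (x : Matrix B B ℂ) (f₀ : TF J₀ B) (f₁ : TF J₁ B) (f₂ : TF J₂ B) :
    slot (Sum.inr (Sum.inl j)) x (pr3 f₀ f₁ f₂) = pr3 f₀ (slot j x f₁) f₂ := by
  apply tf_ext
  intro β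
  rw [slot_apply, pr3_apply, slot_apply, Finset.sum_mul, Finset.mul_sum]
  refine Finset.sum_congr rfl fun b _ => ?_
  have e1 : r1 (Function.update β (Sum.inr (Sum.inl j)) b) = Function.update (r1 β) j b := by
    funext k
    by_cases h : k = j
    · subst h; simp [r1]
    · simp [r1, h]
  have e0 : r0 (Function.update β (Sum.inr (Sum.inl j)) b) = r0 β := by
    funext k; simp [r0]
  have e2 : r2 (Function.update β (Sum.inr (Sum.inl j)) b) = r2 β := by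
    funext k; simp [r2]
  rw [pr3_apply, e0, e1, e2]
  show _ = _ * (x (β (Sum.inr (Sum.inl j))) b * _ * _)
  ring

theorem slot_pr3_2 (j : J₂) (x : Matrix B B ℂ) (f₀ : TF J₀ B) (f₁ : TF J₁ B) (f₂ : TF J₂ B) :
    slot (Sum.inr (Sum.inr j)) x (pr3 f₀ f₁ f₂) = pr3 f₀ f₁ (slot j x f₂) := by
  apply tf_ext
  intro β
  rw [slot_apply, pr3_apply, slot_apply, Finset.mul_sum, Finset.mul_sum]
  refine Finset.sum_congr rfl fun b _ => ?_
  have e2 : r2 (Function.update β (Sum.inr (Sum.inr j)) b) = Function.update (r2 β) j b := by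
    funext k
    by_cases h : k = j
    · subst h; simp [r2]
    · simp [r2, h]
  have e0 : r0 (Function.update β (Sum.inr (Sum.inr j)) b) = r0 β := by
    funext k; simp [r0]
  have e1 : r1 (Function.update β (Sum.inr (Sum.inr j)) b) = r1 β := by
    funext k; simp [r1]
  rw [pr3_apply, e0, e1, e2]
  show _ = _ * (_ * (x (β (Sum.inr (Sum.inr j))) b * _))
  ring

theorem pr3_add_0 (f f' : TF J₀ B) (f₁ : TF J₁ B) (f₂ : TF J₂ B) :
    pr3 (f + f') f₁ f₂ = pr3 f f₁ f₂ + pr3 f' f₁ f₂ := by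
  apply tf_ext; intro β
  rw [PiLp.add_apply, pr3_apply, pr3_apply, pr3_apply, PiLp.add_apply, add_mul]

theorem pr3_add_1 (f₀ : TF J₀ B) (f f' : TF J₁ B) (f₂ : TF J₂ B) :
    pr3 f₀ (f + f') f₂ = pr3 f₀ f f₂ + pr3 f₀ f' f₂ := by
  apply tf_ext; intro β
  rw [PiLp.add_apply, pr3_apply, pr3_apply, pr3_apply, PiLp.add_apply]; ring

theorem pr3_add_2 (f₀ : TF J₀ B) (f₁ : TF J₁ B) (f f' : TF J₂ B) :
    pr3 f₀ f₁ (f + f') = pr3 f₀ f₁ f + pr3 f₀ f₁ f' := by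
  apply tf_ext; intro β
  rw [PiLp.add_apply, pr3_apply, pr3_apply, pr3_apply, PiLp.add_apply]; ring

theorem pr3_smul_0 (c : ℂ) (f : TF J₀ B) (f₁ : TF J₁ B) (f₂ : TF J₂ B) :
    pr3 (c • f) f₁ f₂ = c • pr3 f f₁ f₂ := by
  apply tf_ext; intro β
  rw [PiLp.smul_apply, pr3_apply, pr3_apply, PiLp.smul_apply, smul_eq_mul, smul_eq_mul]; ring

theorem pr3_smul_1 (c : ℂ) (f₀ : TF J₀ B) (f : TF J₁ B) (f₂ : TF J₂ B) :
    pr3 f₀ (c • f) f₂ = c • pr3 f₀ f f₂ := by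
  apply tf_ext; intro β
  rw [PiLp.smul_apply, pr3_apply, pr3_apply, PiLp.smul_apply, smul_eq_mul, smul_eq_mul]; ring

theorem pr3_smul_2 (c : ℂ) (f₀ : TF J₀ B) (f₁ : TF J₁ B) (f : TF J₂ B) :
    pr3 f₀ f₁ (c • f) = c • pr3 f₀ f₁ f := by
  apply tf_ext; intro β
  rw [PiLp.smul_apply, pr3_apply, pr3_apply, PiLp.smul_apply, smul_eq_mul, smul_eq_mul]; ring

/-- the linear map `f₂ ↦ pr3 f₀ f₁ f₂` -/
noncomputable def pr3L2 (f₀ : TF J₀ B) (f₁ : TF J₁ B) : TF J₂ B →ₗ[ℂ] TF (J₀ ⊕ (J₁ ⊕ J₂)) B where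
  toFun f₂ := pr3 f₀ f₁ f₂
  map_add' := pr3_add_2 f₀ f₁
  map_smul' c := pr3_smul_2 c f₀ f₁

/-- the bilinear map `f₁ f₂ ↦ pr3 f₀ f₁ f₂` -/
noncomputable def pr3L12 (f₀ : TF J₀ B) :
    TF J₁ B ⊗[ℂ] TF J₂ B →ₗ[ℂ] TF (J₀ ⊕ (J₁ ⊕ J₂)) B :=
  TensorProduct.lift
    { toFun := fun f₁ => pr3L2 f₀ f₁
      map_add' := fun f f' => LinearMap.ext fun f₂ => pr3_add_1 f₀ f f' f₂
      map_smul' := fun c f => LinearMap.ext fun f₂ => pr3_smul_1 c f₀ f f₂ }

/-- the trilinear map -/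
noncomputable def pr3L :
    TF J₀ B ⊗[ℂ] (TF J₁ B ⊗[ℂ] TF J₂ B) →ₗ[ℂ] TF (J₀ ⊕ (J₁ ⊕ J₂)) B :=
  TensorProduct.lift
    { toFun := fun f₀ => pr3L12 f₀
      map_add' := fun f f' => by
        ext f₁ f₂ : 3
        exact pr3_add_0 f f' f₁ f₂
      map_smul' := fun c f => by
        ext f₁ f₂ : 3
        exact pr3_smul_0 c f f₁ f₂ }

theorem pr3L_tmul (f₀ : TF J₀ B) (f₁ : TF J₁ B) (f₂ : TF J₂ B) :
    pr3L (f₀ ⊗ₜ[ℂ] (f₁ ⊗ₜ[ℂ] f₂)) = pr3 f₀ f₁ f₂ := rfl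

theorem act_pr3 (x : Matrix B B ℂ) (f₀ : TF J₀ B) (f₁ : TF J₁ B) (f₂ : TF J₂ B) :
    act x (pr3 f₀ f₁ f₂) = pr3 (act x f₀) f₁ f₂ + pr3 f₀ (act x f₁) f₂ + pr3 f₀ f₁ (act x f₂) := by
  rw [act, LinearMap.sum_apply, Fintype.sum_sum_type, Fintype.sum_sum_type]
  simp only [slot_pr3_0, slot_pr3_1, slot_pr3_2]
  have h0 : pr3 (act x f₀) f₁ f₂ = ∑ j, pr3 (slot j x f₀) f₁ f₂ := by
    have := map_sum (((pr3L.comp ((TensorProduct.mk ℂ (TF J₀ B) _).flip (f₁ ⊗ₜ[ℂ] f₂)))))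
      (fun j => slot j x f₀) Finset.univ
    rw [act, LinearMap.sum_apply]
    exact this
  have h1 : pr3 f₀ (act x f₁) f₂ = ∑ j, pr3 f₀ (slot j x f₁) f₂ := by
    have := map_sum ((((pr3L12 f₀).comp ((TensorProduct.mk ℂ (TF J₁ B) (TF J₂ B)).flip f₂))))
      (fun j => slot j x f₁) Finset.univ
    rw [act, LinearMap.sum_apply]
    exact this
  have h2 : pr3 f₀ f₁ (act x f₂) = ∑ j, pr3 f₀ f₁ (slot j x f₂) := by
    have := map_sum (pr3L2 f₀ f₁) (fun j => slot j x f₂) Finset.univ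
    rw [act, LinearMap.sum_apply]
    exact this
  rw [h0, h1, h2, add_assoc]

open Classical in
/-- delta functions -/
noncomputable def dl {J : Type*} [Fintype J] [DecidableEq J] (β : J → B) : TF J B :=
  WithLp.toLp 2 fun γ => if γ = β then 1 else 0

theorem dl_self {J : Type*} [Fintype J] [DecidableEq J] (β : J → B) : dl β β = 1 := by
  exact if_pos rfl

theorem dl_ne {J : Type*} [Fintype J] [DecidableEq J] {β γ : J → B} (h : γ ≠ β) :
    dl β γ = 0 := by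
  exact if_neg h

theorem expand_dl {J : Type*} [Fintype J] [DecidableEq J] (f : TF J B) :
    f = ∑ β, f β • dl β := by
  apply tf_ext
  intro γ
  rw [WithLp.ofLp_sum, Finset.sum_apply, Finset.sum_eq_single γ]
  · rw [WithLp.ofLp_smul, Pi.smul_apply, dl_self, smul_eq_mul, mul_one]
  · intro β _ hβ
    rw [WithLp.ofLp_smul, Pi.smul_apply, dl_ne (Ne.symm hβ), smul_zero]
  · intro h
    exact absurd (Finset.mem_univ _) h

theorem pr3_dl (β : J₀ ⊕ (J₁ ⊕ J₂) → B) : pr3 (dl (r0 β)) (dl (r1 β)) (dl (r2 β)) = dl β := by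
  apply tf_ext
  intro γ
  rw [pr3_apply]
  by_cases h : γ = β
  · subst h; rw [dl_self, dl_self, dl_self, dl_self]; norm_num
  · rw [dl_ne h]
    by_cases h0 : r0 γ = r0 β
    · by_cases h1 : r1 γ = r1 β
      · by_cases h2 : r2 γ = r2 β
        · exfalso
          apply h
          funext j
          rcases j with j | j | j
          · exact congrFun h0 j
          · exact congrFun h1 j
          · exact congrFun h2 j
        · rw [dl_ne h2]; simp
      · rw [dl_ne h1]; simp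
    · rw [dl_ne h0]; simp

/-- the functional on the big tensor power attached to a functional on the tensor product -/
noncomputable def bigF (f : TF J₀ B ⊗[ℂ] (TF J₁ B ⊗[ℂ] TF J₂ B) →ₗ[ℂ] ℂ) :
    TF (J₀ ⊕ (J₁ ⊕ J₂)) B →ₗ[ℂ] ℂ where
  toFun h := ∑ β, h β * f (dl (r0 β) ⊗ₜ[ℂ] (dl (r1 β) ⊗ₜ[ℂ] dl (r2 β)))
  map_add' h h' := by
    rw [← Finset.sum_add_distrib]
    exact Finset.sum_congr rfl fun β _ => by rw [PiLp.add_apply, add_mul]
  map_smul' c h := by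
    rw [RingHom.id_apply, smul_eq_mul, Finset.mul_sum]
    exact Finset.sum_congr rfl fun β _ => by rw [PiLp.smul_apply, smul_eq_mul, mul_assoc]

theorem bigF_dl (f : TF J₀ B ⊗[ℂ] (TF J₁ B ⊗[ℂ] TF J₂ B) →ₗ[ℂ] ℂ) (β : J₀ ⊕ (J₁ ⊕ J₂) → B) :
    bigF f (dl β) = f (dl (r0 β) ⊗ₜ[ℂ] (dl (r1 β) ⊗ₜ[ℂ] dl (r2 β))) := by
  show ∑ γ, dl β γ * _ = _
  rw [Finset.sum_eq_single β]
  · rw [dl_self, one_mul]
  · intro γ _ hγ
    rw [dl_ne hγ, zero_mul]
  · intro h
    exact absurd (Finset.mem_univ _) h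

/-- glue indices -/
def glue (a : J₀ → B) (b : J₁ → B) (c : J₂ → B) : J₀ ⊕ (J₁ ⊕ J₂) → B :=
  Sum.elim a (Sum.elim b c)

theorem bigF_pr3 (f : TF J₀ B ⊗[ℂ] (TF J₁ B ⊗[ℂ] TF J₂ B) →ₗ[ℂ] ℂ)
    (u : TF J₀ B ⊗[ℂ] (TF J₁ B ⊗[ℂ] TF J₂ B)) : bigF f (pr3L u) = f u := by
  have key : (bigF f).comp pr3L = f := by
    ext f₀ f₁ f₂ : 5
    show bigF f (pr3 f₀ f₁ f₂) = f (f₀ ⊗ₜ[ℂ] (f₁ ⊗ₜ[ℂ] f₂))
    have h : ∀ (a : J₀ → B) (b : J₁ → B) (c : J₂ → B),
        bigF f (pr3 (dl a) (dl b) (dl c)) = f (dl a ⊗ₜ[ℂ] (dl b ⊗ₜ[ℂ] dl c)) := by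
      intro a b c
      have := bigF_dl f (glue a b c)
      rw [← pr3_dl (glue a b c)] at this
      exact this
    have e0 := expand_dl f₀
    have e1 := expand_dl f₁
    have e2 := expand_dl f₂
    have h2 : ∀ (a : J₀ → B) (b : J₁ → B),
        bigF f (pr3 (dl a) (dl b) f₂) = f (dl a ⊗ₜ[ℂ] (dl b ⊗ₜ[ℂ] f₂)) := by
      intro a b
      have L1 : (bigF f).comp (pr3L2 (dl a) (dl b)) =
          f.comp ((TensorProduct.mk ℂ _ _ (dl a)).comp (TensorProduct.mk ℂ (TF J₁ B) (TF J₂ B) (dl b))) := by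
        refine LinearMap.ext fun w => ?_
        rw [expand_dl w, map_sum, map_sum]
        refine Finset.sum_congr rfl fun c _ => ?_
        rw [map_smul, map_smul]
        congr 1
        exact h a b c
      exact LinearMap.congr_fun L1 f₂
    have h1 : ∀ (a : J₀ → B), bigF f (pr3 (dl a) f₁ f₂) = f (dl a ⊗ₜ[ℂ] (f₁ ⊗ₜ[ℂ] f₂)) := by
      intro a
      have L1 : (bigF f).comp ((pr3L12 (dl a)).comp
          ((TensorProduct.mk ℂ (TF J₁ B) (TF J₂ B)).flip f₂)) =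
          f.comp ((TensorProduct.mk ℂ _ _ (dl a)).comp
            ((TensorProduct.mk ℂ (TF J₁ B) (TF J₂ B)).flip f₂)) := by
        refine LinearMap.ext fun w => ?_
        rw [expand_dl w, map_sum, map_sum]
        refine Finset.sum_congr rfl fun c _ => ?_
        rw [map_smul, map_smul]
        congr 1
        exact h2 a c
      exact LinearMap.congr_fun L1 f₁
    have L1 : (bigF f).comp (pr3L.comp
          ((TensorProduct.mk ℂ (TF J₀ B) _).flip (f₁ ⊗ₜ[ℂ] f₂))) =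
          f.comp ((TensorProduct.mk ℂ (TF J₀ B) _).flip (f₁ ⊗ₜ[ℂ] f₂)) := by
      refine LinearMap.ext fun w => ?_
      rw [expand_dl w, map_sum, map_sum]
      refine Finset.sum_congr rfl fun c _ => ?_
      rw [map_smul, map_smul]
      congr 1
      exact h1 c
    exact LinearMap.congr_fun L1 f₀
  exact LinearMap.congr_fun key u

end triple

section main

variable {n : ℕ} {J₀ J₁ J₂ : Type*} [Fintype J₀] [Fintype J₁] [Fintype J₂]
  [DecidableEq J₀] [DecidableEq J₁] [DecidableEq J₂]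

theorem pr3L_lie (x : so n) (u : TF J₀ (Fin n ⊕ Fin n) ⊗[ℂ]
    (TF J₁ (Fin n ⊕ Fin n) ⊗[ℂ] TF J₂ (Fin n ⊕ Fin n))) :
    pr3L ⁅x, u⁆ = act x.1 (pr3L u) := by
  induction u using TensorProduct.induction_on with
  | zero => simp
  | add a b ha hb => rw [lie_add, map_add, map_add, map_add, ha, hb]
  | tmul f₀ v =>
    induction v using TensorProduct.induction_on with
    | zero => simp
    | add a b ha hb => rw [TensorProduct.tmul_add, lie_add, map_add, map_add, map_add, ha, hb]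
    | tmul f₁ f₂ =>
      rw [TensorProduct.LieModule.lie_tmul_right, TensorProduct.LieModule.lie_tmul_right,
        TensorProduct.tmul_add, map_add, map_add, pr3L_tmul, pr3L_tmul, pr3L_tmul, pr3L_tmul,
        act_pr3, tf_lie, tf_lie, tf_lie, add_assoc]

/-- The space of invariants of three irreducible modules is nonzero iff there is an invariant
functional on the tensor power which does not vanish on the orbit. -/
theorem hasInvariants_iff (hn : 2 ≤ n) {l₀ l₁ l₂ : Fin n → ℤ} (h₀ : DomZ l₀) (h₁ : DomZ l₁)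
    (h₂ : DomZ l₂)
    {V₀ V₁ V₂ : Type*} [AddCommGroup V₀] [Module ℂ V₀]
    [LieRingModule (so n) V₀] [LieModule ℂ (so n) V₀] [AddCommGroup V₁] [Module ℂ V₁]
    [LieRingModule (so n) V₁] [LieModule ℂ (so n) V₁] [AddCommGroup V₂] [Module ℂ V₂]
    [LieRingModule (so n) V₂] [LieModule ℂ (so n) V₂]
    [LieModule.IsIrreducible ℂ (so n) V₀] [LieModule.IsIrreducible ℂ (so n) V₁]
    [LieModule.IsIrreducible ℂ (so n) V₂]
    (w₀ : HasHighestWeight (fun i => (l₀ i : ℚ)) V₀)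
    (w₁ : HasHighestWeight (fun i => (l₁ i : ℚ)) V₁)
    (w₂ : HasHighestWeight (fun i => (l₂ i : ℚ)) V₂) :
    HasInvariants (n := n) V₀ V₁ V₂ ↔
      ∃ F : TF (Cell l₀ ⊕ (Cell l₁ ⊕ Cell l₂)) (Fin n ⊕ Fin n) →ₗ[ℂ] ℂ,
        (∀ (x : so n) h, F (act x.1 h) = 0) ∧
        ∃ g₀ g₁ g₂, InE n g₀ ∧ InE n g₁ ∧ InE n g₂ ∧
          F (pr3 (asymM l₀ g₀) (asymM l₁ g₁) (asymM l₂ g₂)) ≠ 0 := by
  obtain ⟨v₀, hv₀, hv₀'⟩ := w₀
  obtain ⟨v₁, hv₁, hv₁'⟩ := w₁
  obtain ⟨v₂, hv₂, hv₂'⟩ := w₂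
  have H₀ := (isHW_iff (V := V₀) (fun i => (l₀ i : ℚ)) v₀).mpr hv₀'
  have H₁ := (isHW_iff (V := V₁) (fun i => (l₁ i : ℚ)) v₁).mpr hv₁'
  have H₂ := (isHW_iff (V := V₂) (fun i => (l₂ i : ℚ)) v₂).mpr hv₂'
  rw [HasInvariants, maxTriv_ne_bot_iff (τ := tau) tf_unitary tf_unitary tf_unitary tau_tau (triD n)
    (asymM_isHW h₀) (asymM_isHW h₁) (asymM_isHW h₂) (asymM_one_ne_zero l₀) (asymM_one_ne_zero l₁)
    (asymM_one_ne_zero l₂) H₀ H₁ H₂ hv₀ hv₁ hv₂]
  have c₀ := cyc_eq_span hn h₀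
  have c₁ := cyc_eq_span hn h₁
  have c₂ := cyc_eq_span hn h₂
  constructor
  · rintro ⟨f, hf, a, ha, b, hb, c, hc, hne⟩
    refine ⟨bigF f, ?_, ?_⟩
    · intro x h
      rw [expand_dl h, map_sum, map_sum]
      refine Finset.sum_eq_zero fun β _ => ?_
      rw [map_smul, map_smul, ← pr3_dl β, ← pr3L_tmul, ← pr3L_lie, bigF_pr3, hf, smul_zero]
    · by_contra hcon
      push Not at hcon
      apply hne
      have hcon' : ∀ g₀ g₁ g₂, InE n g₀ → InE n g₁ → InE n g₂ →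
          f (asymM l₀ g₀ ⊗ₜ[ℂ] (asymM l₁ g₁ ⊗ₜ[ℂ] asymM l₂ g₂)) = 0 := by
        intro g₀ g₁ g₂ e₀ e₁ e₂
        rw [← bigF_pr3, pr3L_tmul]
        exact hcon g₀ g₁ g₂ e₀ e₁ e₂
      have ha' : a ∈ Submodule.span ℂ {w | ∃ g, InE n g ∧ w = asymM l₀ g} := by
        rw [← c₀]; exact ha
      have hb' : b ∈ Submodule.span ℂ {w | ∃ g, InE n g ∧ w = asymM l₁ g} := by
        rw [← c₁]; exact hb
      have hc' : c ∈ Submodule.span ℂ {w | ∃ g, InE n g ∧ w = asymM l₂ g} := by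
        rw [← c₂]; exact hc
      clear hne ha hb hc
      induction ha' using Submodule.span_induction with
      | zero => rw [TensorProduct.zero_tmul, map_zero]
      | add u v _ _ hu hv => rw [TensorProduct.add_tmul, map_add, hu, hv, add_zero]
      | smul r u _ hu => rw [← TensorProduct.smul_tmul', map_smul, hu, smul_zero]
      | mem u hu =>
        obtain ⟨g₀, e₀, rfl⟩ := hu
        induction hb' using Submodule.span_induction with
        | zero => rw [TensorProduct.zero_tmul, TensorProduct.tmul_zero, map_zero]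
        | add u v _ _ hu hv =>
          rw [TensorProduct.add_tmul, TensorProduct.tmul_add, map_add, hu, hv, add_zero]
        | smul r u _ hu =>
          rw [← TensorProduct.smul_tmul', TensorProduct.tmul_smul, map_smul, hu, smul_zero]
        | mem u hu =>
          obtain ⟨g₁, e₁, rfl⟩ := hu
          induction hc' using Submodule.span_induction with
          | zero => rw [TensorProduct.tmul_zero, TensorProduct.tmul_zero, map_zero]
          | add u v _ _ hu hv =>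
            rw [TensorProduct.tmul_add, TensorProduct.tmul_add, map_add, hu, hv, add_zero]
          | smul r u _ hu =>
            rw [TensorProduct.tmul_smul, TensorProduct.tmul_smul, map_smul, hu, smul_zero]
          | mem u hu =>
            obtain ⟨g₂, e₂, rfl⟩ := hu
            exact hcon' g₀ g₁ g₂ e₀ e₁ e₂
  · rintro ⟨F, hF, g₀, g₁, g₂, e₀, e₁, e₂, hne⟩
    refine ⟨F.comp pr3L, ?_, asymM l₀ g₀, ?_, asymM l₁ g₁, ?_, asymM l₂ g₂, ?_, hne⟩
    · intro x u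
      rw [LinearMap.comp_apply, pr3L_lie, hF]
    · have : asymM l₀ g₀ ∈ (cyc (triD n) (asymM_isHW h₀)).toSubmodule := by
        rw [c₀]; exact Submodule.subset_span ⟨g₀, e₀, rfl⟩
      exact this
    · have : asymM l₁ g₁ ∈ (cyc (triD n) (asymM_isHW h₁)).toSubmodule := by
        rw [c₁]; exact Submodule.subset_span ⟨g₁, e₁, rfl⟩
      exact this
    · have : asymM l₂ g₂ ∈ (cyc (triD n) (asymM_isHW h₂)).toSubmodule := by
        rw [c₂]; exact Submodule.subset_span ⟨g₂, e₂, rfl⟩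
      exact this

end main

end Vale.Agent.P182
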