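import Vale.Agent.P182.H163.BridgeA
import Vale.Agent.P182.H163.FracDer

/-!
# Words in the root subgroups with generic parameters
-/

namespace Vale.Agent.P182

open LieAlgebra.Orthogonal

attribute [local instance 100] LieRing.ofAssociativeRing

section words

variable {n : ℕ} {A : Type*} [CommRing A] [Algebra ℂ A]

/-- the matrix of `x` over `A` -/
def mp (A : Type*) [CommRing A] [Algebra ℂ A] (x : so n) : Matrix (Fin n ⊕ Fin n) (Fin n ⊕ Fin n) A :=
  x.1.map (algebraMap ℂ A)

theorem mp_complex (x : so n) : mp ℂ x = x.1 := by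
  ext b b'
  rfl

theorem mp_sq {x : so n} (hx : x ∈ rootSet n) : mp A x * mp A x = 0 := by
  rw [mp, ← Matrix.map_mul, rootSet_sq hx, Matrix.map_zero _ (map_zero _)]

theorem mp_map {A' : Type*} [CommRing A'] [Algebra ℂ A'] (φ : A →ₐ[ℂ] A') (x : so n) :
    (mp A x).map φ = mp A' x := by
  rw [mp, mp, Matrix.map_map]
  congr 1
  funext c
  exact φ.commutes c

/-- product of root elements with parameters -/
def wp : List (so n) → (ℕ → A) → Matrix (Fin n ⊕ Fin n) (Fin n ⊕ Fin n) A
  | [], _ => 1
  | x :: l, y => (1 + y 0 • mp A x) * wp l (fun k => y (k + 1))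

/-- inverse of `wp` -/
def wpi : List (so n) → (ℕ → A) → Matrix (Fin n ⊕ Fin n) (Fin n ⊕ Fin n) A
  | [], _ => 1
  | x :: l, y => wpi l (fun k => y (k + 1)) * (1 - y 0 • mp A x)

/-- the tangent vectors of `wp` -/
def tv : List (so n) → (ℕ → A) → ℕ → Matrix (Fin n ⊕ Fin n) (Fin n ⊕ Fin n) A
  | [], _, _ => 0
  | x :: _, _, 0 => mp A x
  | x :: l, y, k + 1 => (1 + y 0 • mp A x) * tv l (fun k => y (k + 1)) k * (1 - y 0 • mp A x)

theorem add_mul_sub {x : so n} (hx : x ∈ rootSet n) (c : A) :
    (1 + c • mp A x) * (1 - c • mp A x) = 1 := by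
  have h := mp_sq (A := A) hx
  rw [mul_sub, mul_one, add_mul, one_mul, smul_mul_smul_comm, h, smul_zero, add_zero,
    add_sub_cancel_right]

theorem sub_mul_add {x : so n} (hx : x ∈ rootSet n) (c : A) :
    (1 - c • mp A x) * (1 + c • mp A x) = 1 := by
  have h := mp_sq (A := A) hx
  rw [mul_add, mul_one, sub_mul, one_mul, smul_mul_smul_comm, h, smul_zero, sub_zero,
    sub_add_cancel]

theorem wp_mul_wpi {l : List (so n)} (hl : ∀ x ∈ l, x ∈ rootSet n) (y : ℕ → A) :
    wp l y * wpi l y = 1 := by
  induction l generalizing y with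
  | nil => simp [wp, wpi]
  | cons x l ih =>
    rw [wp, wpi, Matrix.mul_assoc, ← Matrix.mul_assoc (wp l _),
      ih (fun z hz => hl z (List.mem_cons_of_mem _ hz)), Matrix.one_mul,
      add_mul_sub (hl x List.mem_cons_self)]

theorem wp_map {A' : Type*} [CommRing A'] [Algebra ℂ A'] (φ : A →ₐ[ℂ] A') (l : List (so n))
    (y : ℕ → A) : (wp l y).map φ = wp l (fun k => φ (y k)) := by
  induction l generalizing y with
  | nil =>
    rw [wp, wp, Matrix.map_one _ (map_zero _) (map_one _)]
  | cons x l ih =>
    rw [wp, wp, Matrix.map_mul, ih]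
    congr 1
    rw [Matrix.map_add _ (map_add _), Matrix.map_one _ (map_zero _) (map_one _)]
    congr 1
    rw [← mp_map φ x]
    ext b b'
    simp

theorem tv_map {A' : Type*} [CommRing A'] [Algebra ℂ A'] (φ : A →ₐ[ℂ] A') (l : List (so n))
    (y : ℕ → A) (k : ℕ) : (tv l y k).map φ = tv l (fun k => φ (y k)) k := by
  induction l generalizing y k with
  | nil =>
    rw [tv, tv, Matrix.map_zero _ (map_zero _)]
  | cons x l ih =>
    have h1 : (1 + y 0 • mp A x).map φ = 1 + φ (y 0) • mp A' x := by
      rw [Matrix.map_add _ (map_add _), Matrix.map_one _ (map_zero _) (map_one _)]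
      congr 1
      rw [← mp_map φ x]
      ext b b'
      simp
    have h2 : (1 - y 0 • mp A x).map φ = 1 - φ (y 0) • mp A' x := by
      rw [Matrix.map_sub _ (map_sub _), Matrix.map_one _ (map_zero _) (map_one _)]
      congr 1
      rw [← mp_map φ x]
      ext b b'
      simp
    cases k with
    | zero => rw [tv, tv, mp_map]
    | succ k =>
      rw [tv, tv, Matrix.map_mul, Matrix.map_mul, ih, h1, h2]

theorem wp_append (l₁ l₂ : List (so n)) (y : ℕ → A) :
    wp (l₁ ++ l₂) y = wp l₁ y * wp l₂ (fun k => y (l₁.length + k)) := by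
  induction l₁ generalizing y with
  | nil => simp [wp]
  | cons x l ih =>
    rw [List.cons_append, wp, wp, ih, Matrix.mul_assoc]
    congr 3
    funext k
    congr 1
    rw [List.length_cons]; ring

theorem wp_congr {l : List (so n)} {y y' : ℕ → A} (h : ∀ k < l.length, y k = y' k) :
    wp l y = wp l y' := by
  induction l generalizing y y' with
  | nil => rfl
  | cons x l ih =>
    rw [wp, wp, h 0 (by simp), ih fun k hk => h (k + 1) (by simpa using hk)]

theorem wp_zero (l : List (so n)) : wp l (fun _ => (0 : A)) = 1 := by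
  induction l with
  | nil => rfl
  | cons x l ih => rw [wp, ih, zero_smul, add_zero, Matrix.mul_one]

theorem tv_append_left (l₁ l₂ : List (so n)) (y : ℕ → A) {k : ℕ} (hk : k < l₁.length) :
    tv (l₁ ++ l₂) y k = tv l₁ y k := by
  induction l₁ generalizing y k with
  | nil => simp at hk
  | cons x l ih =>
    cases k with
    | zero => rfl
    | succ k =>
      rw [List.cons_append, tv, tv, ih _ (by simpa using hk)]

theorem tv_append_right (l₁ l₂ : List (so n)) (y : ℕ → A) (k : ℕ) :
    tv (l₁ ++ l₂) y (l₁.length + k) =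
      wp l₁ y * tv l₂ (fun k => y (l₁.length + k)) k * wpi l₁ y := by
  induction l₁ generalizing y with
  | nil => simp [wp, wpi]
  | cons x l ih =>
    rw [List.cons_append, List.length_cons, show l.length + 1 + k = (l.length + k) + 1 by ring, tv,
      ih, wp, wpi]
    simp only [Matrix.mul_assoc]
    congr 3
    congr 1
    · funext k
      congr 1
      ring

theorem tv_congr {l : List (so n)} {y y' : ℕ → A} (h : ∀ k < l.length, y k = y' k) (k : ℕ) :
    tv l y k = tv l y' k := by
  induction l generalizing y y' k with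
  | nil => rfl
  | cons x l ih =>
    cases k with
    | zero => rfl
    | succ k =>
      rw [tv, tv, h 0 (by simp), ih fun k hk => h (k + 1) (by simpa using hk)]

/-- derivations -/
theorem wp_der {l : List (so n)} (hl : ∀ x ∈ l, x ∈ rootSet n) (D : Derivation ℂ A A) (y : ℕ → A) :
    (wp l y).map D = (∑ k ∈ Finset.range l.length, D (y k) • tv l y k) * wp l y := by
  have hmul : ∀ M N : Matrix (Fin n ⊕ Fin n) (Fin n ⊕ Fin n) A,
      (M * N).map D = M.map D * N + M * N.map D := by
    intro M N
    ext b b'
    simp only [Matrix.map_apply, Matrix.mul_apply, Matrix.add_apply, map_sum, Derivation.leibniz,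
      smul_eq_mul, Finset.sum_add_distrib]
    rw [add_comm]
    congr 1
    exact Finset.sum_congr rfl fun _ _ => mul_comm _ _
  induction l generalizing y with
  | nil =>
    rw [wp]
    ext b b'
    simp only [Matrix.map_apply, List.length_nil, Finset.range_zero, Finset.sum_empty,
      Matrix.zero_mul, Matrix.zero_apply, Matrix.one_apply]
    split_ifs <;> simp
  | cons x l ih =>
    have hx := hl x List.mem_cons_self
    have hone : (1 + y 0 • mp A x).map D = D (y 0) • mp A x := by
      ext b b'
      simp only [Matrix.map_apply, Matrix.add_apply, Matrix.one_apply, map_add, Matrix.smul_apply,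
        smul_eq_mul, Derivation.leibniz, mp, Derivation.map_algebraMap, mul_zero, zero_add]
      split_ifs <;> simp [mul_comm]
    have h1 : ∑ k ∈ Finset.range l.length, D (y (k + 1)) • tv (x :: l) y (k + 1) =
        (1 + y 0 • mp A x) *
          (∑ k ∈ Finset.range l.length, D (y (k + 1)) • tv l (fun k => y (k + 1)) k) *
          (1 - y 0 • mp A x) := by
      rw [Finset.mul_sum, Finset.sum_mul]
      refine Finset.sum_congr rfl fun k _ => ?_
      rw [tv, Matrix.mul_smul, Matrix.smul_mul]
    have h2 : mp A x * (1 + y 0 • mp A x) = mp A x := by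
      rw [mul_add, mul_one, mul_smul_comm, mp_sq hx, smul_zero, add_zero]
    have key : ∀ (P Q T W X : Matrix (Fin n ⊕ Fin n) (Fin n ⊕ Fin n) A) (c : A), Q * P = 1 →
        X * P = X → c • X * W + P * (T * W) = (P * T * Q + c • X) * (P * W) := by
      intro P Q T W X c h h'
      rw [Matrix.add_mul, Matrix.smul_mul, Matrix.smul_mul, ← Matrix.mul_assoc X, h',
        Matrix.mul_assoc (P * T), ← Matrix.mul_assoc Q, h, Matrix.one_mul, Matrix.mul_assoc,
        add_comm]
    rw [wp, hmul, hone, ih (fun z hz => hl z (List.mem_cons_of_mem _ hz)), List.length_cons,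
      Finset.sum_range_succ', h1]
    exact key _ _ _ _ _ _ (sub_mul_add hx _) h2

end words

end Vale.Agent.P182
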